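import Vale.Agent.P092.H325.ClGood
import Vale.Agent.P092.H416.CLpt
import Vale.Agent.P092.CL.Defs

/-!
P092, Team P, tracks 2 and 3 (helper325): **[CL-XC]**, the two classical legs commute, in the
letters of the common record (`FormGroup σ J`, `SGr σ J 1`, any Witt index `≥ 2`, any local field),
with helper416's adapter `pt e`, `rho e σ J`. Output letter of a classical leg: `SX.ClsF`.
-/

set_option linter.all false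

open scoped InnerProductSpace ENNReal ZeroAtInfty LinearAlgebra.Projectivization
open Filter Topology ContinuousLinearMap MeasureTheory Matrix

namespace Vale.Agent.P092.H325.CL

open Vale.Agent.P092.H303 (FormGroup)
open Vale.Agent.P092.H370.Po
open Vale.Agent.P092.H714.Cl (hf Frm)
open Vale.Agent.P092.RC (Cm GG PG YY)
open Vale.Agent.P092.SN (CY PH nm)
open Vale.Agent.P092.H416.CL (pt rho Je range_pt rho_cor cor roc cor_roc)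

section good

variable {n : Type} [Fintype n] [DecidableEq n] {k : Type} [NontriviallyNormedField k]
  {σ : k →+* k} {ε : k} {J : Matrix n n k} {N : ℕ}

/-- **good frames** for `FormGroup σ J` in the letters of `H416/CLpt` -/
theorem goodFr (e : n ≃ Fin (N + 1)) (hF : Frm σ ε J) {r : ℕ} (hW : WI σ J r) (hr : 2 ≤ r) :
    SX.GoodFr (pt e : SGr σ J 1 → _) (rho e σ J) := by
  refine goodFr_cl e hF hW hr (rho e σ J) (fun g x => ?_) _ fun v hv h => ?_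
  · have h1 := rho_cor e g (roc e x)
    rw [cor_roc] at h1
    rw [h1]
    funext i
    change (roc e x ᵥ* (g.1⁻¹).1) (e.symm i) = (((g⁻¹ : FormGroup σ J).1.1)ᵀ *ᵥ (x ∘ e)) (e.symm i)
    rw [mulVec_transpose]
    rfl
  · have h1 : hf σ (Je e J) v v = 0 := by
      change hf σ (J.submatrix e.symm e.symm) v v = 0
      rw [hf_re]
      exact h
    exact (range_pt e hv).2 h1

end good

section xc

variable {n : Type} [Fintype n] [DecidableEq n] {k l₁ l₂ : Type} [NontriviallyNormedField k]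
  [NontriviallyNormedField l₁] [ProperSpace l₁] [NontriviallyNormedField l₂] [ProperSpace l₂]
  {σ : k →+* k} {ε : k} {J : Matrix n n k} {N : ℕ}
  {E₀ Γ₁ Γ₂ K : Type} [Group E₀] [TopologicalSpace E₀] [Group Γ₁] [Group Γ₂]
  [NormedAddCommGroup K] [InnerProductSpace ℂ K] [CompleteSpace K]
  {ι : FormGroup σ J →* E₀} {π : E₀ →* (K →L[ℂ] K)} {lam₁ : Γ₁ →* (K →L[ℂ] K)}
  {lam₂ : Γ₂ →* (K →L[ℂ] K)} {X : Set (K →L[ℂ] K)} {Ω : K} {q₁ : Γ₁ → GG l₁ N}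
  {q₂ : Γ₂ → GG l₂ N}
  {E₁ : SGr σ J 1 → (CY l₁ N →⋆ₐ[ℂ] (K →L[ℂ] K))} {E₂ : SGr σ J 1 → (CY l₂ N →⋆ₐ[ℂ] (K →L[ℂ] K))}
  {τ₁ : k →+* l₁} {τ₂ : k →+* l₂}
  {Q₁ : C₀(PG l₁ (N + 1), ℂ) →⋆ₙₐ[ℂ] (K →L[ℂ] K)} {Q₂ : C₀(PG l₂ (N + 1), ℂ) →⋆ₙₐ[ℂ] (K →L[ℂ] K)}

/-- **[CL-XC]** -/
theorem xcCL [Countable Γ₁] (e : n ≃ Fin (N + 1)) (hF : Frm σ ε J) {r : ℕ} (hW : WI σ J r)
    (hr : 2 ≤ r) (hPic : RC.PicX π lam₁ (X ∪ Set.range lam₂) Ω)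
    (tv : ∀ Y, Cm (X ∪ Set.range lam₂) Y → (∀ γ, Y * lam₁ γ = lam₁ γ * Y) →
      ∀ h : FormGroup σ J, ⟪π (ι h) Ω, Y (π (ι h) Ω)⟫_ℂ = ⟪Ω, Y Ω⟫_ℂ)
    (adj₂ : ∀ γ, adjoint (lam₂ γ) = lam₂ γ⁻¹) (ph₁ : PH q₁) (ph₂ : PH q₂)
    (disc₁ : ∀ C : ℝ, {γ : Γ₁ | nm (q₁ γ) ≤ C}.Finite)
    (h₁ : SX.ClsF (pt e) (rho e σ J) ι π lam₁ (X ∪ Set.range lam₂) q₁ E₁ τ₁ Q₁)
    (h₂ : SX.ClsF (pt e) (rho e σ J) ι π lam₂ (X ∪ Set.range lam₁) q₂ E₂ τ₂ Q₂)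
    (ψ : C₀(PG l₁ (N + 1), ℂ)) (φ : C₀(PG l₂ (N + 1), ℂ)) : Commute (Q₁ ψ) (Q₂ φ) :=
  SX.xcF (goodFr e hF hW hr) hPic tv adj₂ ph₁ ph₂ (fun C hC => overlap_disc ph₁ disc₁ hC) h₁ h₂ ψ φ

end xc

/-! ### in the letters of the common record -/

section rec

open Vale.Agent.P092.CL (Lt PB)

variable {n : Type} [Fintype n] [DecidableEq n] {k : Type} [NontriviallyNormedField k]
  {σ : k →+* k} {ε : k} {J : Matrix n n k} {N r : ℕ} {P M V₁ V₂ : Type} [MeasurableSpace V₁]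
  [MeasurableSpace V₂]

/-- the scalars of the record are scalar matrices -/
def Sc (e : n ≃ Fin (N + 1)) (L : Lt (FormGroup σ J) P M V₁ V₂) : Prop :=
  ∀ z ∈ L.Z, ∃ c : k, (rho e σ J z).1 = c • (1 : Matrix (Fin (N + 1)) (Fin (N + 1)) k)

/-- the size of the record is at most a function of the size of the columns -/
def Nmc (e : n ≃ Fin (N + 1)) (L : Lt (FormGroup σ J) P M V₁ V₂) : Prop :=
  ∀ C : ℝ, ∃ C' : ℝ, ∀ g, nm (rho e σ J g) ≤ C → L.nm g ≤ C'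

theorem ph_rho {Γ : Type} [Group Γ] {e : n ≃ Fin (N + 1)} {L : Lt (FormGroup σ J) P M V₁ V₂}
    (hZ : Sc e L) {q : Γ → FormGroup σ J} (h : L.PH q) : PH fun γ => rho e σ J (q γ) := by
  intro γ γ'
  obtain ⟨z, hz, h1⟩ := h γ γ'
  obtain ⟨c, hc⟩ := hZ z hz
  refine ⟨c, ?_⟩
  change (rho e σ J (q (γ * γ'))).1 = c • (rho e σ J (q γ) * rho e σ J (q γ')).1
  rw [h1, map_mul, map_mul]
  change (rho e σ J z).1 * (rho e σ J (q γ) * rho e σ J (q γ')).1 = _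
  rw [hc, smul_mul_assoc, one_mul]

theorem fin_rho {Γ : Type} {e : n ≃ Fin (N + 1)} {L : Lt (FormGroup σ J) P M V₁ V₂}
    (hN : Nmc e L) {q : Γ → FormGroup σ J} (h : ∀ C : ℝ, {γ | L.nm (q γ) ≤ C}.Finite) (C : ℝ) :
    {γ | nm (rho e σ J (q γ)) ≤ C}.Finite := by
  obtain ⟨C', hC'⟩ := hN C
  exact (h C').subset fun γ hγ => hC' _ hγ

variable [ProperSpace k] [NormedAddCommGroup V₁] [NormedAddCommGroup V₂] [TopologicalSpace P]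
  [CompactSpace P] [MulAction (FormGroup σ J) P] [ContinuousConstSMul (FormGroup σ J) P]
  [TopologicalSpace M] [CompactSpace M] [MulAction (FormGroup σ J) M]
  [ContinuousConstSMul (FormGroup σ J) M]
  {E₀ Γ K : Type} [Group E₀] [TopologicalSpace E₀] [Group Γ] [Countable Γ]
  [NormedAddCommGroup K] [InnerProductSpace ℂ K] [CompleteSpace K]
  {L : Lt (FormGroup σ J) P M V₁ V₂} {𝒰 : Ultrafilter ℕ}
  {ι : FormGroup σ J →* E₀} {π : E₀ →* (K →L[ℂ] K)} {lam₁ lam₂ : Γ →* (K →L[ℂ] K)}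
  {X : Set (K →L[ℂ] K)} {Ω : K} {m₁ m₂ : Set Γ → (K →L[ℂ] K)} {q₁ q₂ : Γ → FormGroup σ J}
  {E₁ E₂ : SGr σ J 1 → (CY k N →⋆ₐ[ℂ] (K →L[ℂ] K))} {τ₁ τ₂ : k →+* k}
  {Q₁ Q₂ : C₀(PG k (N + 1), ℂ) →⋆ₙₐ[ℂ] (K →L[ℂ] K)}

/-- **[CL-XC]**, from the two base records -/
theorem xcL (e : n ≃ Fin (N + 1)) (hF : Frm σ ε J) (hW : WI σ J r) (hr : 2 ≤ r) (hZ : Sc e L)
    (hN : Nmc e L) (b₁ : PB L 𝒰 ι π lam₁ (X ∪ Set.range lam₂) Ω m₁ q₁)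
    (b₂ : PB L 𝒰 ι π lam₂ (X ∪ Set.range lam₁) Ω m₂ q₂)
    (t₁ : SN.TVE π lam₁ (X ∪ Set.range lam₂) Ω)
    (h₁ : SX.ClsF (pt e) (rho e σ J) ι π lam₁ (X ∪ Set.range lam₂)
      (fun γ => rho e σ J (q₁ γ)) E₁ τ₁ Q₁)
    (h₂ : SX.ClsF (pt e) (rho e σ J) ι π lam₂ (X ∪ Set.range lam₁)
      (fun γ => rho e σ J (q₂ γ)) E₂ τ₂ Q₂)
    (ψ φ : C₀(PG k (N + 1), ℂ)) : Commute (Q₁ ψ) (Q₂ φ) :=
  xcCL e hF hW hr b₁.pic (fun Y h1 h2 h => t₁ Y ⟨h1, h2⟩ (ι h)) b₂.pic.adjL (ph_rho hZ b₁.ph)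
    (ph_rho hZ b₂.ph) (fin_rho hN b₁.fin) h₁ h₂ ψ φ

end rec

end Vale.Agent.P092.H325.CL
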