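import Vale.Agent.P092.H325.ClXc
import Vale.Agent.P092.CL.Lt

/-!
P092, Team P, tracks 2 and 3 (helper325): **[CL-XC]** for the concrete letters `CL.lt`.
-/

set_option linter.all false

open scoped InnerProductSpace ENNReal ZeroAtInfty LinearAlgebra.Projectivization
open Filter Topology ContinuousLinearMap MeasureTheory Matrix

namespace Vale.Agent.P092.H325.CL

open Vale.Agent.P092.H303 (FormGroup hyp Idx)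
open Vale.Agent.P092.H370.Po
open Vale.Agent.P092.H714.Cl (hf Frm)
open Vale.Agent.P092.RC (Cm GG PG YY)
open Vale.Agent.P092.SN (CY PH nm)
open Vale.Agent.P092.H416.CL (pt rho)
open Vale.Agent.P092.CL (Lt PB lt ta nmM scal V2)

section lt_

variable {k : Type} [NontriviallyNormedField k] [MeasurableSpace k] {ι₀ : Type} [Fintype ι₀]
  [DecidableEq ι₀] {s N : ℕ} {σ : k →+* k} {ε : k} {J₀ : Matrix ι₀ ι₀ k}

theorem sc_lt (e : Idx (s + 2) ι₀ ≃ Fin (N + 1)) (hF : Frm σ ε (hyp (s + 2) ε J₀)) {w : k}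
    (hw : w ≠ 0) (hσ : σ w = w) (μ₁ : Measure k) (μ₂ : Measure (V2 σ ε)) :
    Sc e (lt hF hw hσ μ₁ μ₂) := by
  intro z hz
  have h1 : (z.1)⁻¹ ∈ scal k (Idx (s + 2) ι₀) := inv_mem (Subgroup.mem_subgroupOf.1 hz)
  obtain ⟨c, hc⟩ := h1
  refine ⟨c, ?_⟩
  change ((z.1⁻¹).1)ᵀ.submatrix e.symm e.symm = _
  rw [hc, transpose_smul, transpose_one]
  ext i j
  change c * (1 : Matrix (Idx (s + 2) ι₀) (Idx (s + 2) ι₀) k) (e.symm i) (e.symm j) =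
    c * (1 : Matrix (Fin (N + 1)) (Fin (N + 1)) k) i j
  congr 1
  simp only [one_apply, e.symm.injective.eq_iff]

theorem nmc_lt (e : Idx (s + 2) ι₀ ≃ Fin (N + 1)) (hF : Frm σ ε (hyp (s + 2) ε J₀)) {w : k}
    (hw : w ≠ 0) (hσ : σ w = w) (μ₁ : Measure k) (μ₂ : Measure (V2 σ ε)) :
    Nmc e (lt hF hw hσ μ₁ μ₂) := by
  intro C
  refine ⟨C, fun g hg => ?_⟩
  have h0 : 0 ≤ C := (norm_nonneg _).trans hg
  change ‖(fun i j => ta g.1 i j : Idx (s + 2) ι₀ → Idx (s + 2) ι₀ → k)‖ ≤ C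
  refine (pi_norm_le_iff_of_nonneg h0).2 fun i => (pi_norm_le_iff_of_nonneg h0).2 fun j => ?_
  have h1 : ‖(rho e σ _ g).1 (e i) (e j)‖ ≤ nm (rho e σ _ g) :=
    (norm_le_pi_norm (fun j' => (rho e σ _ g).1 (e i) j') (e j)).trans
      (norm_le_pi_norm (fun i' j' => (rho e σ _ g).1 i' j') (e i))
  have h2 : (rho e σ _ g).1 (e i) (e j) = ta g.1 i j := by
    change ((g.1⁻¹).1)ᵀ (e.symm (e i)) (e.symm (e j)) = _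
    rw [e.symm_apply_apply, e.symm_apply_apply]
    rfl
  rw [← h2]
  exact h1.trans hg

variable [ProperSpace k] [Fact (Continuous σ)]
  {E₀ Γ K : Type} [Group E₀] [TopologicalSpace E₀] [Group Γ] [Countable Γ]
  [NormedAddCommGroup K] [InnerProductSpace ℂ K] [CompleteSpace K] {𝒰 : Ultrafilter ℕ}
  {ι : FormGroup σ (hyp (s + 2) ε J₀) →* E₀} {π : E₀ →* (K →L[ℂ] K)}
  {lam₁ lam₂ : Γ →* (K →L[ℂ] K)}
  {X : Set (K →L[ℂ] K)} {Ω : K} {m₁ m₂ : Set Γ → (K →L[ℂ] K)}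
  {q₁ q₂ : Γ → FormGroup σ (hyp (s + 2) ε J₀)}
  {E₁ E₂ : SGr σ (hyp (s + 2) ε J₀) 1 → (CY k N →⋆ₐ[ℂ] (K →L[ℂ] K))} {τ₁ τ₂ : k →+* k}
  {Q₁ Q₂ : C₀(PG k (N + 1), ℂ) →⋆ₙₐ[ℂ] (K →L[ℂ] K)}

/-- **[CL-XC]**, concrete letters -/
theorem xcLt (e : Idx (s + 2) ι₀ ≃ Fin (N + 1)) (hF : Frm σ ε (hyp (s + 2) ε J₀))
    (hW : WI σ (hyp (s + 2) ε J₀) (s + 2)) {w : k} (hw : w ≠ 0) (hσ : σ w = w)
    (μ₁ : Measure k) (μ₂ : Measure (V2 σ ε))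
    (b₁ : PB (lt hF hw hσ μ₁ μ₂) 𝒰 ι π lam₁ (X ∪ Set.range lam₂) Ω m₁ q₁)
    (b₂ : PB (lt hF hw hσ μ₁ μ₂) 𝒰 ι π lam₂ (X ∪ Set.range lam₁) Ω m₂ q₂)
    (t₁ : SN.TVE π lam₁ (X ∪ Set.range lam₂) Ω)
    (h₁ : SX.ClsF (pt e) (rho e σ _) ι π lam₁ (X ∪ Set.range lam₂)
      (fun γ => rho e σ _ (q₁ γ)) E₁ τ₁ Q₁)
    (h₂ : SX.ClsF (pt e) (rho e σ _) ι π lam₂ (X ∪ Set.range lam₁)
      (fun γ => rho e σ _ (q₂ γ)) E₂ τ₂ Q₂)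
    (ψ φ : C₀(PG k (N + 1), ℂ)) : Commute (Q₁ ψ) (Q₂ φ) :=
  xcL e hF hW (Nat.le_add_left 2 s) (sc_lt e hF hw hσ μ₁ μ₂) (nmc_lt e hF hw hσ μ₁ μ₂) b₁ b₂ t₁
    h₁ h₂ ψ φ

end lt_

end Vale.Agent.P092.H325.CL
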