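import Vale.Agent.P092.H325.FmFr
import Vale.Agent.P092.H370.Po3

/-!
P092, Team P, tracks 2 and 3 (helper325): the good frame (`SX.GoodFr`, the only input of the cross
legs `SX.xcF`, `SX.pXcF`) for `FormGroup σ J` in the letters of the common record: `Frm σ ε J`,
`WI σ J r` with `2 ≤ r`, any `e : n ≃ Fin (N + 1)`, rows of the group turned into columns.
-/

set_option linter.all false

open scoped LinearAlgebra.Projectivization
open Matrix Module

namespace Vale.Agent.P092.H325.CL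

open Vale.Agent.P092.H303 (FormGroup mem_formGroup)
open Vale.Agent.P092.H370.Po
open Vale.Agent.P092.H714.Cl (hf Frm hf_add_left hf_add_right hf_smul_left hf_smul_right
  hf_zero_right)
open Vale.Agent.P092.H714.Sg (Fm)
open Vale.Agent.P092.RC (GG YY)
open Vale.Agent.P092.H820 (pj)

section re

variable {n m : Type} [Fintype n] [DecidableEq n] [Fintype m] [DecidableEq m] {k : Type} [Field k]
  {σ : k →+* k} {ε : k} {J : Matrix n n k}

/-- the form in new coordinates -/
theorem hf_re (e : n ≃ m) (J : Matrix n n k) (x y : m → k) :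
    hf σ (J.submatrix e.symm e.symm) x y = hf σ J (x ∘ e) (y ∘ e) := by
  unfold hf
  rw [submatrix_mulVec_equiv, dotProduct_comp_equiv_symm]
  rfl

theorem fm_re (e : n ≃ m) (hF : Fm σ ε J) : Fm σ ε (J.submatrix e.symm e.symm) where
  inv := hF.inv
  eps := hF.eps
  seps := hF.seps
  herm x y := by rw [hf_re, hf_re]; exact hF.herm _ _
  nondeg x hx := by
    obtain ⟨y, hy⟩ := hF.nondeg (x ∘ e) fun h => hx (by
      funext i
      have := congrFun h (e.symm i)
      simpa using this)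
    refine ⟨y ∘ e.symm, ?_⟩
    rw [hf_re]
    have : (y ∘ e.symm) ∘ e = y := by funext i; simp
    rwa [this]
  tv y := by
    obtain ⟨β, hβ⟩ := hF.tv (y ∘ e)
    exact ⟨β, by rw [hf_re]; exact hβ⟩
  iso := by
    obtain ⟨u, hu0, hu⟩ := hF.iso
    refine ⟨u ∘ e.symm, fun h => hu0 (by
      funext i
      have := congrFun h (e i)
      simpa using this), ?_⟩
    rw [hf_re]
    have : (u ∘ e.symm) ∘ e = u := by funext i; simp
    rwa [this]

theorem wi2_of_wi (hF : Frm σ ε J) {r : ℕ} (hW : WI σ J r) (hr : 2 ≤ r) : Wi2 σ J := by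
  intro x hx0 hx
  obtain ⟨⟨Y, hY, hdY⟩, -⟩ := hW
  have hs : Sing σ J (Submodule.span k {x}) := by
    unfold Sing
    rw [ort_span_left]
    intro y hy
    obtain ⟨a, rfl⟩ := Submodule.mem_span_singleton.1 hy
    rw [hf_smul_right, hx, mul_zero]
  have hd1 : finrank k (Submodule.span k {x}) = 1 := finrank_span_singleton hx0
  obtain ⟨Z, h1, h2, h3⟩ := exists_above hF hs hY (j := 2) (by omega) (by omega)
  have h4 : ¬ Z ≤ Submodule.span k {x} := fun h' => by
    have := Submodule.finrank_mono h'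
    omega
  obtain ⟨w, hw, hwx⟩ := SetLike.not_le_iff_exists.1 h4
  exact ⟨w, h2.zero hw, h2 x (h1 (Submodule.mem_span_singleton_self x)) w hw, hwx⟩

theorem wi2_re (e : n ≃ m) (hW : Wi2 σ J) : Wi2 σ (J.submatrix e.symm e.symm) := by
  intro x hx0 hx
  rw [hf_re] at hx
  obtain ⟨w, h1, h2, h3⟩ := hW (x ∘ e) (fun h => hx0 (by
      funext i
      have := congrFun h (e.symm i)
      simpa using this)) hx
  have hc : (w ∘ e.symm) ∘ e = w := by funext i; simp
  refine ⟨w ∘ e.symm, by rw [hf_re, hc, h1], by rw [hf_re, hc, h2], fun h => h3 ?_⟩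
  obtain ⟨a, ha⟩ := Submodule.mem_span_singleton.1 h
  refine Submodule.mem_span_singleton.2 ⟨a, ?_⟩
  funext i
  have := congrFun ha (e i)
  simpa using this

/-- **`FormGroup σ J` contains every isometry of determinant one**, rows turned into columns -/
theorem surj_cl (e : n ≃ m) (ρ : FormGroup σ J →* SpecialLinearGroup m k)
    (hρ : ∀ (g : FormGroup σ J) (x : m → k),
      (ρ g).1 *ᵥ x = (((g⁻¹ : FormGroup σ J).1.1)ᵀ *ᵥ (x ∘ e)) ∘ e.symm)
    (g : SpecialLinearGroup m k)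
    (hg : ∀ x y, hf σ (J.submatrix e.symm e.symm) (g.1 *ᵥ x) (g.1 *ᵥ y) =
      hf σ (J.submatrix e.symm e.symm) x y) : ∃ h, ρ h = g := by
  -- the matrix in the old coordinates
  have hdet : (g.1.submatrix e e).det = 1 := by
    rw [det_submatrix_equiv_self]
    exact g.2
  let A : SpecialLinearGroup n k := ⟨(g.1.submatrix e e)ᵀ, by rw [det_transpose]; exact hdet⟩
  have hA1 : ∀ x : n → k, A.1ᵀ *ᵥ x = (g.1 *ᵥ (x ∘ e.symm)) ∘ e := by
    intro x
    funext i
    change ((g.1.submatrix e e)ᵀᵀ *ᵥ x) i = (g.1 *ᵥ (x ∘ e.symm)) (e i)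
    rw [transpose_transpose]
    simp only [mulVec, dotProduct, submatrix_apply, Function.comp]
    rw [← Equiv.sum_comp e]
    refine Finset.sum_congr rfl fun j _ => ?_
    rw [Equiv.symm_apply_apply]
  have hAf : ∀ x y : n → k, hf σ J (A.1ᵀ *ᵥ x) (A.1ᵀ *ᵥ y) = hf σ J x y := by
    intro x y
    rw [hA1, hA1, ← hf_re e, hg, hf_re]
    congr 1 <;> (funext i; simp)
  have hAm : A ∈ FormGroup σ J := by
    rw [mem_formGroup]
    ext i j
    have h1 := hAf (Pi.single i 1) (Pi.single j 1)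
    have h2 : ∀ (M : Matrix n n k) (i j : n), hf σ M (Pi.single i 1) (Pi.single j 1) = M i j := by
      intro M i j
      unfold hf
      have h3 : (fun l => σ ((Pi.single j (1 : k) : n → k) l)) = Pi.single j 1 := by
        funext l
        by_cases hl : l = j
        · subst hl; simp
        · simp [hl]
      rw [h3, mulVec_single_one, single_one_dotProduct]
      rfl
    have h3 : hf σ J (A.1ᵀ *ᵥ Pi.single i 1) (A.1ᵀ *ᵥ Pi.single j 1) =
        hf σ (A.1 * J * (A.1.map σ)ᵀ) (Pi.single i 1) (Pi.single j 1) := by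
      unfold hf
      have h4 : (fun l => σ ((A.1ᵀ *ᵥ Pi.single j 1) l)) =
          (A.1.map σ)ᵀ *ᵥ fun l => σ ((Pi.single j (1 : k) : n → k) l) := by
        funext l
        rw [RingHom.map_mulVec]
        rfl
      rw [h4, ← mulVec_mulVec, ← mulVec_mulVec, mulVec_transpose, ← dotProduct_mulVec]
    rw [h3, h2, h2] at h1
    exact h1
  refine ⟨(⟨A, hAm⟩ : FormGroup σ J)⁻¹, ?_⟩
  apply Subtype.ext
  have key : ∀ x : m → k, (ρ (⟨A, hAm⟩ : FormGroup σ J)⁻¹).1 *ᵥ x = g.1 *ᵥ x := by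
    intro x
    rw [hρ, inv_inv]
    change (A.1ᵀ *ᵥ (x ∘ e)) ∘ e.symm = _
    rw [hA1]
    have h5 : (x ∘ e) ∘ e.symm = x := by funext i; simp
    rw [h5]
    funext i
    simp
  ext i j
  have h6 := congrFun (key (Pi.single j 1)) i
  rw [mulVec_single_one, mulVec_single_one] at h6
  exact h6

end re

section good

variable {n : Type} [Fintype n] [DecidableEq n] {k : Type} [NontriviallyNormedField k]
  {σ : k →+* k} {ε : k} {J : Matrix n n k} {N : ℕ} {P₀ : Type}

/-- **[CL-GOOD]** -/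
theorem goodFr_cl (e : n ≃ Fin (N + 1)) (hF : Frm σ ε J) {r : ℕ} (hW : WI σ J r) (hr : 2 ≤ r)
    (ρ : FormGroup σ J →* GG k N)
    (hρ : ∀ (g : FormGroup σ J) (x : Fin (N + 1) → k),
      (ρ g).1 *ᵥ x = (((g⁻¹ : FormGroup σ J).1.1)ᵀ *ᵥ (x ∘ e)) ∘ e.symm)
    (pt : P₀ → YY k N)
    (hpt : ∀ (v : Fin (N + 1) → k) (hv : v ≠ 0), hf σ J (v ∘ e) (v ∘ e) = 0 →
      ∃ b, pt b = pj k (Fin (N + 1)) ⟨v, hv⟩) : SX.GoodFr pt ρ := by
  have hFm : Fm σ ε (J.submatrix e.symm e.symm) := fm_re e hF.fm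
  refine goodFr_fm (K := J.submatrix e.symm e.symm) hFm (wi2_re e (wi2_of_wi hF hW hr)) ρ
    (fun v hv0 hv => hasE_of hFm (surj_cl e ρ hρ) hv) pt fun v hv h => hpt v hv ?_
  rwa [hf_re] at h

end good

end Vale.Agent.P092.H325.CL
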