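import Mathlib

/-!
P092 (helper325): the commutant lemma of #3009 (B).  The vectors of `L²(G; K)` which are continuous for
the conjugation by a dense subgroup are the multiples of the trace vector; so an operator which commutes
with the conjugations and the right translations comes from an operator of `L²(G)` which commutes with
all translations.
-/

open MeasureTheory Set Filter
open scoped ENNReal Topology InnerProductSpace

namespace Vale.Agent.P092.H325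

set_option linter.unusedSectionVars false

section defs

variable {G : Type*} [Group G] [TopologicalSpace G] [IsTopologicalGroup G] [MeasurableSpace G]
  [BorelSpace G] {E : Type*} [NormedAddCommGroup E] [NormedSpace ℂ E]

/-- left translation: `(tl g f) x = f (g⁻¹ x)` -/
noncomputable def tl (μ : Measure G) [μ.IsMulLeftInvariant] (g : G) : Lp E 2 μ →L[ℂ] Lp E 2 μ :=
  (Lp.compMeasurePreservingₗᵢ ℂ (fun x => g⁻¹ * x)
    (measurePreserving_mul_left μ g⁻¹)).toContinuousLinearMap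

/-- right translation: `(tr y f) x = f (x y)` -/
noncomputable def tr (μ : Measure G) [μ.IsMulRightInvariant] (y : G) : Lp E 2 μ →L[ℂ] Lp E 2 μ :=
  (Lp.compMeasurePreservingₗᵢ ℂ (fun x => x * y)
    (measurePreserving_mul_right μ y)).toContinuousLinearMap

theorem tl_ae (μ : Measure G) [μ.IsMulLeftInvariant] (g : G) (f : Lp E 2 μ) :
    tl μ g f =ᵐ[μ] fun x => f (g⁻¹ * x) :=
  Lp.coeFn_compMeasurePreserving _ _

theorem tr_ae (μ : Measure G) [μ.IsMulRightInvariant] (y : G) (f : Lp E 2 μ) :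
    tr μ y f =ᵐ[μ] fun x => f (x * y) :=
  Lp.coeFn_compMeasurePreserving _ _

theorem norm_tl (μ : Measure G) [μ.IsMulLeftInvariant] (g : G) (f : Lp E 2 μ) :
    ‖tl μ g f‖ = ‖f‖ :=
  Lp.norm_compMeasurePreserving _ _

theorem norm_tr (μ : Measure G) [μ.IsMulRightInvariant] (y : G) (f : Lp E 2 μ) :
    ‖tr μ y f‖ = ‖f‖ :=
  Lp.norm_compMeasurePreserving _ _

theorem tl_one (μ : Measure G) [μ.IsMulLeftInvariant] (f : Lp E 2 μ) : tl μ 1 f = f := by
  apply Lp.ext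
  refine (tl_ae μ 1 f).trans ?_
  simp

theorem continuous_tl (μ : Measure G) [μ.IsMulLeftInvariant] [R1Space G] [IsLocallyFiniteMeasure μ]
    [μ.InnerRegularCompactLTTop] (f : Lp E 2 μ) : Continuous fun g : G => tl μ g f := by
  let c : G → C(G, G) := fun g => ⟨fun x => g⁻¹ * x, by fun_prop⟩
  have hc : Continuous c := by
    have h1 : Continuous fun p : G × G => p.1⁻¹ * p.2 := by fun_prop
    exact (ContinuousMap.mk _ h1).curry.continuous
  exact (continuous_const (y := f)).compMeasurePreservingLp hc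
    (fun g => measurePreserving_mul_left μ g⁻¹) (by simp)

end defs

section comm

variable {G : Type*} [Group G] [TopologicalSpace G] [IsTopologicalGroup G] [MeasurableSpace G]
  [BorelSpace G] {Γ : Type*} [Group Γ] [Countable Γ] {K : Type*} [NormedAddCommGroup K]
  [InnerProductSpace ℂ K] [CompleteSpace K]

/-- the coefficient `g` of a vector of `L²(G; K)` -/
noncomputable def coef (μ : Measure G) (b : HilbertBasis Γ ℂ K) (g : Γ) :
    Lp K 2 μ →L[ℂ] Lp ℂ 2 μ :=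
  (innerSL ℂ (b g)).compLpL 2 μ

/-- the vector `x ↦ f x • b 1` -/
noncomputable def emb (μ : Measure G) (b : HilbertBasis Γ ℂ K) : Lp ℂ 2 μ →L[ℂ] Lp K 2 μ :=
  (ContinuousLinearMap.toSpanSingleton ℂ (b 1)).compLpL 2 μ

theorem coef_ae (μ : Measure G) (b : HilbertBasis Γ ℂ K) (g : Γ) (ξ : Lp K 2 μ) :
    coef μ b g ξ =ᵐ[μ] fun x => ⟪b g, ξ x⟫_ℂ :=
  ContinuousLinearMap.coeFn_compLpL _ _

theorem emb_ae (μ : Measure G) (b : HilbertBasis Γ ℂ K) (f : Lp ℂ 2 μ) :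
    emb μ b f =ᵐ[μ] fun x => f x • b 1 := by
  refine (ContinuousLinearMap.coeFn_compLpL _ _).trans ?_
  exact Eventually.of_forall fun x => by simp

theorem norm_sq_Lp {E : Type*} [NormedAddCommGroup E] (μ : Measure G) (f : Lp E 2 μ) :
    ENNReal.ofReal (‖f‖ ^ 2) = ∫⁻ x, ‖f x‖ₑ ^ 2 ∂μ := by
  have h := eLpNorm_eq_lintegral_rpow_enorm_toReal (f := f) (μ := μ) (p := 2) (by simp) (by simp)
  simp only [ENNReal.toReal_ofNat] at h
  rw [Lp.norm_def, ENNReal.ofReal_pow ENNReal.toReal_nonneg, ENNReal.ofReal_toReal (Lp.eLpNorm_ne_top f), h,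
    ← ENNReal.rpow_natCast, ← ENNReal.rpow_mul]
  norm_num

/-- Bessel's inequality. -/
theorem bessel (μ : Measure G) (b : HilbertBasis Γ ℂ K) (F : Finset Γ) (ξ : Lp K 2 μ) :
    ∑ g ∈ F, ‖coef μ b g ξ‖ ^ 2 ≤ ‖ξ‖ ^ 2 := by
  rw [← ENNReal.ofReal_le_ofReal_iff (by positivity), ENNReal.ofReal_sum_of_nonneg
    (fun _ _ => by positivity), norm_sq_Lp]
  simp only [norm_sq_Lp]
  rw [← lintegral_finsetSum' _ (fun g _ => ((Lp.aestronglyMeasurable _).enorm.pow_const 2))]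
  refine lintegral_mono_ae ?_
  have h : ∀ᵐ x ∂μ, ∀ g ∈ F, (coef μ b g ξ) x = ⟪b g, ξ x⟫_ℂ := by
    rw [Finset.eventually_all]
    intro g _
    exact coef_ae μ b g ξ
  filter_upwards [h] with x hx
  rw [Finset.sum_congr rfl fun g hg => by rw [hx g hg]]
  have hb := b.orthonormal.sum_inner_products_le (x := ξ x) (s := F)
  have e : ∀ g, ‖⟪b g, ξ x⟫_ℂ‖ₑ ^ 2 = ENNReal.ofReal (‖⟪b g, ξ x⟫_ℂ‖ ^ 2) := by
    intro g
    rw [ENNReal.ofReal_pow (norm_nonneg _), ofReal_norm]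
  simp only [e]
  rw [← ENNReal.ofReal_sum_of_nonneg (fun _ _ => by positivity), ← ofReal_norm,
    ← ENNReal.ofReal_pow (norm_nonneg _)]
  exact ENNReal.ofReal_le_ofReal hb

theorem eq_emb (μ : Measure G) (b : HilbertBasis Γ ℂ K) (ξ : Lp K 2 μ)
    (h : ∀ g : Γ, g ≠ 1 → coef μ b g ξ = 0) : ξ = emb μ b (coef μ b 1 ξ) := by
  classical
  apply Lp.ext
  have h1 : ∀ᵐ x ∂μ, ∀ g : Γ, (coef μ b g ξ) x = ⟪b g, ξ x⟫_ℂ :=
    ae_all_iff.2 fun g => coef_ae μ b g ξ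
  have h2 : ∀ᵐ x ∂μ, ∀ g : Γ, g ≠ 1 → (coef μ b g ξ) x = 0 := by
    rw [ae_all_iff]
    intro g
    by_cases hg : g = 1
    · exact Eventually.of_forall fun x hx => absurd hg hx
    · rw [h g hg]
      filter_upwards [Lp.coeFn_zero ℂ 2 μ] with x hx _
      simpa using hx
  filter_upwards [h1, h2, emb_ae μ b (coef μ b 1 ξ)] with x hx1 hx2 hx3
  rw [hx3, hx1]
  apply b.repr.injective
  ext g
  rw [b.repr_apply_apply, b.repr_apply_apply, inner_smul_right, orthonormal_iff_ite.1 b.orthonormal]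
  by_cases hg : g = 1
  · subst hg
    simp
  · rw [← hx1, hx2 g hg, if_neg hg, mul_zero]

variable (μ : Measure G) [μ.IsMulLeftInvariant] (b : HilbertBasis Γ ℂ K) (ι : Γ →* G)
  (A : Γ → (K →L[ℂ] K))

/-- the conjugation by `h`: `(cj h ξ) x = A h (ξ (h⁻¹ x))` -/
noncomputable def cjL (h : Γ) : Lp K 2 μ →L[ℂ] Lp K 2 μ :=
  ((A h).compLpL 2 μ).comp (tl μ (ι h))

variable {A}

theorem coef_cjL (hA : ∀ h ξ, ‖A h ξ‖ = ‖ξ‖) (hAb : ∀ h g, A h (b g) = b (h * g * h⁻¹)) (h g : Γ)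
    (ξ : Lp K 2 μ) : coef μ b (h * g * h⁻¹) (cjL μ ι A h ξ) = tl μ (ι h) (coef μ b g ξ) := by
  have hin : ∀ x y : K, ⟪A h x, A h y⟫_ℂ = ⟪x, y⟫_ℂ := by
    intro x y
    exact (⟨(A h : K →ₗ[ℂ] K), hA h⟩ : K →ₗᵢ[ℂ] K).inner_map_map x y
  apply Lp.ext
  have h1 := coef_ae μ b (h * g * h⁻¹) (cjL μ ι A h ξ)
  have h2 : cjL μ ι A h ξ =ᵐ[μ] fun x => A h (ξ ((ι h)⁻¹ * x)) := by
    refine (ContinuousLinearMap.coeFn_compLpL _ _).trans ?_
    filter_upwards [tl_ae μ (ι h) ξ] with x hx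
    exact congrArg (A h) hx
  have h3 := (measurePreserving_mul_left μ (ι h)⁻¹).quasiMeasurePreserving.ae (coef_ae μ b g ξ)
  filter_upwards [h1, h2, h3, tl_ae μ (ι h) (coef μ b g ξ)] with x e1 e2 e3 e4
  rw [e1, e2, e4, e3, ← hAb, hin]

theorem norm_coef_le (g : Γ) (ξ : Lp K 2 μ) : ‖coef μ b g ξ‖ ≤ ‖ξ‖ := by
  have h := bessel μ b {g} ξ
  rw [Finset.sum_singleton] at h
  exact le_of_sq_le_sq h (norm_nonneg _)

/-- the vectors which are continuous for the conjugations are multiples of `b 1` -/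
theorem eq_emb_of_continuous (hA : ∀ h ξ, ‖A h ξ‖ = ‖ξ‖)
    (hAb : ∀ h g, A h (b g) = b (h * g * h⁻¹))
    (hinf : ∀ g : Γ, g ≠ 1 → ∀ U ∈ 𝓝 (1 : G), {k : Γ | ∃ h : Γ, ι h ∈ U ∧ k = h * g * h⁻¹}.Infinite)
    (ξ : Lp K 2 μ)
    (hξ : ∀ ε > 0, ∃ U ∈ 𝓝 (1 : G), ∀ h : Γ, ι h ∈ U → ‖cjL μ ι A h ξ - ξ‖ ≤ ε) :
    ξ = emb μ b (coef μ b 1 ξ) := by
  refine eq_emb μ b ξ fun g hg => ?_
  by_contra hne
  have hm : 0 < ‖coef μ b g ξ‖ := norm_pos_iff.2 hne
  obtain ⟨U, hU, hUc⟩ := hξ (‖coef μ b g ξ‖ / 2) (by positivity)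
  have hlow : ∀ k ∈ {k : Γ | ∃ h : Γ, ι h ∈ U ∧ k = h * g * h⁻¹},
      ‖coef μ b g ξ‖ / 2 ≤ ‖coef μ b k ξ‖ := by
    rintro k ⟨h, hh, rfl⟩
    have e1 : coef μ b (h * g * h⁻¹) ξ = tl μ (ι h) (coef μ b g ξ) -
        coef μ b (h * g * h⁻¹) (cjL μ ι A h ξ - ξ) := by
      rw [map_sub, coef_cjL μ b ι hA hAb]
      abel
    rw [e1]
    have e2 := norm_sub_norm_le (tl μ (ι h) (coef μ b g ξ))
      (coef μ b (h * g * h⁻¹) (cjL μ ι A h ξ - ξ))
    have e3 := norm_coef_le μ b (h * g * h⁻¹) (cjL μ ι A h ξ - ξ)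
    have e4 := hUc h hh
    rw [norm_tl] at e2
    linarith
  obtain ⟨N, hN⟩ := exists_nat_gt (‖ξ‖ ^ 2 / (‖coef μ b g ξ‖ / 2) ^ 2)
  obtain ⟨F, hF, hFc⟩ := (hinf g hg U hU).exists_subset_card_eq N
  have h1 := bessel μ b F ξ
  have h2 : (N : ℝ) * (‖coef μ b g ξ‖ / 2) ^ 2 ≤ ∑ k ∈ F, ‖coef μ b k ξ‖ ^ 2 := by
    rw [← hFc, ← nsmul_eq_mul]
    refine Finset.card_nsmul_le_sum _ _ _ fun k hk => ?_
    exact pow_le_pow_left₀ (by positivity) (hlow k (hF hk)) 2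
  rw [div_lt_iff₀ (by positivity)] at hN
  linarith

theorem cjL_emb (hAb : ∀ h g, A h (b g) = b (h * g * h⁻¹)) (h : Γ) (f : Lp ℂ 2 μ) :
    cjL μ ι A h (emb μ b f) = emb μ b (tl μ (ι h) f) := by
  apply Lp.ext
  have h2 : cjL μ ι A h (emb μ b f) =ᵐ[μ] fun x => A h (emb μ b f ((ι h)⁻¹ * x)) := by
    refine (ContinuousLinearMap.coeFn_compLpL _ _).trans ?_
    filter_upwards [tl_ae μ (ι h) (emb μ b f)] with x hx
    exact congrArg (A h) hx
  have h3 := (measurePreserving_mul_left μ (ι h)⁻¹).quasiMeasurePreserving.ae (emb_ae μ b f)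
  filter_upwards [h2, h3, emb_ae μ b (tl μ (ι h) f), tl_ae μ (ι h) f] with x e1 e2 e3 e4
  rw [e1, e2, e3, e4, map_smul, hAb]
  simp

theorem coef_emb (f : Lp ℂ 2 μ) : coef μ b 1 (emb μ b f) = f := by
  apply Lp.ext
  filter_upwards [coef_ae μ b 1 (emb μ b f), emb_ae μ b f] with x e1 e2
  rw [e1, e2, inner_smul_right, inner_self_eq_norm_sq_to_K, b.orthonormal.1]
  simp

theorem continuous_emb [R1Space G] [IsLocallyFiniteMeasure μ] [μ.InnerRegularCompactLTTop]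
    (hAb : ∀ h g, A h (b g) = b (h * g * h⁻¹)) (f : Lp ℂ 2 μ) :
    ∀ ε > 0, ∃ U ∈ 𝓝 (1 : G), ∀ h : Γ, ι h ∈ U → ‖cjL μ ι A h (emb μ b f) - emb μ b f‖ ≤ ε := by
  intro ε hε
  have h1 : Tendsto (fun g : G => emb μ b (tl μ g f)) (𝓝 1) (𝓝 (emb μ b f)) := by
    have h2 := ((emb μ b).continuous.comp (continuous_tl μ f)).tendsto 1
    simp only [Function.comp, tl_one] at h2
    exact h2
  obtain ⟨U, hU, hUc⟩ := (Metric.tendsto_nhds.1 h1 ε hε).exists_mem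
  refine ⟨U, hU, fun h hh => ?_⟩
  rw [cjL_emb μ b ι hAb]
  have := hUc (ι h) hh
  rw [dist_eq_norm] at this
  exact this.le

/-- **the commutant lemma**: an operator of `L²(G; K)` which commutes with the conjugations by `Γ` (dense
in `G`) and the right translations is on `L²(G) ⊗ b 1` an operator of `L²(G)` which commutes with all
translations. -/
theorem commutant [R1Space G] [IsLocallyFiniteMeasure μ] [μ.InnerRegularCompactLTTop]
    [μ.IsMulRightInvariant] (hA : ∀ h ξ, ‖A h ξ‖ = ‖ξ‖) (hι : DenseRange ι)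
    (hAb : ∀ h g, A h (b g) = b (h * g * h⁻¹))
    (hinf : ∀ g : Γ, g ≠ 1 → ∀ U ∈ 𝓝 (1 : G), {k : Γ | ∃ h : Γ, ι h ∈ U ∧ k = h * g * h⁻¹}.Infinite)
    (S : Lp K 2 μ →L[ℂ] Lp K 2 μ) (hS : ∀ h ξ, S (cjL μ ι A h ξ) = cjL μ ι A h (S ξ))
    (hr : ∀ y ξ, S (tr μ y ξ) = tr μ y (S ξ)) :
    ∃ T : Lp ℂ 2 μ →L[ℂ] Lp ℂ 2 μ, (∀ f, S (emb μ b f) = emb μ b (T f)) ∧
      (∀ g f, T (tl μ g f) = tl μ g (T f)) ∧ (∀ y f, T (tr μ y f) = tr μ y (T f)) := by
  have h1 : ∀ f, S (emb μ b f) = emb μ b (coef μ b 1 (S (emb μ b f))) := by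
    intro f
    refine eq_emb_of_continuous μ b ι hA hAb hinf _ fun ε hε => ?_
    obtain ⟨U, hU, hUc⟩ := continuous_emb μ b ι hAb f (ε / (‖S‖ + 1)) (by positivity)
    refine ⟨U, hU, fun h hh => ?_⟩
    rw [← hS, ← map_sub]
    refine (S.le_opNorm _).trans ?_
    have h2 := hUc h hh
    have h3 : ‖S‖ * ‖cjL μ ι A h (emb μ b f) - emb μ b f‖ ≤ (‖S‖ + 1) * (ε / (‖S‖ + 1)) :=
      mul_le_mul (by linarith) h2 (norm_nonneg _) (by positivity)
    rwa [mul_div_cancel₀ _ (by positivity)] at h3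
  refine ⟨(coef μ b 1).comp (S.comp (emb μ b)), h1, ?_, ?_⟩
  · intro g f
    have hcl : IsClosed {g : G | coef μ b 1 (S (emb μ b (tl μ g f))) =
        tl μ g (coef μ b 1 (S (emb μ b f)))} :=
      isClosed_eq (((coef μ b 1).continuous.comp S.continuous).comp
        ((emb μ b).continuous.comp (continuous_tl μ f))) (continuous_tl μ _)
    have hsub : closure (Set.range ι) ⊆ _ := hcl.closure_subset_iff.2 (by
      rintro _ ⟨h, rfl⟩
      show coef μ b 1 (S (emb μ b (tl μ (ι h) f))) = tl μ (ι h) (coef μ b 1 (S (emb μ b f)))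
      rw [← cjL_emb μ b ι hAb, hS]
      have := coef_cjL μ b ι hA hAb h 1 (S (emb μ b f))
      rwa [mul_one, mul_inv_cancel] at this)
    rw [hι.closure_range] at hsub
    exact hsub (mem_univ g)
  · intro y f
    show coef μ b 1 (S (emb μ b (tr μ y f))) = tr μ y (coef μ b 1 (S (emb μ b f)))
    have e1 : emb μ b (tr μ y f) = tr μ y (emb μ b f) := by
      apply Lp.ext
      have h3 := (measurePreserving_mul_right μ y).quasiMeasurePreserving.ae (emb_ae μ b f)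
      filter_upwards [emb_ae μ b (tr μ y f), tr_ae μ y f, tr_ae μ y (emb μ b f), h3] with x a1 a2 a3 a4
      rw [a1, a2, a3, a4]
    have e2 : ∀ ξ : Lp K 2 μ, coef μ b 1 (tr μ y ξ) = tr μ y (coef μ b 1 ξ) := by
      intro ξ
      apply Lp.ext
      have h3 := (measurePreserving_mul_right μ y).quasiMeasurePreserving.ae (coef_ae μ b 1 ξ)
      filter_upwards [coef_ae μ b 1 (tr μ y ξ), tr_ae μ y ξ, tr_ae μ y (coef μ b 1 ξ), h3] with
        x a1 a2 a3 a4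
      rw [a1, a2, a3, a4]
    rw [e1, hr, e2]

end comm

end Vale.Agent.P092.H325
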