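import Vale.Agent.P092.H325.PXc
import Vale.Agent.P092.SN.Blocks2

/-!
P092, TEAM N, row [N-XC] (helper325): **`xcStmt : SN.XCStmt k`**, every local field `k`, and its
version for finite products (`pXcN`) in the letters of `SN/Blocks2.lean`.
-/

set_option linter.all false

open scoped InnerProductSpace ENNReal ZeroAtInfty LinearAlgebra.Projectivization
open Filter Topology ContinuousLinearMap MeasureTheory Matrix

namespace Vale.Agent.P092.H325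

open Vale.Agent.P092.RC (Cm TRN GG PG YY)
open Vale.Agent.P092.SN (CY PH UD nm Adm ClsN TVE XCStmt)
open Vale.Agent.P092.H295
open Vale.Agent.P092.H35 (sp)
open Vale.Agent.P092.H35.Sig (sgm)

section one

variable {k : Type} [NontriviallyNormedField k] [ProperSpace k] {N : ℕ} {E₀ Γ K : Type} [Group E₀]
  [TopologicalSpace E₀] [Group Γ] [NormedAddCommGroup K] [InnerProductSpace ℂ K] [CompleteSpace K]
  {ι : GG k N →* E₀} {a a' : E₀ →* PG k (N + 1)} {π : E₀ →* (K →L[ℂ] K)}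
  {lam : Γ →* (K →L[ℂ] K)} {W : Set (K →L[ℂ] K)} {q : Γ → GG k N}
  {Ec : YY k N → (CY k N →⋆ₐ[ℂ] (K →L[ℂ] K))} {σ : k →+* k}
  {Q : C₀(PG k (N + 1), ℂ) →⋆ₙₐ[ℂ] (K →L[ℂ] K)}

theorem clsI_of (hA : Adm ι a a') (h : ClsN a π lam W q Ec σ Q) : ClsI ι π lam W q Ec σ Q where
  nd := h.nd
  cm := h.cm
  cov := h.cov
  pcov g ψ ψ' hψ := by
    refine h.pcov (ι g) (sp k (N + 1) (SpecialLinearGroup.map σ g)) (fun b => ?_) ψ ψ' hψ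
    rw [hA.comp]
    exact (H35.Sig.sgm_smul σ g b).symm
  mulE := h.mulE

/-- an element of the source which acts trivially on the points commutes with `Q` -/
theorem ClsN_comm (h : ClsN a π lam W q Ec σ Q) {e : E₀} (he : ∀ b : YY k N, a e • b = b)
    (ψ : C₀(PG k (N + 1), ℂ)) : Commute (π e) (Q ψ) := by
  have h1 := h.pcov e 1 (fun b => by rw [he, one_smul]) ψ ψ (fun y => by rw [mul_one])
  calc π e * Q ψ = π e * Q ψ * (π e⁻¹ * π e) := by rw [inv_mul_map, mul_one]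
    _ = π e * Q ψ * π e⁻¹ * π e := by rw [← mul_assoc]
    _ = Q ψ * π e := by rw [h1]

end one

/-- **[N-XC]** -/
theorem xcStmt (k : Type) [NontriviallyNormedField k] [ProperSpace k] : XCStmt k := by
  intro N E Γ K _ _ _ _ _ _ _ ι a a' π lam₁ lam₂ X Ω q₁ q₂ E₁ E₂ σ₁ σ₂ Q₁ Q₂ hA hP t₁ t₂ p₁ p₂
    d₁ d₂ h₁ h₂ ψ φ
  exact nXc hP.leg₁ (fun Y h1 h2 h => t₁ Y ⟨h1, h2⟩ (ι h)) hP.leg₂.adjL p₁
    (fun C hC => overlap_disc p₁ d₁ hC) p₂ (clsI_of hA h₁) (clsI_of hA h₂) ψ φ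

section prod

variable {J : Type} [Fintype J] {k : J → Type} [∀ j, NontriviallyNormedField (k j)]
  [∀ j, ProperSpace (k j)] {N : J → ℕ}
variable {E₀ Γ₁ Γ₂ K : Type} [Group E₀] [TopologicalSpace E₀] [Group Γ₁] [Group Γ₂]
  [NormedAddCommGroup K] [InnerProductSpace ℂ K] [CompleteSpace K]
variable {ι : ∀ j, GG (k j) (N j) →* E₀} {a a' : ∀ j, E₀ →* PG (k j) (N j + 1)}
  {π : E₀ →* (K →L[ℂ] K)} {lam₁ : Γ₁ →* (K →L[ℂ] K)}
  {lam₂ : Γ₂ →* (K →L[ℂ] K)} {X : Set (K →L[ℂ] K)} {Ω : K}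
  {q₁ : ∀ j, Γ₁ → GG (k j) (N j)} {q₂ : ∀ j, Γ₂ → GG (k j) (N j)}
  {E₁ E₂ : ∀ j, YY (k j) (N j) → (CY (k j) (N j) →⋆ₐ[ℂ] (K →L[ℂ] K))}
  {σ₁ σ₂ : ∀ j, k j →+* k j}
  {Q₁ Q₂ : ∀ j, C₀(PG (k j) (N j + 1), ℂ) →⋆ₙₐ[ℂ] (K →L[ℂ] K)}

/-- **[N-XC] for finite products** (every factor of leg 1 against every factor of leg 2). `ι j`,
`a j`: the factor `j` of the source group `E₀`, which acts trivially on the points of the other
factors (`triv`). -/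
theorem pXcN [Countable Γ₁] (hA : ∀ j, Adm (ι j) (a j) (a' j))
    (triv : ∀ j' j, j' ≠ j → ∀ (h : GG (k j') (N j')) (b : YY (k j) (N j)), a j (ι j' h) • b = b)
    (hPic : RC.Pic π lam₁ (X ∪ Set.range lam₂) Ω) (tv : TVE π lam₁ (X ∪ Set.range lam₂) Ω)
    (adj₂ : ∀ γ, adjoint (lam₂ γ) = lam₂ γ⁻¹) (ph₁ : ∀ j, PH (q₁ j)) (ph₂ : ∀ j, PH (q₂ j))
    (disc₁ : ∀ C : ℝ, {γ : Γ₁ | ∀ j, nm (q₁ j γ) ≤ C}.Finite)
    (h₁ : ∀ j, ClsN (a j) π lam₁ (X ∪ Set.range lam₂) (q₁ j) (E₁ j) (σ₁ j) (Q₁ j))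
    (com₁ : ∀ j' j, j' ≠ j → ∀ ψ φ, Commute (Q₁ j' ψ) (Q₁ j φ))
    (h₂ : ∀ j, ClsN (a j) π lam₂ (X ∪ Set.range lam₁) (q₂ j) (E₂ j) (σ₂ j) (Q₂ j))
    (com₂ : ∀ j' j, j' ≠ j → ∀ ψ φ, Commute (Q₂ j' ψ) (Q₂ j φ))
    (j j' : J) (ψ : C₀(PG (k j) (N j + 1), ℂ)) (φ : C₀(PG (k j') (N j' + 1), ℂ)) :
    Commute (Q₁ j ψ) (Q₂ j' φ) :=
  pXc hPic (fun Y h1 h2 e => tv Y ⟨h1, h2⟩ e) adj₂ ph₁ ph₂ disc₁
    (fun j => clsI_of (hA j) (h₁ j))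
    (fun j' j hj h ψ => ClsN_comm (h₁ j) (fun b => triv j' j hj h b) ψ) com₁
    (fun j => clsI_of (hA j) (h₂ j))
    (fun j' j hj h ψ => ClsN_comm (h₂ j) (fun b => triv j' j hj h b) ψ) com₂ j j' ψ φ

end prod

end Vale.Agent.P092.H325
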