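import Vale.Agent.P092.H325.SXc

/-!
P092, [MIX] (M6') (helper325): the cross legs at one place with point letters, all other places of
both legs arbitrary (any locally compact target groups, no homomorphism asked at the other places).
-/

set_option linter.all false

open scoped InnerProductSpace ENNReal ZeroAtInfty LinearAlgebra.Projectivization
open Filter Topology TopologicalSpace ContinuousLinearMap MeasureTheory Matrix

namespace Vale.Agent.P092.H325.MX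

open Vale.Agent.P092.H325 Vale.Agent.P092.H325.SX
open Vale.Agent.P092.RC (Cm GG PG YY)
open Vale.Agent.P092.SN (CY PH nm)
open Vale.Agent.P092.H295
open Vale.Agent.P092.H943
open Vale.Agent.P092.H715.Disj (Disj sv sv_ne)
open Vale.Agent.P092.H35 (sp)
open Vale.Agent.P092.H375.X2 (sgm)

/-! ### one leg -/

section fam

variable {J : Type} {G : J → Type} [∀ j, Group (G j)] [∀ j, TopologicalSpace (G j)]
  [∀ j, IsTopologicalGroup (G j)] [∀ j, T2Space (G j)] [∀ j, LocallyCompactSpace (G j)]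
  {E₀ S Γ K : Type} [Group E₀] [Group S] [Group Γ]
  [NormedAddCommGroup K] [InnerProductSpace ℂ K] [CompleteSpace K]

/-- one leg: the calculi of all places; symmetries `i : S →* E₀` of the place `j` -/
structure Fam (π : E₀ →* (K →L[ℂ] K)) (lam : Γ →* (K →L[ℂ] K)) (W : Set (K →L[ℂ] K))
    (q : ∀ j, Γ →* G j) (Q : ∀ j, C₀(G j, ℂ) →⋆ₙₐ[ℂ] (K →L[ℂ] K)) (i : S →* E₀) (j : J)
    (ρ : S →* G j) : Prop where
  nd : ∀ l ξ, (∀ ψ, Q l ψ ξ = 0) → ξ = 0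
  cm : ∀ l ψ, Cm W (Q l ψ)
  cov : ∀ l γ (ψ ψ' : C₀(G l, ℂ)), (∀ x, ψ' x = ψ ((q l γ)⁻¹ * x)) →
    lam γ * Q l ψ * lam γ⁻¹ = Q l ψ'
  com : ∀ l' l, l' ≠ l → ∀ ψ φ, Commute (Q l' ψ) (Q l φ)
  act : ∀ h (ψ ψ' : C₀(G j, ℂ)), (∀ x, ψ' x = ψ (x * ρ h)) →
    π (i h) * Q j ψ * π (i h)⁻¹ = Q j ψ'
  triv : ∀ l, l ≠ j → ∀ h ψ, Commute (π (i h)) (Q l ψ)

variable {π : E₀ →* (K →L[ℂ] K)} {lam : Γ →* (K →L[ℂ] K)} {W : Set (K →L[ℂ] K)}
  {q : ∀ j, Γ →* G j} {Q : ∀ j, C₀(G j, ℂ) →⋆ₙₐ[ℂ] (K →L[ℂ] K)} {i : S →* E₀} {j : J}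
  {ρ : S →* G j}

open Classical in
/-- the action of the symmetries on the product of the targets -/
noncomputable def sj (G : J → Type) [∀ j, Group (G j)] (j : J) (ρ : S →* G j) : S →* ∀ l, G l :=
  (MonoidHom.mulSingle G j).comp ρ

theorem sj_same (h : S) : sj G j ρ h j = ρ h := by
  classical
  exact Pi.mulSingle_eq_same j _

theorem sj_ne {l : J} (hl : l ≠ j) (h : S) : sj G j ρ h l = 1 := by
  classical
  exact Pi.mulSingle_eq_of_ne hl _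

/-- the joint calculus -/
theorem Fam.joint [Fintype J] (h : Fam π lam W q Q i j ρ) :
    ∃ QQ : C₀(∀ l, G l, ℂ) →⋆ₙₐ[ℂ] (K →L[ℂ] K),
      JL (H := fun _ => PUnit) π lam W (fun _ => 1) q (fun _ => 1) Q QQ ∧
      ∀ g Ψ, π (i g) * QQ Ψ * π (i g)⁻¹ = QQ (rtr (sj G j ρ g) Ψ) := by
  classical
  obtain ⟨QQ, h1, h2, h3, h4⟩ := exists_piQ Q h.nd h.com
  refine ⟨QQ, ⟨h1, fun Ψ w hw => ?_, fun γ Ψ => ?_, fun l g Ψ => ?_, h2, fun j φ Ψ =>
    h4 j φ Ψ _ fun x => rfl⟩, fun g Ψ => ?_⟩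
  · exact (h2 w (fun l ψ => (h.cm l ψ w hw).symm) Ψ).symm
  · refine h3 (fun l => Homeomorph.mulLeft (q l γ)⁻¹) (lam γ) (lam γ⁻¹) (mul_inv_map lam γ)
      (inv_mul_map lam γ) (fun l ψ ψ' hψ => h.cov l γ ψ ψ' fun x => hψ x) Ψ _ fun x => rfl
  · have e : rtr (sg (G := G) (H := fun _ => PUnit) (fun _ => 1) l g) Ψ = Ψ := by
      ext x
      change Ψ (x * sg (G := G) (H := fun _ => PUnit) (fun _ => 1) l g) = Ψ x
      congr 1
      funext l'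
      change x l' * sg (G := G) (H := fun _ => PUnit) (fun _ => 1) l g l' = x l'
      rw [sg_apply]
      change x l' * Pi.mulSingle l (1 : G l) l' = x l'
      rw [Pi.mulSingle_one, Pi.one_apply, mul_one]
    rw [e]
    change π 1 * QQ Ψ * π (1 : E₀)⁻¹ = _
    rw [inv_one, map_one, one_mul, mul_one]
  · refine h3 (fun l => Homeomorph.mulRight (sj G j ρ g l)) (π (i g)) (π (i g)⁻¹)
      (mul_inv_map π _) (inv_mul_map π _) (fun l ψ ψ' hψ => ?_) Ψ _ fun x => rfl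
    by_cases hl : l = j
    · subst hl
      refine h.act g ψ ψ' fun x => ?_
      rw [hψ x]
      change ψ (x * sj G l ρ g l) = _
      rw [sj_same]
    · have e : ψ' = ψ := by
        ext x
        rw [hψ x]
        change ψ (x * sj G j ρ g l) = ψ x
        rw [sj_ne hl, mul_one]
      rw [e, (h.triv l hl g ψ).eq, mul_assoc, mul_inv_map, mul_one]

end fam

/-! ### point letters -/

section ptg

variable {S G₁ K : Type} [Group S] [Group G₁] [TopologicalSpace G₁] [IsTopologicalGroup G₁]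
  [NormedAddCommGroup K] [InnerProductSpace ℂ K] [CompleteSpace K]

/-- Point letters over one place: they multiply the calculus `Q`, they generate it, and each of them
has enough symmetries. -/
def PtG (ρ : S →* G₁) (Q : C₀(G₁, ℂ) →⋆ₙₐ[ℂ] (K →L[ℂ] K)) : Prop :=
  ∃ (P : Type) (_ : TopologicalSpace P) (_ : CompactSpace P) (_ : T2Space P)
    (_ : MulAction G₁ P) (_ : ContinuousSMul G₁ P) (κ : Type) (y : κ → P)
    (E : κ → (C(P, ℂ) →⋆ₐ[ℂ] (K →L[ℂ] K))) (M : κ → Set S),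
    (∀ b f (ψ ψ' : C₀(G₁, ℂ)), (∀ x, ψ' x = f (x • y b) * ψ x) → E b f * Q ψ = Q ψ') ∧
    (∀ T : K →L[ℂ] K, (∀ b f, Commute T (E b f)) → ∀ ψ, Commute T (Q ψ)) ∧
    (∀ b {G : Type} [Group G] [TopologicalSpace G] [IsTopologicalGroup G] [T2Space G]
      [LocallyCompactSpace G] [MeasurableSpace G] [BorelSpace G] (μ : Measure G)
      [μ.IsMulLeftInvariant] [μ.IsMulRightInvariant] [IsFiniteMeasureOnCompacts μ]
      [μ.IsOpenPosMeasure] (f : S →* G), AB μ (f '' M b)) ∧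
    (∀ b, ∀ u ∈ M b, ρ u • y b = y b) ∧
    ∀ b, Disj ρ (M b) (y b)

end ptg

section sl

variable {kS k : Type} [NontriviallyNormedField kS] [ProperSpace kS] [NontriviallyNormedField k]
  [ProperSpace k] {N : ℕ} {E₀ Γ K : Type}
  [Group E₀] [Group Γ] [NormedAddCommGroup K] [InnerProductSpace ℂ K] [CompleteSpace K]
  {ι : GG kS N →* E₀} {π : E₀ →* (K →L[ℂ] K)} {lam : Γ →* (K →L[ℂ] K)}
  {W : Set (K →L[ℂ] K)} {q : Γ → GG k N} {Ec : YY kS N → (CY k N →⋆ₐ[ℂ] (K →L[ℂ] K))}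
  {σ : kS →+* k} {Q : C₀(PG k (N + 1), ℂ) →⋆ₙₐ[ℂ] (K →L[ℂ] K)}

/-- **the classical leg of `SL_(N+1)(kS)` over `PGL_(N+1)(k)` has point letters** -/
theorem ptG_sl (h : ClsT (MonoidHom.id (GG kS N)) ι π lam W q Ec σ Q) :
    PtG ((sp k (N + 1)).comp (SpecialLinearGroup.map σ)) Q := by
  refine ⟨YY k N, inferInstance, inferInstance, inferInstance, inferInstance, inferInstance,
    {v : Fin (N + 1) → kS // v ≠ 0}, fun v => H820.pj k (Fin (N + 1)) ⟨sv σ v.1, sv_ne σ v.2⟩,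
    fun v => Ec (H820.pj kS (Fin (N + 1)) v), fun v => ((symT_id v.1 v.2).choose : Set (GG kS N)),
    fun v f ψ ψ' hψ => h.mulE _ f ψ ψ' hψ, fun T hT ψ => h.gen (fun y f => ?_) ψ, ?_, ?_, ?_⟩
  · obtain ⟨v, rfl⟩ := H820.pj_surj y
    exact hT v f
  · intro v G _ _ _ _ _ _ _ μ _ _ _ _ f
    exact (symT_id (kS := kS) (N := N) v.1 v.2).choose_spec.1 μ f
  · intro v u hu
    exact fix_pt σ (MonoidHom.id _) v.2 ((symT_id v.1 v.2).choose_spec.2.1 u hu)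
  · intro v
    exact (symT_id v.1 v.2).choose_spec.2.2 σ

end sl

/-! ### the cross legs -/

section xc

variable {J J' : Type} [Fintype J] [Fintype J'] {G₁ : J → Type} {G₂ : J' → Type}
  [∀ j, Group (G₁ j)]
  [∀ j, TopologicalSpace (G₁ j)] [∀ j, IsTopologicalGroup (G₁ j)] [∀ j, T2Space (G₁ j)]
  [∀ j, LocallyCompactSpace (G₁ j)] [∀ j, SecondCountableTopology (G₁ j)]
  [∀ j, MeasurableSpace (G₁ j)] [∀ j, BorelSpace (G₁ j)]
  [∀ j, Group (G₂ j)]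
  [∀ j, TopologicalSpace (G₂ j)] [∀ j, IsTopologicalGroup (G₂ j)] [∀ j, T2Space (G₂ j)]
  [∀ j, LocallyCompactSpace (G₂ j)] [∀ j, SecondCountableTopology (G₂ j)]
  [∀ j, MeasurableSpace (G₂ j)] [∀ j, BorelSpace (G₂ j)]
  {E₀ S Γ₁ Γ₂ K : Type} [Group E₀] [TopologicalSpace E₀] [Group S] [Group Γ₁] [Group Γ₂]
  [NormedAddCommGroup K] [InnerProductSpace ℂ K] [CompleteSpace K]
  {π : E₀ →* (K →L[ℂ] K)} {lam₁ : Γ₁ →* (K →L[ℂ] K)} {lam₂ : Γ₂ →* (K →L[ℂ] K)}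
  {X : Set (K →L[ℂ] K)} {Ω : K} {q₁ : ∀ j, Γ₁ →* G₁ j} {q₂ : ∀ j, Γ₂ →* G₂ j}
  {Q₁ : ∀ j, C₀(G₁ j, ℂ) →⋆ₙₐ[ℂ] (K →L[ℂ] K)} {Q₂ : ∀ j, C₀(G₂ j, ℂ) →⋆ₙₐ[ℂ] (K →L[ℂ] K)}
  {i : S →* E₀} {j : J} {j₂ : J'} {ρ₁ : S →* G₁ j} {ρ₂ : S →* G₂ j₂}

/-- **[MIX] (M6')**: a place with point letters of the first leg commutes with every place of the
second leg. -/
theorem xcM [Countable Γ₁] (ν₁ : ∀ j, Measure (G₁ j)) [∀ j, (ν₁ j).IsHaarMeasure]
    [∀ j, (ν₁ j).IsMulRightInvariant] (ν₂ : ∀ j, Measure (G₂ j)) [∀ j, (ν₂ j).IsHaarMeasure]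
    [∀ j, (ν₂ j).IsMulRightInvariant] (hPic : RC.PicX π lam₁ (X ∪ Set.range lam₂) Ω)
    (tv : ∀ Y, Cm (X ∪ Set.range lam₂) Y → (∀ γ, Y * lam₁ γ = lam₁ γ * Y) → ∀ h : S,
      ⟪π (i h) Ω, Y (π (i h) Ω)⟫_ℂ = ⟪Ω, Y Ω⟫_ℂ)
    (disc : ∀ C : Set (∀ j, G₁ j), IsCompact C → {γ | Pi.monoidHom q₁ γ ∈ C}.Finite)
    (adj₂ : ∀ γ, adjoint (lam₂ γ) = lam₂ γ⁻¹)
    (h₁ : Fam π lam₁ (X ∪ Set.range lam₂) q₁ Q₁ i j ρ₁)
    (h₂ : Fam π lam₂ (X ∪ Set.range lam₁) q₂ Q₂ i j₂ ρ₂) (hp : PtG ρ₁ (Q₁ j))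
    (j' : J') (ψ : C₀(G₁ j, ℂ)) (φ : C₀(G₂ j', ℂ)) : Commute (Q₁ j ψ) (Q₂ j' φ) := by
  obtain ⟨QQ₁, J₁, a₁⟩ := h₁.joint
  obtain ⟨QQ₂, J₂, a₂⟩ := h₂.joint
  obtain ⟨P, iP, cP, tP, mP, sP, κ, y, E, M, mulE, gen, ab, fix, disj⟩ := hp
  have key : ∀ b f χ, Commute (E b f) (QQ₂ χ) := by
    intro b f χ
    letI : MulAction (∀ j, G₁ j) P := MulAction.compHom P (Pi.evalMonoidHom G₁ j)
    have hs : ∀ (g : ∀ j, G₁ j) (x : P), g • x = g j • x := fun g x => rfl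
    haveI : ContinuousSMul (∀ j, G₁ j) P := ⟨by
      have h1 : Continuous fun p : (∀ j, G₁ j) × P => p.1 j • p.2 :=
        ((continuous_apply j).comp continuous_fst).smul continuous_snd
      exact h1⟩
    have hpt : Pt (π.comp i) lam₁ (X ∪ Set.range lam₂) (Pi.monoidHom q₁) (sj G₁ j ρ₁) (y b)
        (E b) QQ₁ := by
      refine ⟨J₁.nd, J₁.cm, J₁.cov, fun h Ψ => ?_, fun f Ψ => ?_⟩
      · rw [MonoidHom.comp_apply, MonoidHom.comp_apply, map_inv]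
        exact a₁ h Ψ
      · exact J₁.mulE (h₁.nd j) (fun f ψ => mulE b f ψ _ fun x => rfl) f Ψ _ fun x => rfl
    refine xc_ptX (Measure.pi ν₁) (Measure.pi ν₂) i hPic tv
      (fun C hC => H715.Xc6.overlap_tsum (Pi.monoidHom q₁) disc hC) hpt adj₂ J₂.nd J₂.cm J₂.cov
      a₂ (M := M b) (ab b _ _) (ab b _ _) (fun u hu => ?_) ?_ f χ
    · rw [hs, sj_same]
      exact fix b u hu
    · intro ξ hξ
      obtain ⟨V, hV, hm, h⟩ := disj b ξ hξ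
      refine ⟨V, hV, hm, fun m => ?_⟩
      obtain ⟨n, hn, hd⟩ := h m
      refine ⟨n, hn, fun a b hab x hx x' hx' => ?_⟩
      rw [hs, hs, sj_same, sj_same]
      exact hd a b hab x hx x' hx'
  refine J₂.comm (fun χ => ?_) j' φ
  exact (gen (QQ₂ χ) (fun b f => (key b f χ).symm) ψ).symm

end xc

end Vale.Agent.P092.H325.MX
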