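import Vale.Agent.P092.H325.SXc
import Vale.Agent.P092.SX.Blocks

/-!
P092 (helper325), row [SX-XC]: **`xcStmt : SX.XCStmt kS k₁ k₂`** (two legs over different target
fields commute) and the product form `pXcTN` in the letters of `SX/Defs.lean`.
-/

set_option linter.all false

open scoped InnerProductSpace ENNReal ZeroAtInfty LinearAlgebra.Projectivization
open Filter Topology ContinuousLinearMap MeasureTheory Matrix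

namespace Vale.Agent.P092.H325.SX

open Vale.Agent.P092.RC (Cm TRN GG PG YY)
open Vale.Agent.P092.SN (CY PH UD nm Adm TVE)
open Vale.Agent.P092.SX (ClsN XCStmt)
open Vale.Agent.P092.H295
open Vale.Agent.P092.H35 (sp)
open Vale.Agent.P092.H375.X2 (sgm sgm_smul)

section one

variable {kS k : Type} [NontriviallyNormedField kS] [ProperSpace kS] [NontriviallyNormedField k]
  [ProperSpace k] {N : ℕ} {S E₀ Γ K : Type} [Group S] [Group E₀]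
  [TopologicalSpace E₀] [Group Γ] [NormedAddCommGroup K] [InnerProductSpace ℂ K] [CompleteSpace K]
  {ρ : S →* GG kS N} {ι : S →* E₀} {a : E₀ →* PG kS (N + 1)} {π : E₀ →* (K →L[ℂ] K)}
  {lam : Γ →* (K →L[ℂ] K)} {W : Set (K →L[ℂ] K)} {q : Γ → GG k N}
  {Ec : YY kS N → (CY k N →⋆ₐ[ℂ] (K →L[ℂ] K))} {σ : kS →+* k}
  {Q : C₀(PG k (N + 1), ℂ) →⋆ₙₐ[ℂ] (K →L[ℂ] K)}

theorem clsT_of (ha : ∀ h (b : YY kS N), a (ι h) • b = ρ h • b)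
    (h : ClsN a π lam W q Ec σ Q) : ClsT ρ ι π lam W q Ec σ Q where
  nd := h.nd
  cm := h.cm
  cov := h.cov
  pcov g ψ ψ' hψ := by
    refine h.pcov (ι g) (sp k (N + 1) (SpecialLinearGroup.map σ (ρ g))) (fun b => ?_) ψ ψ' hψ
    rw [ha]
    exact (sgm_smul σ (ρ g) b).symm
  mulE := h.mulE

/-- an element of the source which acts trivially on the points commutes with `Q` -/
theorem clsN_comm (h : ClsN a π lam W q Ec σ Q) {e : E₀} (he : ∀ b : YY kS N, a e • b = b)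
    (ψ : C₀(PG k (N + 1), ℂ)) : Commute (π e) (Q ψ) := by
  have h1 := h.pcov e 1 (fun b => by rw [he, one_smul]) ψ ψ (fun y => by rw [mul_one])
  calc π e * Q ψ = π e * Q ψ * (π e⁻¹ * π e) := by rw [inv_mul_map, mul_one]
    _ = π e * Q ψ * π e⁻¹ * π e := by rw [← mul_assoc]
    _ = Q ψ * π e := by rw [h1]

end one

/-- **[SX-XC]** -/
theorem xcStmt (kS k₁ k₂ : Type) [NontriviallyNormedField kS] [ProperSpace kS]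
    [NontriviallyNormedField k₁] [ProperSpace k₁] [NontriviallyNormedField k₂]
    [ProperSpace k₂] : XCStmt kS k₁ k₂ := by
  intro N E Γ K _ _ _ _ _ _ _ ι a a' π lam₁ lam₂ X Ω q₁ q₂ E₁ E₂ σ₁ σ₂ Q₁ Q₂ hA hP₁ hP₂ x₁ x₂
    t₁ t₂ p₁ p₂ d₁ d₂ h₁ h₂ ψ φ
  exact xcT (ρ := MonoidHom.id (GG kS N)) (ι := ι) symT_id hP₁
    (fun Y h1 h2 h => t₁ Y ⟨h1, h2⟩ (ι h)) hP₂.adjL p₁ p₂
    (fun C hC => overlap_disc p₁ d₁ hC) (clsT_of (fun h b => hA.comp h b) h₁)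
    (clsT_of (fun h b => hA.comp h b) h₂) ψ φ

section prod

variable {J : Type} [Fintype J] {kS l₁ l₂ : J → Type} [∀ j, NontriviallyNormedField (kS j)]
  [∀ j, ProperSpace (kS j)] [∀ j, NontriviallyNormedField (l₁ j)] [∀ j, ProperSpace (l₁ j)]
  [∀ j, NontriviallyNormedField (l₂ j)] [∀ j, ProperSpace (l₂ j)] {N : J → ℕ} {S : J → Type}
  [∀ j, Group (S j)]
variable {E₀ Γ₁ Γ₂ K : Type} [Group E₀] [TopologicalSpace E₀] [Group Γ₁] [Group Γ₂]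
  [NormedAddCommGroup K] [InnerProductSpace ℂ K] [CompleteSpace K]
variable {ρ : ∀ j, S j →* GG (kS j) (N j)} {ι : ∀ j, S j →* E₀}
  {a : ∀ j, E₀ →* PG (kS j) (N j + 1)} {π : E₀ →* (K →L[ℂ] K)}
  {lam₁ : Γ₁ →* (K →L[ℂ] K)} {lam₂ : Γ₂ →* (K →L[ℂ] K)} {X : Set (K →L[ℂ] K)} {Ω : K}
  {q₁ : ∀ j, Γ₁ → GG (l₁ j) (N j)} {q₂ : ∀ j, Γ₂ → GG (l₂ j) (N j)}
  {E₁ : ∀ j, YY (kS j) (N j) → (CY (l₁ j) (N j) →⋆ₐ[ℂ] (K →L[ℂ] K))}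
  {E₂ : ∀ j, YY (kS j) (N j) → (CY (l₂ j) (N j) →⋆ₐ[ℂ] (K →L[ℂ] K))}
  {σ₁ : ∀ j, kS j →+* l₁ j} {σ₂ : ∀ j, kS j →+* l₂ j}
  {Q₁ : ∀ j, C₀(PG (l₁ j) (N j + 1), ℂ) →⋆ₙₐ[ℂ] (K →L[ℂ] K)}
  {Q₂ : ∀ j, C₀(PG (l₂ j) (N j + 1), ℂ) →⋆ₙₐ[ℂ] (K →L[ℂ] K)}

/-- **[SX-XC] for finite products**, any sources `S j` with enough symmetries -/
theorem pXcTN [Countable Γ₁] (hS : ∀ j, SymT (ρ j))
    (ha : ∀ j h (b : YY (kS j) (N j)), a j (ι j h) • b = ρ j h • b)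
    (triv : ∀ j' j, j' ≠ j → ∀ (h : S j') (b : YY (kS j) (N j)), a j (ι j' h) • b = b)
    (hPic : RC.PicX π lam₁ (X ∪ Set.range lam₂) Ω) (tv : TVE π lam₁ (X ∪ Set.range lam₂) Ω)
    (adj₂ : ∀ γ, adjoint (lam₂ γ) = lam₂ γ⁻¹) (ph₁ : ∀ j, PH (q₁ j)) (ph₂ : ∀ j, PH (q₂ j))
    (disc₁ : ∀ C : ℝ, {γ : Γ₁ | ∀ j, nm (q₁ j γ) ≤ C}.Finite)
    (h₁ : ∀ j, ClsN (a j) π lam₁ (X ∪ Set.range lam₂) (q₁ j) (E₁ j) (σ₁ j) (Q₁ j))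
    (com₁ : ∀ j' j, j' ≠ j → ∀ ψ φ, Commute (Q₁ j' ψ) (Q₁ j φ))
    (h₂ : ∀ j, ClsN (a j) π lam₂ (X ∪ Set.range lam₁) (q₂ j) (E₂ j) (σ₂ j) (Q₂ j))
    (com₂ : ∀ j' j, j' ≠ j → ∀ ψ φ, Commute (Q₂ j' ψ) (Q₂ j φ))
    (j j' : J) (ψ : C₀(PG (l₁ j) (N j + 1), ℂ)) (φ : C₀(PG (l₂ j') (N j' + 1), ℂ)) :
    Commute (Q₁ j ψ) (Q₂ j' φ) :=
  pXcT hS hPic (fun Y h1 h2 e => tv Y ⟨h1, h2⟩ e) adj₂ ph₁ ph₂ disc₁
    (fun j => clsT_of (ha j) (h₁ j))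
    (fun j' j hj h ψ => clsN_comm (h₁ j) (fun b => triv j' j hj h b) ψ) com₁
    (fun j => clsT_of (ha j) (h₂ j))
    (fun j' j hj h ψ => clsN_comm (h₂ j) (fun b => triv j' j hj h b) ψ) com₂ j j' ψ φ

end prod

end Vale.Agent.P092.H325.SX
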