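import Vale.Agent.P092.H325.UqK
import Vale.Agent.P092.H544.TV

/-!
P092 (helper325), row [N-XC]: the abstract cross-leg step with a source group `E₀`, a group
`H` of symmetries over it (`j : H →* E₀`), two target groups `G₁`, `G₂`.
-/

set_option linter.all false

open scoped InnerProductSpace ENNReal ZeroAtInfty Pointwise
open Filter Topology ContinuousLinearMap MeasureTheory

namespace Vale.Agent.P092.H325

open Vale.Agent.P092.RC (Cm TRN)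
open Vale.Agent.P092.H295
open Vale.Agent.P092.H715.Disj (Disj)

variable {G₁ G₂ : Type}
  [Group G₁] [TopologicalSpace G₁] [IsTopologicalGroup G₁] [T2Space G₁] [LocallyCompactSpace G₁]
  [SecondCountableTopology G₁] [MeasurableSpace G₁] [BorelSpace G₁]
  [Group G₂] [TopologicalSpace G₂] [IsTopologicalGroup G₂] [T2Space G₂] [LocallyCompactSpace G₂]
  [SecondCountableTopology G₂] [MeasurableSpace G₂] [BorelSpace G₂]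
variable {Γ₁ Γ₂ H E₀ : Type} [Group Γ₁] [Group Γ₂] [Group H] [Group E₀] [TopologicalSpace E₀]
variable {K : Type} [NormedAddCommGroup K] [InnerProductSpace ℂ K] [CompleteSpace K]
variable {P : Type} [TopologicalSpace P] [CompactSpace P] [T2Space P] [MulAction G₁ P]
  [ContinuousSMul G₁ P]
variable {π₀ : E₀ →* (K →L[ℂ] K)} {lam₁ : Γ₁ →* (K →L[ℂ] K)} {lam₂ : Γ₂ →* (K →L[ℂ] K)}
  {X : Set (K →L[ℂ] K)} {Ω : K} {q₁ : Γ₁ →* G₁} {q₂ : Γ₂ →* G₂} {ι₁ : H →* G₁} {ι₂ : H →* G₂}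
  {Q₁ : C₀(G₁, ℂ) →⋆ₙₐ[ℂ] (K →L[ℂ] K)} {Q₂ : C₀(G₂, ℂ) →⋆ₙₐ[ℂ] (K →L[ℂ] K)}

/-- the structure `LgI` from the picture of the whole source group `E₀`, with `j : H →* E₀` -/
theorem lgI_of' (μ : Measure G₁) [μ.IsHaarMeasure] [μ.IsMulRightInvariant] {W : Set (K →L[ℂ] K)}
    (j : H →* E₀) (hPic : RC.Pic π₀ lam₁ W Ω)
    (tv : ∀ Y, Cm W Y → (∀ γ, Y * lam₁ γ = lam₁ γ * Y) → ∀ h : H,
      ⟪π₀ (j h) Ω, Y (π₀ (j h) Ω)⟫_ℂ = ⟪Ω, Y Ω⟫_ℂ)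
    {y : P} {E : C(P, ℂ) →⋆ₐ[ℂ] (K →L[ℂ] K)} (hp : Pt (π₀.comp j) lam₁ W q₁ ι₁ y E Q₁) :
    LgI μ ι₁ (π₀.comp j) lam₁ W Ω q₁ Q₁ := by
  letI : TopologicalSpace H := ⊤
  have hd : ∀ c : C₀(G₁, ℂ), HasCompactSupport c → ∀ ξ,
      ∫⁻ g, ‖Q₁ (ltr g c) ξ‖ₑ ^ 2 ∂μ = (∫⁻ g, ‖c g‖ₑ ^ 2 ∂μ) * ‖ξ‖ₑ ^ 2 := by
    intro c hc ξ
    have h1 := H295.sq_int μ hp.nd c hc ξ
    have h2 := H295.integrable_sq μ hp.nd c hc ξ
    have h3 : ∫⁻ g, ‖Q₁ (ltr g c) ξ‖ₑ ^ 2 ∂μ = ENNReal.ofReal (∫ g, ‖Q₁ (ltr g c) ξ‖ ^ 2 ∂μ) := by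
      rw [ofReal_integral_eq_lintegral_ofReal h2 (Eventually.of_forall fun g => by positivity)]
      refine lintegral_congr fun g => ?_
      rw [← ofReal_norm_eq_enorm, ← ENNReal.ofReal_pow (norm_nonneg _)]
    have h4 : Continuous fun g => ‖c g‖ ^ 2 := (map_continuous c).norm.pow 2
    have h5 : HasCompactSupport fun g => ‖c g‖ ^ 2 :=
      hc.comp_left (g := fun z : ℂ => ‖z‖ ^ 2) (by simp)
    have h6 : Integrable (fun g => ‖c g‖ ^ 2) μ := h4.integrable_of_hasCompactSupport h5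
    have h7 : ∫⁻ g, ‖c g‖ₑ ^ 2 ∂μ = ENNReal.ofReal (H295.sq μ c) := by
      unfold H295.sq
      rw [ofReal_integral_eq_lintegral_ofReal h6 (Eventually.of_forall fun g => by positivity)]
      refine lintegral_congr fun g => ?_
      rw [← ofReal_norm_eq_enorm, ← ENNReal.ofReal_pow (norm_nonneg _)]
    rw [h3, h1, h7, ENNReal.ofReal_mul (H295.sq_nonneg' μ c),
      ENNReal.ofReal_pow (norm_nonneg _), ofReal_norm_eq_enorm]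
  exact ⟨fun g => by
      rw [MonoidHom.comp_apply, MonoidHom.comp_apply, map_inv]
      exact hPic.adjP (j g), hPic.adjL, hPic.Wadj, hPic.nΩ, hPic.tr_adj, hPic.tr_zero, tv, hp.cm,
    hp.cov, hp.pcov, hd⟩

/-- **[N-XC], abstract form**: the calculus of a point of the first leg commutes with the classical
calculus of the second leg. `G₁`, `G₂` may be products; `P` is then the space of one coordinate.
From the second leg only `nd`, `cm`, `cov`, `pcov` are used. -/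
theorem xc_pt [Countable Γ₁] (μ₁ : Measure G₁) [μ₁.IsHaarMeasure] [μ₁.IsMulRightInvariant]
    (μ₂ : Measure G₂) [μ₂.IsHaarMeasure] [μ₂.IsMulRightInvariant] (j : H →* E₀)
    (hPic : RC.Pic π₀ lam₁ (X ∪ Set.range lam₂) Ω)
    (tv : ∀ Y, Cm (X ∪ Set.range lam₂) Y → (∀ γ, Y * lam₁ γ = lam₁ γ * Y) → ∀ h : H,
      ⟪π₀ (j h) Ω, Y (π₀ (j h) Ω)⟫_ℂ = ⟪Ω, Y Ω⟫_ℂ)
    (hN : ∀ C : Set G₁, IsCompact C → ∃ N : ℕ, ∀ g,
      ∑' γ, C.indicator (1 : G₁ → ℝ≥0∞) (q₁ γ * g) ≤ N)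
    {y : P} {E : C(P, ℂ) →⋆ₐ[ℂ] (K →L[ℂ] K)}
    (hp : Pt (π₀.comp j) lam₁ (X ∪ Set.range lam₂) q₁ ι₁ y E Q₁)
    (adj₂ : ∀ γ, adjoint (lam₂ γ) = lam₂ γ⁻¹)
    (nd₂ : ∀ ξ, (∀ ψ, Q₂ ψ ξ = 0) → ξ = 0) (cm₂ : ∀ ψ, Cm (X ∪ Set.range lam₁) (Q₂ ψ))
    (cov₂ : ∀ γ ψ, lam₂ γ * Q₂ ψ * lam₂ γ⁻¹ = Q₂ (ltr (q₂ γ) ψ))
    (pcov₂ : ∀ (h : H) ψ, π₀ (j h) * Q₂ ψ * π₀ (j h)⁻¹ = Q₂ (rtr (ι₂ h) ψ))
    {M : Set H} (hM : ∀ u ∈ M, ∀ v ∈ M, Commute u v) (fix : ∀ u ∈ M, ι₁ u • y = y)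
    (hD : Disj ι₁ M y) (f : C(P, ℂ)) (χ : C₀(G₂, ℂ)) : Commute (E f) (Q₂ χ) := by
  have hL := lgI_of' μ₁ j hPic tv hp
  refine commute_of_uniq (q₂ := q₂) (ι₂ := ι₂) (π := π₀.comp j) μ₂ hp nd₂ cm₂ cov₂ (fun h ψ => ?_)
    (fun g => ?_) hPic.adjL adj₂ M hM fix (hL.uniq hN hM hD hp) f χ
  · rw [MonoidHom.comp_apply, MonoidHom.comp_apply, map_inv]
    exact pcov₂ h ψ
  · rw [MonoidHom.comp_apply, MonoidHom.comp_apply, map_inv]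
    exact hPic.adjP (j g)

/-- (TV) for the group `H`, from the picture and the projections `m` (helper544) -/
theorem tv_of {m : Set Γ₁ → (K →L[ℂ] K)} {W : Set (K →L[ℂ] K)} (j : H →* E₀)
    (hPic : RC.Pic π₀ lam₁ W Ω) (hm : SD.Ms lam₁ W Ω m) :
    ∀ Y, Cm W Y → (∀ γ, Y * lam₁ γ = lam₁ γ * Y) → ∀ h : H,
      ⟪π₀ (j h) Ω, Y (π₀ (j h) Ω)⟫_ℂ = ⟪Ω, Y Ω⟫_ℂ :=
  fun Y h1 h2 h => H544.tv' hPic hm ⟨h1, h2⟩ (j h)

end Vale.Agent.P092.H325
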