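import Vale.Agent.P092.H943.ProdD
import Vale.Agent.P092.H325.XcI

/-!
P092 (helper325), cross-leg step for products: the joint calculus of the factors of one leg, with the
multiplication rule (`Q i φ * QQ Ψ = QQ (φ(x i) Ψ)`), and its covariances. Construction: helper943.
-/

set_option linter.all false

namespace Vale.Agent.P092.H325

open Topology TopologicalSpace Filter Set ContinuousLinearMap
open scoped InnerProductSpace ComplexConjugate ZeroAtInfty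
open Vale.Agent.P092.RC (Cm)
open Vale.Agent.P092.H295
open Vale.Agent.P092.H943
open Vale.Agent.P092.H171 (ext ext_apply ext_zero ext_surj)

section pi

variable {J : Type*} {X : J → Type*} [∀ i, TopologicalSpace (X i)]
  [∀ i, T2Space (X i)] [∀ i, WeaklyLocallyCompactSpace (X i)]
  {K : Type*} [NormedAddCommGroup K] [InnerProductSpace ℂ K] [CompleteSpace K]

/-- the joint calculus (`H943.exists_pi`) with the multiplication rule -/
theorem exists_piQ [Fintype J] (Q : ∀ i, C₀(X i, ℂ) →⋆ₙₐ[ℂ] (K →L[ℂ] K))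
    (nd : ∀ i ξ, (∀ ψ, Q i ψ ξ = 0) → ξ = 0)
    (hc : ∀ i j, i ≠ j → ∀ ψ φ, Commute (Q i ψ) (Q j φ)) :
    ∃ QQ : C₀(∀ i, X i, ℂ) →⋆ₙₐ[ℂ] (K →L[ℂ] K),
      (∀ ξ, (∀ Ψ, QQ Ψ ξ = 0) → ξ = 0) ∧
      (∀ T : K →L[ℂ] K, (∀ i ψ, Commute T (Q i ψ)) → ∀ Ψ, Commute T (QQ Ψ)) ∧
      (∀ (h : ∀ i, X i ≃ₜ X i) (U V : K →L[ℂ] K), U * V = 1 → V * U = 1 →
        (∀ i (ψ ψ' : C₀(X i, ℂ)), (∀ x, ψ' x = ψ (h i x)) → U * Q i ψ * V = Q i ψ') →
        ∀ Ψ Ψ' : C₀(∀ i, X i, ℂ), (∀ x, Ψ' x = Ψ fun i => h i (x i)) → U * QQ Ψ * V = QQ Ψ') ∧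
      ∀ i (φ : C₀(X i, ℂ)) (Ψ Ψ' : C₀(∀ i, X i, ℂ)), (∀ x, Ψ' x = φ (x i) * Ψ x) →
        Q i φ * QQ Ψ = QQ Ψ' := by
  obtain ⟨Φ, hΦ⟩ := exists_PP Q hc
  have hcc := isOpenEmbedding_cc (ι := J) (X := X)
  refine ⟨(Φ : C(∀ i, OnePoint (X i), ℂ) →⋆ₙₐ[ℂ] (K →L[ℂ] K)).comp (ext hcc), ?_, ?_, ?_, ?_⟩
  · intro ξ h0
    by_contra hξ
    obtain ⟨ψ, hψ⟩ := exists_ne Q nd hΦ hξ
    obtain ⟨Ψ, hΨ⟩ := ext_surj hcc (∏ i, cof i (ez (ψ i))) (by
      intro z hz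
      rw [mem_range_cc] at hz
      push Not at hz
      obtain ⟨i, hi⟩ := hz
      rw [ContinuousMap.prod_apply]
      refine Finset.prod_eq_zero (Finset.mem_univ i) ?_
      rw [cof_apply, hi, ez_infty])
    apply hψ
    rw [← hΨ]
    exact h0 Ψ
  · intro T hT Ψ
    refine comm_all Φ (fun i f => ?_) _
    rw [hΦ]
    exact uext_comm' (hT i) f
  · intro h U V hUV hVU hQ Ψ Ψ' hΨ
    let g : C(∀ i, OnePoint (X i), ∀ i, OnePoint (X i)) :=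
      ⟨fun z i => (h i).onePointCongr (z i), by
        refine continuous_pi fun i => ?_
        exact (h i).onePointCongr.continuous.comp (continuous_apply i)⟩
    have hg : ∀ z i, g z i = (h i).onePointCongr (z i) := fun _ _ => rfl
    have h1 := conj_eq Φ Φ g hUV hVU (fun i f => by
      have e : (cof i f).comp g = cof i (f.comp ((h i).onePointCongr : C(_, _))) := rfl
      rw [e, hΦ, hΦ, uext_apply, uext_apply, mul_add, add_mul]
      congr 1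
      · rw [Algebra.algebraMap_eq_smul_one, mul_smul_comm, mul_one, smul_mul_assoc, hUV,
          Algebra.algebraMap_eq_smul_one]
        rfl
      · refine hQ i _ _ fun x => ?_
        rfl) (ext hcc Ψ)
    have h2 : (ext hcc Ψ).comp g = ext hcc Ψ' := by
      ext z
      by_cases hz : z ∈ range (cc : (∀ i, X i) → ∀ i, OnePoint (X i))
      · obtain ⟨x, rfl⟩ := hz
        rw [ext_apply, hΨ]
        exact ext_apply hcc Ψ (fun i => h i (x i))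
      · rw [ext_zero hcc _ hz]
        refine ext_zero hcc _ ?_
        rw [mem_range_cc] at hz ⊢
        push Not at hz ⊢
        obtain ⟨i, hi⟩ := hz
        refine ⟨i, ?_⟩
        rw [hg, hi]
        rfl
    rw [h2] at h1
    exact h1
  · intro i φ Ψ Ψ' hΨ
    have e1 : Q i φ = Φ (cof i (ez φ)) := by rw [hΦ, uext_ez]
    have e2 : cof i (ez φ) * ext hcc Ψ = ext hcc Ψ' := by
      ext z
      rw [ContinuousMap.mul_apply, cof_apply]
      by_cases hz : z ∈ range (cc : (∀ i, X i) → ∀ i, OnePoint (X i))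
      · obtain ⟨x, rfl⟩ := hz
        rw [ext_apply, ext_apply, hΨ]
        exact congrArg (· * Ψ x) (ez_coe φ (x i))
      · rw [ext_zero hcc _ hz, ext_zero hcc _ hz, mul_zero]
    change Q i φ * Φ (ext hcc Ψ) = Φ (ext hcc Ψ')
    rw [e1, ← map_mul, e2]

/-- `x ↦ φ (x i) * Ψ x` -/
noncomputable def mulc (i : J) (φ : C₀(X i, ℂ)) (Ψ : C₀(∀ i, X i, ℂ)) : C₀(∀ i, X i, ℂ) where
  toFun x := φ (x i) * Ψ x
  continuous_toFun := (φ.continuous.comp (continuous_apply i)).mul Ψ.continuous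
  zero_at_infty' := by
    rw [tendsto_zero_iff_norm_tendsto_zero]
    have h1 := Ψ.zero_at_infty'.norm.const_mul ‖φ‖
    rw [norm_zero, mul_zero] at h1
    refine squeeze_zero (fun x => norm_nonneg _) (fun x => ?_) h1
    rw [norm_mul]
    gcongr
    · rw [← ZeroAtInftyContinuousMap.norm_toBCF_eq_norm]
      exact (ZeroAtInftyContinuousMap.toBCF φ).norm_coe_le_norm _
    · exact le_rfl

theorem mulc_apply (i : J) (φ : C₀(X i, ℂ)) (Ψ : C₀(∀ i, X i, ℂ)) (x : ∀ i, X i) :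
    mulc i φ Ψ x = φ (x i) * Ψ x := rfl

end pi

/-! ### The factors of one leg -/

section fl

variable {J : Type} {G H : J → Type} [∀ j, Group (G j)] [∀ j, TopologicalSpace (G j)]
  [∀ j, IsTopologicalGroup (G j)] [∀ j, T2Space (G j)] [∀ j, LocallyCompactSpace (G j)]
  [∀ j, Group (H j)] {E₀ Γ K : Type} [Group E₀] [Group Γ]
  [NormedAddCommGroup K] [InnerProductSpace ℂ K] [CompleteSpace K]

/-- the classical calculi of the factors of one leg. `i j : H j →* E₀`: symmetries of the factor `j`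
in the source group; `ι j : H j →* G j`: their action on the target; `q j : Γ →* G j`. -/
structure FL (π₀ : E₀ →* (K →L[ℂ] K)) (lam : Γ →* (K →L[ℂ] K)) (W : Set (K →L[ℂ] K))
    (i : ∀ j, H j →* E₀) (q : ∀ j, Γ →* G j) (ι : ∀ j, H j →* G j)
    (Q : ∀ j, C₀(G j, ℂ) →⋆ₙₐ[ℂ] (K →L[ℂ] K)) : Prop where
  nd : ∀ j ξ, (∀ ψ, Q j ψ ξ = 0) → ξ = 0
  cm : ∀ j ψ, Cm W (Q j ψ)
  cov : ∀ j γ ψ, lam γ * Q j ψ * lam γ⁻¹ = Q j (ltr (q j γ) ψ)
  pcov : ∀ j h ψ, π₀ (i j h) * Q j ψ * π₀ (i j h)⁻¹ = Q j (rtr (ι j h) ψ)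
  pcm : ∀ j' j, j' ≠ j → ∀ (h : H j') ψ, Commute (π₀ (i j' h)) (Q j ψ)
  com : ∀ j' j, j' ≠ j → ∀ ψ φ, Commute (Q j' ψ) (Q j φ)

variable {π₀ : E₀ →* (K →L[ℂ] K)} {lam : Γ →* (K →L[ℂ] K)} {W : Set (K →L[ℂ] K)}
  {i : ∀ j, H j →* E₀} {q : ∀ j, Γ →* G j} {ι : ∀ j, H j →* G j}
  {Q : ∀ j, C₀(G j, ℂ) →⋆ₙₐ[ℂ] (K →L[ℂ] K)}

open Classical in
/-- the action of the symmetries of the factor `j` on the product of the targets -/
noncomputable def sg (ι : ∀ j, H j →* G j) (j : J) : H j →* ∀ j, G j :=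
  (MonoidHom.mulSingle G j).comp (ι j)

open Classical in
theorem sg_apply (ι : ∀ j, H j →* G j) (j : J) (h : H j) : sg ι j h = Pi.mulSingle j (ι j h) := rfl

theorem sg_same (ι : ∀ j, H j →* G j) (j : J) (h : H j) : sg ι j h j = ι j h := by
  classical
  rw [sg_apply]
  exact Pi.mulSingle_eq_same j _

/-- the joint calculus of one leg -/
structure JL (π₀ : E₀ →* (K →L[ℂ] K)) (lam : Γ →* (K →L[ℂ] K)) (W : Set (K →L[ℂ] K))
    (i : ∀ j, H j →* E₀) (q : ∀ j, Γ →* G j) (ι : ∀ j, H j →* G j)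
    (Q : ∀ j, C₀(G j, ℂ) →⋆ₙₐ[ℂ] (K →L[ℂ] K)) (QQ : C₀(∀ j, G j, ℂ) →⋆ₙₐ[ℂ] (K →L[ℂ] K)) :
    Prop where
  nd : ∀ ξ, (∀ Ψ, QQ Ψ ξ = 0) → ξ = 0
  cm : ∀ Ψ, Cm W (QQ Ψ)
  cov : ∀ γ Ψ, lam γ * QQ Ψ * lam γ⁻¹ = QQ (ltr (Pi.monoidHom q γ) Ψ)
  pcov : ∀ j h Ψ, π₀ (i j h) * QQ Ψ * π₀ (i j h)⁻¹ = QQ (rtr (sg ι j h) Ψ)
  gen : ∀ T : K →L[ℂ] K, (∀ j ψ, Commute T (Q j ψ)) → ∀ Ψ, Commute T (QQ Ψ)
  mulQ : ∀ j φ Ψ, Q j φ * QQ Ψ = QQ (mulc j φ Ψ)

/-- **the joint calculus of one leg** -/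
theorem FL.joint [Fintype J] (h : FL π₀ lam W i q ι Q) :
    ∃ QQ : C₀(∀ j, G j, ℂ) →⋆ₙₐ[ℂ] (K →L[ℂ] K), JL π₀ lam W i q ι Q QQ := by
  classical
  obtain ⟨QQ, h1, h2, h3, h4⟩ := exists_piQ Q h.nd h.com
  refine ⟨QQ, h1, fun Ψ w hw => ?_, fun γ Ψ => ?_, fun j g Ψ => ?_, h2, fun j φ Ψ =>
    h4 j φ Ψ _ fun x => rfl⟩
  · exact (h2 w (fun j ψ => (h.cm j ψ w hw).symm) Ψ).symm
  · refine h3 (fun j => Homeomorph.mulLeft (q j γ)⁻¹) (lam γ) (lam γ⁻¹) (mul_inv_map lam γ)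
      (inv_mul_map lam γ) (fun j ψ ψ' hψ => ?_) Ψ _ fun x => rfl
    rw [h.cov]
    congr 1
    ext x
    exact (hψ x).symm
  · refine h3 (fun j' => Homeomorph.mulRight (sg ι j g j')) (π₀ (i j g)) (π₀ (i j g)⁻¹)
      (mul_inv_map π₀ _) (inv_mul_map π₀ _) (fun j' ψ ψ' hψ => ?_) Ψ _ fun x => rfl
    by_cases hj : j' = j
    · subst hj
      rw [h.pcov]
      congr 1
      ext x
      rw [hψ x]
      change ψ (x * ι j' g) = ψ (x * sg ι j' g j')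
      rw [sg_same]
    · have e : ψ' = ψ := by
        ext x
        rw [hψ x]
        change ψ (x * sg ι j g j') = ψ x
        rw [sg_apply, Pi.mulSingle_eq_of_ne hj, mul_one]
      rw [e, (h.pcm j j' (Ne.symm hj) g ψ).eq, mul_assoc, mul_inv_map, mul_one]

/-- an operator which commutes with the joint calculus commutes with the factors -/
theorem JL.comm {QQ : C₀(∀ j, G j, ℂ) →⋆ₙₐ[ℂ] (K →L[ℂ] K)} (h : JL π₀ lam W i q ι Q QQ)
    {T : K →L[ℂ] K} (hT : ∀ Ψ, Commute T (QQ Ψ)) (j : J) (φ : C₀(G j, ℂ)) : Commute T (Q j φ) := by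
  refine ext_nd h.nd fun Ψ => ?_
  calc T * Q j φ * QQ Ψ = T * QQ (mulc j φ Ψ) := by rw [mul_assoc, h.mulQ]
    _ = QQ (mulc j φ Ψ) * T := hT _
    _ = Q j φ * (QQ Ψ * T) := by rw [← h.mulQ, mul_assoc]
    _ = Q j φ * T * QQ Ψ := by rw [← (hT Ψ).eq, mul_assoc]

/-- the calculus of a point of the factor `j` multiplies the joint calculus -/
theorem JL.mulE {QQ : C₀(∀ j, G j, ℂ) →⋆ₙₐ[ℂ] (K →L[ℂ] K)} (h : JL π₀ lam W i q ι Q QQ) {j : J}
    (ndj : ∀ ξ, (∀ ψ, Q j ψ ξ = 0) → ξ = 0)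
    {P : Type} [TopologicalSpace P] [CompactSpace P] [MulAction (G j) P] [ContinuousSMul (G j) P]
    {y : P} {E : C(P, ℂ) →⋆ₐ[ℂ] (K →L[ℂ] K)} (hE : ∀ f ψ, E f * Q j ψ = Q j (mf y f ψ))
    (f : C(P, ℂ)) (Ψ Ψ' : C₀(∀ j, G j, ℂ)) (hΨ : ∀ x, Ψ' x = f (x j • y) * Ψ x) :
    E f * QQ Ψ = QQ Ψ' := by
  have hcm : ∀ φ, Q j φ * E f = Q j (mf y f φ) := by
    intro φ
    have h1 := congrArg adjoint (hE (star f) (star φ))
    rw [ContinuousLinearMap.mul_def, adjoint_comp, adj_map, adj_map, star_star] at h1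
    have h2 : adjoint (E (star f)) = E f := by
      rw [← ContinuousLinearMap.star_eq_adjoint, ← map_star, star_star]
    rw [h2] at h1
    change Q j φ * E f = _ at h1
    rw [h1]
    congr 1
    ext x
    change (starRingEnd ℂ) ((starRingEnd ℂ) (f (x • y)) * (starRingEnd ℂ) (φ x)) = f (x • y) * φ x
    rw [map_mul, Complex.conj_conj, Complex.conj_conj]
  refine ContinuousLinearMap.ext fun ξ => ?_
  refine sub_eq_zero.1 (ndj _ fun φ => ?_)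
  have key : Q j φ * (E f * QQ Ψ) = Q j φ * QQ Ψ' := by
    rw [← mul_assoc, hcm, h.mulQ, h.mulQ]
    congr 1
    ext x
    rw [mulc_apply, mulc_apply, hΨ, mf_apply]
    ring
  have := congrArg (fun T : K →L[ℂ] K => T ξ) key
  change Q j φ ((E f * QQ Ψ) ξ) = Q j φ (QQ Ψ' ξ) at this
  rw [map_sub, this, sub_self]

end fl

end Vale.Agent.P092.H325
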