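import Mathlib

/-!
P092, Team D, cross-leg step (helper862 #5604 (iii)): ultralimits of unital Kadison-Schwarz maps
on `C(P)`.
-/

set_option linter.all false

open Filter Topology ContinuousLinearMap
open scoped InnerProductSpace

namespace Vale.Agent.P092.H325

variable {K : Type*} [NormedAddCommGroup K] [InnerProductSpace ℂ K] [CompleteSpace K]

/-! ### One family of operators -/

theorem exists_lim_complex {I : Type*} (𝒰 : Ultrafilter I) (a : I → ℂ) (C : ℝ)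
    (h : ∀ i, ‖a i‖ ≤ C) : ∃ z, Tendsto a 𝒰 (𝓝 z) := by
  have hc : IsCompact (Metric.closedBall (0 : ℂ) C) := isCompact_closedBall _ _
  have hm : Metric.closedBall (0 : ℂ) C ∈ (𝒰.map a : Ultrafilter ℂ) := by
    rw [Ultrafilter.mem_map]
    refine Filter.univ_mem' fun i => ?_
    simpa using h i
  obtain ⟨z, -, hz⟩ := hc.ultrafilter_le_nhds' (𝒰.map a) hm
  exact ⟨z, hz⟩

theorem exists_ulim {I : Type*} (𝒰 : Ultrafilter I) (T : I → (K →L[ℂ] K)) (C : ℝ)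
    (hT : ∀ i, ‖T i‖ ≤ C) :
    ∃ S : K →L[ℂ] K, ‖S‖ ≤ C ∧ ∀ x z, Tendsto (fun i => ⟪x, T i z⟫_ℂ) 𝒰 (𝓝 ⟪x, S z⟫_ℂ) := by
  have hC : 0 ≤ C := by
    obtain ⟨i⟩ : Nonempty I := 𝒰.neBot.nonempty
    exact (norm_nonneg _).trans (hT i)
  have hb : ∀ z x i, ‖⟪T i z, x⟫_ℂ‖ ≤ C * ‖z‖ * ‖x‖ := fun z x i =>
    (norm_inner_le_norm _ _).trans (by gcongr; exact (T i).le_of_opNorm_le (hT i) z)
  choose b hbl using fun z x => exists_lim_complex 𝒰 (fun i => ⟪T i z, x⟫_ℂ) _ (hb z x)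
  have uniq : ∀ {z x : K} {w : ℂ}, Tendsto (fun i => ⟪T i z, x⟫_ℂ) 𝒰 (𝓝 w) → b z x = w :=
    fun h => tendsto_nhds_unique (hbl _ _) h
  have hbn : ∀ z x, ‖b z x‖ ≤ C * ‖z‖ * ‖x‖ := fun z x =>
    le_of_tendsto (hbl z x).norm (Eventually.of_forall fun i => hb z x i)
  let B : K →ₗ⋆[ℂ] K →ₗ[ℂ] ℂ := LinearMap.mk₂'ₛₗ (starRingEnd ℂ) (RingHom.id ℂ) b
    (fun z z' x => uniq (by
      have := (hbl z x).add (hbl z' x)
      simpa [inner_add_left] using this))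
    (fun c z x => uniq (by
      have h := (hbl z x).const_mul ((starRingEnd ℂ) c)
      refine h.congr fun i => ?_
      rw [map_smul, inner_smul_left]))
    (fun z x x' => uniq (by
      have := (hbl z x).add (hbl z x')
      simpa [inner_add_right] using this))
    (fun c z x => uniq (by
      have := (hbl z x).const_mul c
      simpa [inner_smul_right] using this))
  let Bc : K →L⋆[ℂ] K →L[ℂ] ℂ := B.mkContinuous₂ C (fun z x => hbn z x)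
  refine ⟨InnerProductSpace.continuousLinearMapOfBilin Bc, ?_, fun x z => ?_⟩
  · refine ContinuousLinearMap.opNorm_le_bound _ hC fun z => ?_
    set w := InnerProductSpace.continuousLinearMapOfBilin Bc z with hw
    have h1 : ⟪w, w⟫_ℂ = b z w :=
      InnerProductSpace.continuousLinearMapOfBilin_apply Bc z w
    have h2 : ‖w‖ * ‖w‖ ≤ C * ‖z‖ * ‖w‖ := by
      have h3 : ‖⟪w, w⟫_ℂ‖ = ‖w‖ * ‖w‖ := by
        rw [inner_self_eq_norm_sq_to_K]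
        simp [sq]
      rw [← h3, h1]
      exact hbn z w
    rcases eq_or_lt_of_le (norm_nonneg w) with h0 | h0
    · rw [← h0]
      positivity
    · exact le_of_mul_le_mul_right h2 h0
  · have h1 : ⟪InnerProductSpace.continuousLinearMapOfBilin Bc z, x⟫_ℂ = b z x :=
      InnerProductSpace.continuousLinearMapOfBilin_apply Bc z x
    have h2 : Tendsto (fun i => (starRingEnd ℂ) ⟪T i z, x⟫_ℂ) 𝒰 (𝓝 ((starRingEnd ℂ) (b z x))) :=
      (RCLike.continuous_conj.tendsto _).comp (hbl z x)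
    rw [← h1] at h2
    simpa only [inner_conj_symm] using h2

/-! ### Unital Kadison-Schwarz maps -/

variable {P : Type*} [TopologicalSpace P] [CompactSpace P]

/-- the Kadison-Schwarz inequality -/
def KS (A : C(P, ℂ) →ₗ[ℂ] (K →L[ℂ] K)) : Prop :=
  ∀ f ζ, ‖A f ζ‖ ^ 2 ≤ RCLike.re ⟪ζ, A (star f * f) ζ⟫_ℂ

/-- a unital Kadison-Schwarz map is a contraction -/
theorem ks_norm_le {A : C(P, ℂ) →ₗ[ℂ] (K →L[ℂ] K)} (h1 : A 1 = 1) (hA : KS A) (f : C(P, ℂ)) :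
    ‖A f‖ ≤ ‖f‖ := by
  refine ContinuousLinearMap.opNorm_le_bound _ (norm_nonneg _) fun ζ => ?_
  let h : C(P, ℂ) := ⟨fun x => ((Real.sqrt (‖f‖ ^ 2 - ‖f x‖ ^ 2) : ℝ) : ℂ), by fun_prop⟩
  have hh : star h * h = ((‖f‖ ^ 2 : ℝ) : ℂ) • (1 : C(P, ℂ)) - star f * f := by
    ext x
    have hx : 0 ≤ ‖f‖ ^ 2 - ‖f x‖ ^ 2 := by
      have := f.norm_coe_le_norm x
      nlinarith [norm_nonneg (f x), norm_nonneg f]
    have e1 : (star h * h) x = ((‖f‖ ^ 2 - ‖f x‖ ^ 2 : ℝ) : ℂ) := by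
      change star (((Real.sqrt (‖f‖ ^ 2 - ‖f x‖ ^ 2) : ℝ) : ℂ)) *
        ((Real.sqrt (‖f‖ ^ 2 - ‖f x‖ ^ 2) : ℝ) : ℂ) = _
      rw [Complex.star_def, Complex.conj_ofReal, ← Complex.ofReal_mul, Real.mul_self_sqrt hx]
    have e2 : (((‖f‖ ^ 2 : ℝ) : ℂ) • (1 : C(P, ℂ)) - star f * f) x
        = ((‖f‖ ^ 2 : ℝ) : ℂ) - star (f x) * f x := by
      simp
    have e3 : star (f x) * f x = ((‖f x‖ ^ 2 : ℝ) : ℂ) := by
      rw [Complex.star_def, ← Complex.normSq_eq_conj_mul_self, Complex.normSq_eq_norm_sq]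
    rw [e1, e2, e3, ← Complex.ofReal_sub]
  have h2 : 0 ≤ RCLike.re ⟪ζ, A (star h * h) ζ⟫_ℂ := (sq_nonneg _).trans (hA h ζ)
  have h3 : RCLike.re ⟪ζ, A (star h * h) ζ⟫_ℂ
      = ‖f‖ ^ 2 * ‖ζ‖ ^ 2 - RCLike.re ⟪ζ, A (star f * f) ζ⟫_ℂ := by
    rw [hh, map_sub, map_smul, h1]
    change RCLike.re ⟪ζ, ((‖f‖ ^ 2 : ℝ) : ℂ) • ζ - A (star f * f) ζ⟫_ℂ = _
    rw [inner_sub_right, map_sub, inner_smul_right]
    congr 1
    rw [RCLike.re_to_complex, Complex.re_ofReal_mul, ← RCLike.re_to_complex,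
      inner_self_eq_norm_sq]
  have h4 := hA f ζ
  have h5 : ‖A f ζ‖ ^ 2 ≤ (‖f‖ * ‖ζ‖) ^ 2 := by
    rw [mul_pow]
    linarith [h2.trans_eq h3]
  exact (sq_le_sq₀ (norm_nonneg _) (by positivity)).1 h5

/-- **Ultralimit of unital Kadison-Schwarz maps.** -/
theorem ultraP {I : Type*} (A : I → (C(P, ℂ) →ₗ[ℂ] (K →L[ℂ] K))) (h1 : ∀ i, A i 1 = 1)
    (hA : ∀ i f ζ, ‖A i f ζ‖ ^ 2 ≤ RCLike.re ⟪ζ, A i (star f * f) ζ⟫_ℂ) (𝒰 : Ultrafilter I) :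
    ∃ E' : C(P, ℂ) →ₗ[ℂ] (K →L[ℂ] K), E' 1 = 1 ∧
      (∀ f ζ, ‖E' f ζ‖ ^ 2 ≤ RCLike.re ⟪ζ, E' (star f * f) ζ⟫_ℂ) ∧ (∀ f, ‖E' f‖ ≤ ‖f‖) ∧
      ∀ f x z, Tendsto (fun i => ⟪x, A i f z⟫_ℂ) 𝒰 (𝓝 ⟪x, E' f z⟫_ℂ) := by
  choose E hEn hE using fun f : C(P, ℂ) =>
    exists_ulim 𝒰 (fun i => A i f) ‖f‖ (fun i => ks_norm_le (h1 i) (hA i) f)
  have ext : ∀ {S T : K →L[ℂ] K}, (∀ x z, ⟪x, S z⟫_ℂ = ⟪x, T z⟫_ℂ) → S = T := fun h =>
    ContinuousLinearMap.ext fun z => ext_inner_left ℂ fun x => h x z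
  let E' : C(P, ℂ) →ₗ[ℂ] (K →L[ℂ] K) :=
    { toFun := E
      map_add' := fun f g => ext fun x z => by
        refine tendsto_nhds_unique (hE (f + g) x z) ?_
        have := (hE f x z).add (hE g x z)
        simpa [inner_add_right] using this
      map_smul' := fun c f => ext fun x z => by
        refine tendsto_nhds_unique (hE (c • f) x z) ?_
        have := (hE f x z).const_mul c
        simpa [inner_smul_right] using this }
  refine ⟨E', ?_, fun f ζ => ?_, hEn, hE⟩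
  · refine ext fun x z => tendsto_nhds_unique (hE 1 x z) ?_
    simp only [h1]
    exact tendsto_const_nhds
  · set w := E f ζ with hw
    have hlim := hE f w ζ
    have hr : Tendsto (fun i => RCLike.re ⟪ζ, A i (star f * f) ζ⟫_ℂ) 𝒰
        (𝓝 (RCLike.re ⟪ζ, E (star f * f) ζ⟫_ℂ)) :=
      (RCLike.continuous_re.tendsto _).comp (hE (star f * f) ζ ζ)
    have key : ‖⟪w, E f ζ⟫_ℂ‖ ^ 2 ≤ ‖w‖ ^ 2 * RCLike.re ⟪ζ, E (star f * f) ζ⟫_ℂ := by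
      refine le_of_tendsto_of_tendsto' (hlim.norm.pow 2) (hr.const_mul (‖w‖ ^ 2)) fun i => ?_
      calc ‖⟪w, A i f ζ⟫_ℂ‖ ^ 2 ≤ (‖w‖ * ‖A i f ζ‖) ^ 2 := by
            gcongr
            exact norm_inner_le_norm _ _
        _ = ‖w‖ ^ 2 * ‖A i f ζ‖ ^ 2 := by ring
        _ ≤ ‖w‖ ^ 2 * RCLike.re ⟪ζ, A i (star f * f) ζ⟫_ℂ := by
            gcongr
            exact hA i f ζ
    have e : ‖⟪w, E f ζ⟫_ℂ‖ = ‖w‖ ^ 2 := by
      rw [← hw, inner_self_eq_norm_sq_to_K]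
      simp
    rw [e] at key
    change ‖w‖ ^ 2 ≤ RCLike.re ⟪ζ, E (star f * f) ζ⟫_ℂ
    rcases eq_or_lt_of_le (sq_nonneg ‖w‖) with h0 | h0
    · rw [← h0]
      refine ge_of_tendsto' hr fun i => (sq_nonneg _).trans (hA i f ζ)
    · have : ‖w‖ ^ 2 * ‖w‖ ^ 2 ≤ ‖w‖ ^ 2 * RCLike.re ⟪ζ, E (star f * f) ζ⟫_ℂ := by
        calc ‖w‖ ^ 2 * ‖w‖ ^ 2 = (‖w‖ ^ 2) ^ 2 := by ring
          _ ≤ _ := key
      exact le_of_mul_le_mul_left this h0

end Vale.Agent.P092.H325
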