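import Vale.Agent.P092.H626.Bump

/-!
P092 (helper325), row [P-XC]: small bumps which are almost invariant under conjugation with finitely
many elements of a SOLVABLE group of symmetries (helper626 / helper295: commuting elements). The
property is `AB μ S`; `ab_step`: from `D'` to `D` if `D / D'` is commutative.
-/

set_option linter.all false

open MeasureTheory Filter Topology Set

namespace Vale.Agent.P092.H325

open Vale.Agent.P092.H626.Bump

section defs

variable {G : Type*} [Group G] [TopologicalSpace G] [MeasurableSpace G]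

/-- almost invariant small bumps for the finite subsets of `S` -/
def AB (μ : Measure G) (S : Set G) : Prop :=
  ∀ L : List G, (∀ u ∈ L, u ∈ S) → ∀ O ∈ 𝓝 (1 : G), ∀ δ : ℝ, 0 < δ →
    ∃ g : G → ℝ, Continuous g ∧ HasCompactSupport g ∧ (∀ x, 0 ≤ g x) ∧ tsupport g ⊆ O ∧
      ∫ x, g x ∂μ = 1 ∧ ∀ u ∈ L, ∫ x, |g (u⁻¹ * x * u) - g x| ∂μ ≤ δ

theorem AB.mono {μ : Measure G} {S T : Set G} (h : AB μ T) (hST : S ⊆ T) : AB μ S :=
  fun L hL => h L fun u hu => hST (hL u hu)

end defs

variable {G : Type*} [Group G] [TopologicalSpace G] [IsTopologicalGroup G] [T2Space G]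
  [LocallyCompactSpace G] [MeasurableSpace G] [BorelSpace G] (μ : Measure G)
  [μ.IsMulLeftInvariant] [μ.IsMulRightInvariant] [IsFiniteMeasureOnCompacts μ]
  [μ.IsOpenPosMeasure]

/-- commuting elements (helper626) -/
theorem ab_of_commute {S : Set G} (hS : ∀ u ∈ S, ∀ v ∈ S, Commute u v) : AB μ S := by
  intro L hL O hO δ hδ
  refine exists_l1 μ L ?_ O hO δ hδ
  have h0 : L.Pairwise fun _ _ => True := List.pairwise_of_forall fun _ _ => trivial
  exact h0.imp_of_mem fun {a b} ha hb _ => hS a (hL a ha) b (hL b hb)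

omit [T2Space G] [LocallyCompactSpace G] [μ.IsOpenPosMeasure] in
/-- the distance of a conjugate of an average -/
theorem avg_conj_le (v u : G) {R : ℕ} (hR : 0 < R) {g : G → ℝ} (h1 : Continuous g)
    (h2 : HasCompactSupport g) {δ : ℝ}
    (h : ∀ p < R, ∫ x, |g (((v ^ p)⁻¹ * u * v ^ p)⁻¹ * x * ((v ^ p)⁻¹ * u * v ^ p)) - g x| ∂μ ≤ δ) :
    ∫ x, |avg v R g (u⁻¹ * x * u) - avg v R g x| ∂μ ≤ δ := by
  have hR' : (0 : ℝ) < R := by exact_mod_cast hR
  -- the functions `|g^w - g|` conjugated by `v ^ p`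
  have e1 : ∀ (p : ℕ) (x : G), (v ^ p)⁻¹ * (u⁻¹ * x * u) * v ^ p =
      ((v ^ p)⁻¹ * u * v ^ p)⁻¹ * ((v ^ p)⁻¹ * x * v ^ p) * ((v ^ p)⁻¹ * u * v ^ p) := by
    intro p x
    group
  have hi : ∀ p : ℕ, Integrable (fun x => |g (((v ^ p)⁻¹ * u * v ^ p)⁻¹ * x *
      ((v ^ p)⁻¹ * u * v ^ p)) - g x|) μ := by
    intro p
    have a1 := integrable_conj μ ((v ^ p)⁻¹ * u * v ^ p) h1 h2
    exact (a1.sub (h1.integrable_of_hasCompactSupport h2)).abs
  have hi' : ∀ p : ℕ, Integrable (fun x => |g ((v ^ p)⁻¹ * (u⁻¹ * x * u) * v ^ p) -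
      g ((v ^ p)⁻¹ * x * v ^ p)|) μ := by
    intro p
    have a1 : Integrable (fun x => g ((u * v ^ p)⁻¹ * x * (u * v ^ p))) μ :=
      integrable_conj μ (u * v ^ p) h1 h2
    have a2 : Integrable (fun x => g ((v ^ p)⁻¹ * x * v ^ p)) μ := integrable_conj μ (v ^ p) h1 h2
    refine (a1.sub a2).abs.congr (Eventually.of_forall fun x => ?_)
    have e : (u * v ^ p)⁻¹ * x * (u * v ^ p) = (v ^ p)⁻¹ * (u⁻¹ * x * u) * v ^ p := by group
    simp only [Pi.sub_apply, e]
  have hle : ∀ x, |avg v R g (u⁻¹ * x * u) - avg v R g x| ≤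
      (R : ℝ)⁻¹ * ∑ p ∈ Finset.range R, |g ((v ^ p)⁻¹ * (u⁻¹ * x * u) * v ^ p) -
        g ((v ^ p)⁻¹ * x * v ^ p)| := by
    intro x
    unfold avg
    rw [← mul_sub, ← Finset.sum_sub_distrib, abs_mul, abs_of_nonneg (by positivity)]
    gcongr
    exact Finset.abs_sum_le_sum_abs _ _
  have hint : Integrable (fun x => |avg v R g (u⁻¹ * x * u) - avg v R g x|) μ := by
    have a1 := integrable_conj μ u (avg_continuous v R h1) (hcs_avg v R h2)
    exact (a1.sub ((avg_continuous v R h1).integrable_of_hasCompactSupport (hcs_avg v R h2))).abs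
  calc ∫ x, |avg v R g (u⁻¹ * x * u) - avg v R g x| ∂μ
      ≤ ∫ x, (R : ℝ)⁻¹ * ∑ p ∈ Finset.range R, |g ((v ^ p)⁻¹ * (u⁻¹ * x * u) * v ^ p) -
          g ((v ^ p)⁻¹ * x * v ^ p)| ∂μ :=
        integral_mono hint ((integrable_finset_sum _ fun p _ => hi' p).const_mul _) hle
    _ = (R : ℝ)⁻¹ * ∑ p ∈ Finset.range R, ∫ x, |g ((v ^ p)⁻¹ * (u⁻¹ * x * u) * v ^ p) -
          g ((v ^ p)⁻¹ * x * v ^ p)| ∂μ := by
        rw [integral_const_mul, integral_finset_sum _ fun p _ => hi' p]
    _ ≤ (R : ℝ)⁻¹ * ∑ p ∈ Finset.range R, δ := by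
        gcongr with p hp
        refine le_trans (le_of_eq ?_) (h p (Finset.mem_range.1 hp))
        rw [← int_conj μ (v ^ p) (fun x => |g (((v ^ p)⁻¹ * u * v ^ p)⁻¹ * x *
          ((v ^ p)⁻¹ * u * v ^ p)) - g x|)]
        refine integral_congr_ae (Eventually.of_forall fun x => ?_)
        simp only [e1]
    _ = δ := by
        rw [Finset.sum_const, Finset.card_range, nsmul_eq_mul, ← mul_assoc,
          inv_mul_cancel₀ hR'.ne', one_mul]

/-- one more element which normalises -/
theorem ab_insert {T : Set G} (hT : AB μ T) {v : G}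
    (hv : ∀ u ∈ T, ∀ p : ℕ, (v ^ p)⁻¹ * u * v ^ p ∈ T) : AB μ (insert v T) := by
  classical
  intro L hL O hO δ hδ
  obtain ⟨R, hRδ⟩ := exists_nat_gt (2 / δ)
  have hR : 0 < R := by
    have : (0 : ℝ) < R := lt_trans (by positivity) hRδ
    exact_mod_cast this
  have hR' : (0 : ℝ) < R := by exact_mod_cast hR
  have hO' : (⋂ p ∈ Finset.range R, (fun y => v ^ p * y * (v ^ p)⁻¹) ⁻¹' O) ∈ 𝓝 (1 : G) := by
    refine (Filter.biInter_finset_mem _).2 fun p _ => ?_
    have hct : Continuous fun y : G => v ^ p * y * (v ^ p)⁻¹ := by fun_prop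
    refine hct.continuousAt.preimage_mem_nhds ?_
    simpa using hO
  obtain ⟨g, h1, h2, h3, h4, h5, h6⟩ := hT
    ((L.filter fun u => u ∈ T).flatMap fun u => (List.range R).map fun p => (v ^ p)⁻¹ * u * v ^ p)
    (by
      intro w hw
      obtain ⟨u, hu, hw⟩ := List.mem_flatMap.1 hw
      obtain ⟨p, -, rfl⟩ := List.mem_map.1 hw
      exact hv u (by simpa using (List.mem_filter.1 hu).2) p) _ hO' δ hδ
  refine ⟨avg v R g, avg_continuous v R h1, hcs_avg v R h2, avg_nonneg v R h3, ?_, ?_, ?_⟩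
  · refine (tsupport_avg v R g).trans ?_
    intro x hx
    simp only [mem_iUnion, mem_preimage] at hx
    obtain ⟨p, hp, hx⟩ := hx
    have h := h4 hx
    simp only [mem_iInter, mem_preimage] at h
    have h' := h p hp
    have e : v ^ p * ((v ^ p)⁻¹ * x * v ^ p) * (v ^ p)⁻¹ = x := by group
    rwa [e] at h'
  · rw [int_avg μ v hR h1 h2, h5]
  · intro u hu
    rcases hL u hu with rfl | huT
    · simp only [avg_self]
      have hint : Integrable (fun x => g ((u ^ R)⁻¹ * x * u ^ R)) μ := integrable_conj μ _ h1 h2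
      have hint' : Integrable g μ := h1.integrable_of_hasCompactSupport h2
      calc ∫ x, |(R : ℝ)⁻¹ * (g ((u ^ R)⁻¹ * x * u ^ R) - g x)| ∂μ
          ≤ ∫ x, (R : ℝ)⁻¹ * (g ((u ^ R)⁻¹ * x * u ^ R) + g x) ∂μ := by
            refine integral_mono ((hint.sub hint').const_mul _).abs
              ((hint.add hint').const_mul _) fun x => ?_
            change |(R : ℝ)⁻¹ * (g ((u ^ R)⁻¹ * x * u ^ R) - g x)|
              ≤ (R : ℝ)⁻¹ * (g ((u ^ R)⁻¹ * x * u ^ R) + g x)
            rw [abs_mul, abs_of_pos (inv_pos.2 hR')]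
            gcongr
            rw [abs_le]
            constructor
            · linarith [h3 ((u ^ R)⁻¹ * x * u ^ R), h3 x]
            · linarith [h3 ((u ^ R)⁻¹ * x * u ^ R), h3 x]
        _ = (R : ℝ)⁻¹ * 2 := by
            rw [integral_const_mul, integral_add hint hint', int_conj μ (u ^ R) g, h5]
            norm_num
        _ ≤ δ := by
            rw [inv_mul_le_iff₀ hR']
            have := (div_lt_iff₀ hδ).1 hRδ
            linarith
    · refine avg_conj_le μ v u hR h1 h2 fun p hp => h6 _ ?_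
      refine List.mem_flatMap.2 ⟨u, List.mem_filter.2 ⟨hu, by simpa using huT⟩, ?_⟩
      exact List.mem_map.2 ⟨p, List.mem_range.2 hp, rfl⟩

omit [T2Space G] [LocallyCompactSpace G] [μ.IsOpenPosMeasure] in
/-- the elements of the generated subgroup -/
theorem closure_le {S : Set G} {u : G} (hu : u ∈ Subgroup.closure S) :
    ∃ (L : List G) (C : ℝ), (∀ w ∈ L, w ∈ S) ∧ 0 ≤ C ∧ ∀ g : G → ℝ, Continuous g →
      HasCompactSupport g → ∀ δ : ℝ, 0 ≤ δ →
      (∀ w ∈ L, ∫ x, |g (w⁻¹ * x * w) - g x| ∂μ ≤ δ) →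
      ∫ x, |g (u⁻¹ * x * u) - g x| ∂μ ≤ C * δ := by
  induction hu using Subgroup.closure_induction with
  | mem w hw =>
    refine ⟨[w], 1, by simpa using hw, zero_le_one, fun g h1 h2 δ hδ h => ?_⟩
    rw [one_mul]
    exact h w (by simp)
  | one =>
    refine ⟨[], 0, by simp, le_rfl, fun g h1 h2 δ hδ h => ?_⟩
    simp
  | mul u w hu hw ihu ihw =>
    obtain ⟨L₁, C₁, a1, a2, a3⟩ := ihu
    obtain ⟨L₂, C₂, b1, b2, b3⟩ := ihw
    refine ⟨L₁ ++ L₂, C₁ + C₂, fun v hv => ?_, add_nonneg a2 b2, fun g h1 h2 δ hδ h => ?_⟩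
    · rcases List.mem_append.1 hv with hv | hv
      · exact a1 v hv
      · exact b1 v hv
    · have k1 := a3 g h1 h2 δ hδ fun v hv => h v (List.mem_append.2 (Or.inl hv))
      have k2 := b3 g h1 h2 δ hδ fun v hv => h v (List.mem_append.2 (Or.inr hv))
      have i1 : Integrable (fun x => |g (u⁻¹ * x * u) - g x|) μ :=
        ((integrable_conj μ u h1 h2).sub (h1.integrable_of_hasCompactSupport h2)).abs
      have i2 : Integrable (fun x => |g (w⁻¹ * (u⁻¹ * x * u) * w) - g (u⁻¹ * x * u)|) μ := by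
        have a1 : Integrable (fun x => g ((u * w)⁻¹ * x * (u * w))) μ :=
          integrable_conj μ (u * w) h1 h2
        refine (a1.sub (integrable_conj μ u h1 h2)).abs.congr (Eventually.of_forall fun x => ?_)
        have e : (u * w)⁻¹ * x * (u * w) = w⁻¹ * (u⁻¹ * x * u) * w := by group
        simp only [Pi.sub_apply, e]
      have i3 : Integrable (fun x => |g ((u * w)⁻¹ * x * (u * w)) - g x|) μ :=
        ((integrable_conj μ (u * w) h1 h2).sub (h1.integrable_of_hasCompactSupport h2)).abs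
      have e2 : ∫ x, |g (w⁻¹ * (u⁻¹ * x * u) * w) - g (u⁻¹ * x * u)| ∂μ =
          ∫ x, |g (w⁻¹ * x * w) - g x| ∂μ := int_conj μ u (fun x => |g (w⁻¹ * x * w) - g x|)
      calc ∫ x, |g ((u * w)⁻¹ * x * (u * w)) - g x| ∂μ
          ≤ ∫ x, (|g (w⁻¹ * (u⁻¹ * x * u) * w) - g (u⁻¹ * x * u)| + |g (u⁻¹ * x * u) - g x|) ∂μ := by
            refine integral_mono i3 (i2.add i1) fun x => ?_
            have e : (u * w)⁻¹ * x * (u * w) = w⁻¹ * (u⁻¹ * x * u) * w := by group
            simp only [e]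
            exact abs_sub_le _ _ _
        _ = ∫ x, |g (w⁻¹ * x * w) - g x| ∂μ + ∫ x, |g (u⁻¹ * x * u) - g x| ∂μ := by
            rw [integral_add i2 i1, e2]
        _ ≤ (C₁ + C₂) * δ := by linarith
  | inv u hu ih =>
    obtain ⟨L, C, a1, a2, a3⟩ := ih
    refine ⟨L, C, a1, a2, fun g h1 h2 δ hδ h => ?_⟩
    refine le_trans (le_of_eq ?_) (a3 g h1 h2 δ hδ h)
    rw [← int_conj μ u (fun x => |g (u⁻¹⁻¹ * x * u⁻¹) - g x|)]
    refine integral_congr_ae (Eventually.of_forall fun x => ?_)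
    have e : u⁻¹⁻¹ * (u⁻¹ * x * u) * u⁻¹ = x := by group
    simp only [e]
    rw [abs_sub_comm]

/-- the property passes to the generated subgroup -/
theorem ab_closure {S : Set G} (hS : AB μ S) : AB μ (Subgroup.closure S : Set G) := by
  intro L hL O hO δ hδ
  have key : ∀ L : List G, (∀ u ∈ L, u ∈ (Subgroup.closure S : Set G)) →
      ∃ (L' : List G) (C : ℝ), (∀ w ∈ L', w ∈ S) ∧ 0 < C ∧ ∀ g : G → ℝ, Continuous g →
        HasCompactSupport g → ∀ δ : ℝ, 0 ≤ δ →
        (∀ w ∈ L', ∫ x, |g (w⁻¹ * x * w) - g x| ∂μ ≤ δ) →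
        ∀ u ∈ L, ∫ x, |g (u⁻¹ * x * u) - g x| ∂μ ≤ C * δ := by
    intro L
    induction L with
    | nil => exact fun _ => ⟨[], 1, by simp, one_pos, by simp⟩
    | cons v vs ih =>
      intro hL
      obtain ⟨L₁, C₁, a1, a2, a3⟩ := ih fun u hu => hL u (List.mem_cons_of_mem _ hu)
      obtain ⟨L₂, C₂, b1, b2, b3⟩ := closure_le μ (hL v List.mem_cons_self)
      refine ⟨L₁ ++ L₂, C₁ + C₂, fun w hw => ?_, by linarith, fun g h1 h2 δ hδ h u hu => ?_⟩
      · rcases List.mem_append.1 hw with hw | hw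
        · exact a1 w hw
        · exact b1 w hw
      · rcases List.mem_cons.1 hu with rfl | hu
        · have := b3 g h1 h2 δ hδ fun v hv => h v (List.mem_append.2 (Or.inr hv))
          nlinarith
        · have := a3 g h1 h2 δ hδ (fun v hv => h v (List.mem_append.2 (Or.inl hv))) u hu
          nlinarith
  obtain ⟨L', C, a1, a2, a3⟩ := key L hL
  obtain ⟨g, h1, h2, h3, h4, h5, h6⟩ := hS L' a1 O hO (δ / C) (by positivity)
  refine ⟨g, h1, h2, h3, h4, h5, fun u hu => ?_⟩
  have := a3 g h1 h2 (δ / C) (by positivity) h6 u hu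
  rwa [mul_div_cancel₀ _ a2.ne'] at this

/-- **extensions by commutative groups** -/
theorem ab_step {D D' : Subgroup G} (h : AB μ (D' : Set G)) (hle : D' ≤ D)
    (hc : ∀ u ∈ D, ∀ v ∈ D, u⁻¹ * v⁻¹ * u * v ∈ D') : AB μ (D : Set G) := by
  have key : ∀ K : List G, (∀ u ∈ K, u ∈ D) →
      AB μ (Subgroup.closure ((D' : Set G) ∪ {x | x ∈ K}) : Set G) := by
    intro K
    induction K with
    | nil =>
      intro _
      refine h.mono ?_
      have e : (D' : Set G) ∪ {x | x ∈ ([] : List G)} = D' := by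
        ext x
        simp
      rw [e, Subgroup.closure_eq]
    | cons v vs ih =>
      intro hK
      have hvD : v ∈ D := hK v List.mem_cons_self
      have ih' := ih fun u hu => hK u (List.mem_cons_of_mem _ hu)
      obtain ⟨T, hT⟩ : ∃ T : Subgroup G, T = Subgroup.closure ((D' : Set G) ∪ {x | x ∈ vs}) :=
        ⟨_, rfl⟩
      rw [← hT] at ih'
      have hDT : D' ≤ T := by
        rw [hT]
        exact fun x hx => Subgroup.subset_closure (Or.inl hx)
      have hTD : T ≤ D := by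
        rw [hT, Subgroup.closure_le]
        rintro x (hx | hx)
        · exact hle hx
        · exact hK x (List.mem_cons_of_mem _ hx)
      have h1 := ab_insert μ ih' (v := v) (fun u hu p => by
        have h2 : u⁻¹ * (v ^ p)⁻¹ * u * v ^ p ∈ D' := hc u (hTD hu) (v ^ p) (pow_mem hvD p)
        have e : (v ^ p)⁻¹ * u * v ^ p = u * (u⁻¹ * (v ^ p)⁻¹ * u * v ^ p) := by group
        rw [e]
        exact mul_mem hu (hDT h2))
      refine (ab_closure μ h1).mono ?_
      refine Subgroup.closure_mono ?_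
      rintro x (hx | hx)
      · exact Or.inr (hDT hx)
      · rcases List.mem_cons.1 hx with rfl | hx
        · exact Or.inl rfl
        · refine Or.inr ?_
          rw [hT]
          exact Subgroup.subset_closure (Or.inr hx)
  intro L hL
  exact key L hL L fun u hu => Subgroup.subset_closure (Or.inr hu)

/-- a chain of extensions: all soluble groups of symmetries -/
inductive Sol : Subgroup G → Prop
  | bot : Sol ⊥
  | step (D D' : Subgroup G) : Sol D' → D' ≤ D → (∀ u ∈ D, ∀ v ∈ D, u⁻¹ * v⁻¹ * u * v ∈ D') →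
      Sol D

theorem ab_of_sol {D : Subgroup G} (h : Sol D) : AB μ (D : Set G) := by
  induction h with
  | bot =>
    refine ab_of_commute μ fun u hu v hv => ?_
    rw [Subgroup.mem_bot.1 hu, Subgroup.mem_bot.1 hv]
  | step D D' _ hle hc ih => exact ab_step μ ih hle hc

/-- **soluble groups of symmetries have almost invariant bumps** -/
theorem ab_of_solvable (D : Subgroup G) [hD : Group.IsSolvable D] : AB μ (D : Set G) := by
  obtain ⟨n, hn⟩ := hD.solvable
  have key : ∀ m, Sol ((derivedSeries D m).map D.subtype) → Sol ((derivedSeries D 0).map D.subtype) := by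
    intro m
    induction m with
    | zero => exact fun h => h
    | succ m ih =>
      intro h
      refine ih (Sol.step _ _ h (Subgroup.map_mono (derivedSeries_antitone D (Nat.le_succ m))) ?_)
      rintro _ ⟨u, hu, rfl⟩ _ ⟨v, hv, rfl⟩
      refine ⟨u⁻¹ * v⁻¹ * u * v, ?_, by simp⟩
      rw [derivedSeries_succ]
      have := Subgroup.commutator_mem_commutator ((derivedSeries D m).inv_mem hu)
        ((derivedSeries D m).inv_mem hv)
      rw [commutatorElement_def, inv_inv, inv_inv] at this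
      exact this
  have h0 : Sol ((derivedSeries D 0).map D.subtype) := by
    refine key n ?_
    rw [hn, Subgroup.map_bot]
    exact Sol.bot
  have e : (derivedSeries D 0).map D.subtype = D := by
    rw [derivedSeries_zero, ← MonoidHom.range_eq_map, Subgroup.range_subtype]
  rw [e] at h0
  exact ab_of_sol μ h0

end Vale.Agent.P092.H325
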