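import Vale.Agent.P092.H325.ClXc
import Vale.Agent.P092.H370.Fo5

/-!
P092, Team P, tracks 2, 3 and CL-O (helper325): the good frame and the cross legs for EVERY group
`S` with a homomorphism `φ : S →* FormGroup σ J` whose range contains the Eichler elements
(`φ = id` for `FormGroup`, `φ = subtype` for `EUF`), every nondegenerate trace valued form
(symplectic, unitary, orthogonal) of Witt index at least two.
-/

set_option linter.all false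

open scoped InnerProductSpace ENNReal ZeroAtInfty LinearAlgebra.Projectivization
open Filter Topology ContinuousLinearMap MeasureTheory Matrix Module

namespace Vale.Agent.P092.H325.CL

open Vale.Agent.P092.H303 (FormGroup)
open Vale.Agent.P092.H370.Po
open Vale.Agent.P092.H370.Fo (EU ei EP vecMul_ei ei_mem_EU EU_le Fo Wf)
open Vale.Agent.P092.H714.Cl (hf hf_smul_left hf_smul_right)
open Vale.Agent.P092.H714.Sg (Fm)
open Vale.Agent.P092.RC (Cm GG PG YY)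
open Vale.Agent.P092.SN (CY PH nm)
open Vale.Agent.P092.H416.CL (pt rho Je range_pt rho_cor cor roc cor_roc hf_cor cor_add cor_smul)

section hasE

variable {n : Type} [Fintype n] [DecidableEq n] {k : Type} [Field k]
  {σ : k →+* k} {ε : k} {J : Matrix n n k} {N : ℕ} {S : Type} [Group S]

/-- groups which contain the Eichler elements (rows) have them on columns -/
theorem hasE_φ (e : n ≃ Fin (N + 1)) (hF : Fm σ ε J) (φ : S →* FormGroup σ J)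
    (hφ : ∀ g : FormGroup σ J, g.1 ∈ EU σ ε J → ∃ s, φ s = g) {v : Fin (N + 1) → k}
    (hv : hf σ (Je e J) v v = 0) : HasE σ ε (Je e J) ((rho e σ J).comp φ) v := by
  intro w hw hvw s hs
  have a1 : hf σ J (roc e v) (roc e v) = 0 := by rw [← hf_cor e, cor_roc, hv]
  have a2 : hf σ J (roc e w) (roc e w) = 0 := by rw [← hf_cor e, cor_roc, hw]
  have a3 : hf σ J (roc e v) (roc e w) = 0 := by rw [← hf_cor e, cor_roc, cor_roc, hvw]
  have a4 : hf σ J (roc e w) (roc e v) = 0 := hF.symm0 a3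
  have hP : EP σ ε J (roc e v) (s • roc e w) 0 :=
    { uu := a1
      vu := by rw [hf_smul_left, a4, mul_zero]
      vv := by rw [hf_smul_left, hf_smul_right, a2, mul_zero, mul_zero, map_zero, mul_zero,
        add_zero, add_zero] }
  have hm : ei σ ε J (roc e v) (s • roc e w) 0 ∈ EU σ ε J := ei_mem_EU hP
  obtain ⟨t, ht⟩ := hφ ⟨_, EU_le hF hm⟩ hm
  refine ⟨t⁻¹, fun x => ?_⟩
  have h1 := rho_cor e (φ t⁻¹) (roc e x)
  rw [cor_roc] at h1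
  rw [MonoidHom.comp_apply, h1]
  have h2 : (((φ t⁻¹).1)⁻¹).1 = (ei σ ε J (roc e v) (s • roc e w) 0).1 := by
    rw [map_inv, ht]
    change ((((ei σ ε J (roc e v) (s • roc e w) 0))⁻¹)⁻¹).1 = _
    rw [inv_inv]
  rw [h2, vecMul_ei hF hP]
  have b1 : hf σ J (roc e x) (roc e v) = hf σ (Je e J) x v := by
    rw [← hf_cor e, cor_roc, cor_roc]
  have b2 : hf σ J (roc e x) (roc e w) = hf σ (Je e J) x w := by
    rw [← hf_cor e, cor_roc, cor_roc]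
  rw [hf_smul_right, b1, b2, hs]
  funext i
  change x (e (e.symm i)) + hf σ (Je e J) x v * (s * w (e (e.symm i))) -
    ε * (s * hf σ (Je e J) x w) * v (e (e.symm i)) +
    ε * 0 * hf σ (Je e J) x v * v (e (e.symm i)) =
    x i + s * hf σ (Je e J) x v * w i + s * hf σ (Je e J) x w * (-ε * v i)
  rw [e.apply_symm_apply]
  ring

/-- Witt index at least two, every kind of form -/
theorem wi2_of_fo (hF : Fo σ ε J) {r : ℕ} (hW : WI σ J r) (hr : 2 ≤ r) : Wi2 σ J := by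
  intro x hx0 hx
  obtain ⟨⟨Y, hY, hdY⟩, -⟩ := hW
  have hs : Sing σ J (Submodule.span k {x}) := by
    unfold Sing
    rw [ort_span_left]
    intro y hy
    obtain ⟨a, rfl⟩ := Submodule.mem_span_singleton.1 hy
    rw [hf_smul_right, hx, mul_zero]
  have hd1 : finrank k (Submodule.span k {x}) = 1 := finrank_span_singleton hx0
  obtain ⟨Z, h1, h2, h3⟩ := H370.Fo.exists_above hF hs hY (j := 2) (by omega) (by omega)
  have h4 : ¬ Z ≤ Submodule.span k {x} := fun h' => by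
    have := Submodule.finrank_mono h'
    omega
  obtain ⟨w, hw, hwx⟩ := SetLike.not_le_iff_exists.1 h4
  exact ⟨w, h2.zero hw, h2 x (h1 (Submodule.mem_span_singleton_self x)) w hw, hwx⟩

end hasE

section good

variable {n : Type} [Fintype n] [DecidableEq n] {k : Type} [NontriviallyNormedField k]
  {σ : k →+* k} {ε : k} {J : Matrix n n k} {N : ℕ} {S : Type} [Group S]

/-- **good frames** for every group over `FormGroup` whose range contains `EU` -/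
theorem goodFr_φ (e : n ≃ Fin (N + 1)) (hF : Fm σ ε J) (hW : Wi2 σ J) (φ : S →* FormGroup σ J)
    (hφ : ∀ g : FormGroup σ J, g.1 ∈ EU σ ε J → ∃ s, φ s = g) :
    SX.GoodFr (pt e : SGr σ J 1 → _) ((rho e σ J).comp φ) :=
  goodFr_fm (K := Je e J) (fm_re e hF) (wi2_re e hW) _
    (fun v hv0 hv => hasE_φ e hF φ hφ hv) _ fun v hv h => (range_pt e hv).2 h

end good

section xc

variable {n : Type} [Fintype n] [DecidableEq n] {k l₁ l₂ : Type} [NontriviallyNormedField k]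
  [NontriviallyNormedField l₁] [ProperSpace l₁] [NontriviallyNormedField l₂] [ProperSpace l₂]
  {σ : k →+* k} {ε : k} {J : Matrix n n k} {N : ℕ} {S : Type} [Group S]
  {E₀ Γ₁ Γ₂ K : Type} [Group E₀] [TopologicalSpace E₀] [Group Γ₁] [Group Γ₂]
  [NormedAddCommGroup K] [InnerProductSpace ℂ K] [CompleteSpace K]
  {ι : S →* E₀} {π : E₀ →* (K →L[ℂ] K)} {lam₁ : Γ₁ →* (K →L[ℂ] K)}
  {lam₂ : Γ₂ →* (K →L[ℂ] K)} {X : Set (K →L[ℂ] K)} {Ω : K} {q₁ : Γ₁ → GG l₁ N}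
  {q₂ : Γ₂ → GG l₂ N}
  {E₁ : SGr σ J 1 → (CY l₁ N →⋆ₐ[ℂ] (K →L[ℂ] K))} {E₂ : SGr σ J 1 → (CY l₂ N →⋆ₐ[ℂ] (K →L[ℂ] K))}
  {τ₁ : k →+* l₁} {τ₂ : k →+* l₂}
  {Q₁ : C₀(PG l₁ (N + 1), ℂ) →⋆ₙₐ[ℂ] (K →L[ℂ] K)} {Q₂ : C₀(PG l₂ (N + 1), ℂ) →⋆ₙₐ[ℂ] (K →L[ℂ] K)}

/-- **[CL-XC], any group over `FormGroup` whose range contains `EU`** -/
theorem xcφ [Countable Γ₁] (e : n ≃ Fin (N + 1)) (hF : Fm σ ε J) (hW : Wi2 σ J)
    (φ : S →* FormGroup σ J) (hφ : ∀ g : FormGroup σ J, g.1 ∈ EU σ ε J → ∃ s, φ s = g)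
    (hPic : RC.PicX π lam₁ (X ∪ Set.range lam₂) Ω)
    (tv : ∀ Y, Cm (X ∪ Set.range lam₂) Y → (∀ γ, Y * lam₁ γ = lam₁ γ * Y) →
      ∀ h : S, ⟪π (ι h) Ω, Y (π (ι h) Ω)⟫_ℂ = ⟪Ω, Y Ω⟫_ℂ)
    (adj₂ : ∀ γ, adjoint (lam₂ γ) = lam₂ γ⁻¹) (ph₁ : PH q₁) (ph₂ : PH q₂)
    (disc₁ : ∀ C : ℝ, {γ : Γ₁ | nm (q₁ γ) ≤ C}.Finite)
    (h₁ : SX.ClsF (pt e) ((rho e σ J).comp φ) ι π lam₁ (X ∪ Set.range lam₂) q₁ E₁ τ₁ Q₁)
    (h₂ : SX.ClsF (pt e) ((rho e σ J).comp φ) ι π lam₂ (X ∪ Set.range lam₁) q₂ E₂ τ₂ Q₂)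
    (ψ : C₀(PG l₁ (N + 1), ℂ)) (χ : C₀(PG l₂ (N + 1), ℂ)) : Commute (Q₁ ψ) (Q₂ χ) :=
  SX.xcF (goodFr_φ e hF hW φ hφ) hPic tv adj₂ ph₁ ph₂ (fun C hC => overlap_disc ph₁ disc₁ hC)
    h₁ h₂ ψ χ

end xc

/-! ### in the letters of the common record -/

section rec

open Vale.Agent.P092.CL (Lt PB)

variable {n : Type} [Fintype n] [DecidableEq n] {k : Type} [NontriviallyNormedField k]
  {σ : k →+* k} {ε : k} {J : Matrix n n k} {N r : ℕ} {S P M V₁ V₂ : Type} [Group S]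
  [MeasurableSpace V₁] [MeasurableSpace V₂]

/-- the scalars of the record are scalar matrices -/
def Scφ (e : n ≃ Fin (N + 1)) (φ : S →* FormGroup σ J) (L : Lt S P M V₁ V₂) : Prop :=
  ∀ z ∈ L.Z, ∃ c : k, (rho e σ J (φ z)).1 = c • (1 : Matrix (Fin (N + 1)) (Fin (N + 1)) k)

/-- the size of the record is at most a function of the size of the columns -/
def Nmcφ (e : n ≃ Fin (N + 1)) (φ : S →* FormGroup σ J) (L : Lt S P M V₁ V₂) : Prop :=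
  ∀ C : ℝ, ∃ C' : ℝ, ∀ g, nm (rho e σ J (φ g)) ≤ C → L.nm g ≤ C'

theorem ph_rhoφ {Γ : Type} [Group Γ] {e : n ≃ Fin (N + 1)} {φ : S →* FormGroup σ J}
    {L : Lt S P M V₁ V₂} (hZ : Scφ e φ L) {q : Γ → S} (h : L.PH q) :
    PH fun γ => rho e σ J (φ (q γ)) := by
  intro γ γ'
  obtain ⟨z, hz, h1⟩ := h γ γ'
  obtain ⟨c, hc⟩ := hZ z hz
  refine ⟨c, ?_⟩
  change (rho e σ J (φ (q (γ * γ')))).1 =
    c • (rho e σ J (φ (q γ)) * rho e σ J (φ (q γ'))).1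
  rw [h1, map_mul, map_mul, map_mul, map_mul]
  change (rho e σ J (φ z)).1 * (rho e σ J (φ (q γ)) * rho e σ J (φ (q γ'))).1 = _
  rw [hc, smul_mul_assoc, one_mul]

theorem fin_rhoφ {Γ : Type} {e : n ≃ Fin (N + 1)} {φ : S →* FormGroup σ J}
    {L : Lt S P M V₁ V₂} (hN : Nmcφ e φ L) {q : Γ → S}
    (h : ∀ C : ℝ, {γ | L.nm (q γ) ≤ C}.Finite) (C : ℝ) :
    {γ | nm (rho e σ J (φ (q γ))) ≤ C}.Finite := by
  obtain ⟨C', hC'⟩ := hN C
  exact (h C').subset fun γ hγ => hC' _ hγ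

variable [ProperSpace k] [NormedAddCommGroup V₁] [NormedAddCommGroup V₂] [TopologicalSpace S]
  [TopologicalSpace P] [CompactSpace P] [MulAction S P] [ContinuousConstSMul S P]
  [TopologicalSpace M] [CompactSpace M] [MulAction S M] [ContinuousConstSMul S M]
  {E₀ Γ K : Type} [Group E₀] [TopologicalSpace E₀] [Group Γ] [Countable Γ]
  [NormedAddCommGroup K] [InnerProductSpace ℂ K] [CompleteSpace K]
  {L : Lt S P M V₁ V₂} {𝒰 : Ultrafilter ℕ}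
  {ι : S →* E₀} {π : E₀ →* (K →L[ℂ] K)} {lam₁ lam₂ : Γ →* (K →L[ℂ] K)}
  {X : Set (K →L[ℂ] K)} {Ω : K} {m₁ m₂ : Set Γ → (K →L[ℂ] K)} {q₁ q₂ : Γ → S}
  {E₁ E₂ : SGr σ J 1 → (CY k N →⋆ₐ[ℂ] (K →L[ℂ] K))} {τ₁ τ₂ : k →+* k}
  {Q₁ Q₂ : C₀(PG k (N + 1), ℂ) →⋆ₙₐ[ℂ] (K →L[ℂ] K)}

/-- **[CL-XC]**, from the two base records, any group over `FormGroup` -/
theorem xcLφ (e : n ≃ Fin (N + 1)) (hF : Fm σ ε J) (hW : Wi2 σ J) (φ : S →* FormGroup σ J)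
    (hφ : ∀ g : FormGroup σ J, g.1 ∈ EU σ ε J → ∃ s, φ s = g) (hZ : Scφ e φ L)
    (hN : Nmcφ e φ L) (b₁ : PB L 𝒰 ι π lam₁ (X ∪ Set.range lam₂) Ω m₁ q₁)
    (b₂ : PB L 𝒰 ι π lam₂ (X ∪ Set.range lam₁) Ω m₂ q₂)
    (t₁ : SN.TVE π lam₁ (X ∪ Set.range lam₂) Ω)
    (h₁ : SX.ClsF (pt e) ((rho e σ J).comp φ) ι π lam₁ (X ∪ Set.range lam₂)
      (fun γ => rho e σ J (φ (q₁ γ))) E₁ τ₁ Q₁)
    (h₂ : SX.ClsF (pt e) ((rho e σ J).comp φ) ι π lam₂ (X ∪ Set.range lam₁)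
      (fun γ => rho e σ J (φ (q₂ γ))) E₂ τ₂ Q₂)
    (ψ χ : C₀(PG k (N + 1), ℂ)) : Commute (Q₁ ψ) (Q₂ χ) :=
  xcφ e hF hW φ hφ b₁.pic (fun Y h1 h2 h => t₁ Y ⟨h1, h2⟩ (ι h)) b₂.pic.adjL (ph_rhoφ hZ b₁.ph)
    (ph_rhoφ hZ b₂.ph) (fin_rhoφ hN b₁.fin) h₁ h₂ ψ χ

end rec

end Vale.Agent.P092.H325.CL
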