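import Vale.Agent.P092.H325.ClGoodO
import Vale.Agent.P092.CL.LtO

/-!
P092, Team P, CL-O (helper325): **[CL-XC]** for the concrete orthogonal letters `CL.ltO`.
-/

set_option linter.all false

open scoped InnerProductSpace ENNReal ZeroAtInfty LinearAlgebra.Projectivization
open Filter Topology ContinuousLinearMap MeasureTheory Matrix

namespace Vale.Agent.P092.H325.CL

open Vale.Agent.P092.H303 (FormGroup hyp Idx)
open Vale.Agent.P092.H370.Po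
open Vale.Agent.P092.H370.Fo (EU Fo Wf)
open Vale.Agent.P092.H714.Cl (hf)
open Vale.Agent.P092.RC (Cm GG PG YY)
open Vale.Agent.P092.SN (CY PH nm)
open Vale.Agent.P092.H416.CL (pt rho)
open Vale.Agent.P092.CL (Lt PB ltO OF EUF ta nmM scal)

section lt_

variable {k : Type} [NontriviallyNormedField k] [MeasurableSpace k] {ι₀ : Type} [Fintype ι₀]
  [DecidableEq ι₀] {s N : ℕ} {J₀ : Matrix ι₀ ι₀ k}

/-- every element of `EU` is in the range of the inclusion of `EUF` -/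
theorem euf_range {n : Type} [Fintype n] [DecidableEq n] {σ : k →+* k} {ε : k}
    {J : Matrix n n k} (g : FormGroup σ J) (hg : g.1 ∈ EU σ ε J) :
    ∃ s, (EUF σ ε J).subtype s = g := ⟨⟨g, Subgroup.mem_subgroupOf.2 hg⟩, rfl⟩

theorem sc_ltO (e : Idx (s + 2) ι₀ ≃ Fin (N + 1)) (h : OF J₀) {a : k} (ha : a ≠ 0)
    (μ₁ : Measure k) (μ₂ : Measure (ι₀ → k)) :
    Scφ e (EUF (RingHom.id k) 1 (hyp (s + 2) 1 J₀)).subtype (ltO h s ha μ₁ μ₂) := by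
  intro z hz
  have h0 : z.1.1 ∈ scal k (Idx (s + 2) ι₀) :=
    Subgroup.mem_subgroupOf.1 (Subgroup.mem_subgroupOf.1 hz)
  obtain ⟨c, hc⟩ := inv_mem h0
  refine ⟨c, ?_⟩
  change ((z.1.1⁻¹).1)ᵀ.submatrix e.symm e.symm = _
  rw [hc, transpose_smul, transpose_one]
  ext i j
  change c * (1 : Matrix (Idx (s + 2) ι₀) (Idx (s + 2) ι₀) k) (e.symm i) (e.symm j) =
    c * (1 : Matrix (Fin (N + 1)) (Fin (N + 1)) k) i j
  congr 1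
  simp only [one_apply, e.symm.injective.eq_iff]

theorem nmc_ltO (e : Idx (s + 2) ι₀ ≃ Fin (N + 1)) (h : OF J₀) {a : k} (ha : a ≠ 0)
    (μ₁ : Measure k) (μ₂ : Measure (ι₀ → k)) :
    Nmcφ e (EUF (RingHom.id k) 1 (hyp (s + 2) 1 J₀)).subtype (ltO h s ha μ₁ μ₂) := by
  intro C
  refine ⟨C, fun g hg => ?_⟩
  have h0 : 0 ≤ C := (norm_nonneg _).trans hg
  change ‖(fun i j => ta g.1.1 i j : Idx (s + 2) ι₀ → Idx (s + 2) ι₀ → k)‖ ≤ C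
  refine (pi_norm_le_iff_of_nonneg h0).2 fun i => (pi_norm_le_iff_of_nonneg h0).2 fun j => ?_
  have h1 : ‖(rho e (RingHom.id k) _ g.1).1 (e i) (e j)‖ ≤ nm (rho e (RingHom.id k) _ g.1) :=
    (norm_le_pi_norm (fun j' => (rho e (RingHom.id k) _ g.1).1 (e i) j') (e j)).trans
      (norm_le_pi_norm (fun i' j' => (rho e (RingHom.id k) _ g.1).1 i' j') (e i))
  have h2 : (rho e (RingHom.id k) _ g.1).1 (e i) (e j) = ta g.1.1 i j := by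
    change ((g.1.1⁻¹).1)ᵀ (e.symm (e i)) (e.symm (e j)) = _
    rw [e.symm_apply_apply, e.symm_apply_apply]
    rfl
  rw [← h2]
  exact h1.trans hg

variable [ProperSpace k] [Fact (Continuous (RingHom.id k))]
  {E₀ Γ K : Type} [Group E₀] [TopologicalSpace E₀] [Group Γ] [Countable Γ]
  [NormedAddCommGroup K] [InnerProductSpace ℂ K] [CompleteSpace K] {𝒰 : Ultrafilter ℕ}
  {ι : EUF (RingHom.id k) 1 (hyp (s + 2) 1 J₀) →* E₀} {π : E₀ →* (K →L[ℂ] K)}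
  {lam₁ lam₂ : Γ →* (K →L[ℂ] K)}
  {X : Set (K →L[ℂ] K)} {Ω : K} {m₁ m₂ : Set Γ → (K →L[ℂ] K)}
  {q₁ q₂ : Γ → EUF (RingHom.id k) 1 (hyp (s + 2) 1 J₀)}
  {E₁ E₂ : SGr (RingHom.id k) (hyp (s + 2) 1 J₀) 1 → (CY k N →⋆ₐ[ℂ] (K →L[ℂ] K))}
  {τ₁ τ₂ : k →+* k} {Q₁ Q₂ : C₀(PG k (N + 1), ℂ) →⋆ₙₐ[ℂ] (K →L[ℂ] K)}

/-- **[CL-XC]**, concrete orthogonal letters -/
theorem xcLtO (e : Idx (s + 2) ι₀ ≃ Fin (N + 1)) (h : OF J₀) {a : k} (ha : a ≠ 0)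
    (hW : Wf (RingHom.id k) 1 (hyp (s + 2) 1 J₀) (s + 2))
    (μ₁ : Measure k) (μ₂ : Measure (ι₀ → k))
    (b₁ : PB (ltO h s ha μ₁ μ₂) 𝒰 ι π lam₁ (X ∪ Set.range lam₂) Ω m₁ q₁)
    (b₂ : PB (ltO h s ha μ₁ μ₂) 𝒰 ι π lam₂ (X ∪ Set.range lam₁) Ω m₂ q₂)
    (t₁ : SN.TVE π lam₁ (X ∪ Set.range lam₂) Ω)
    (h₁ : SX.ClsF (pt e) ((rho e (RingHom.id k) _).comp
      (EUF (RingHom.id k) 1 (hyp (s + 2) 1 J₀)).subtype) ι π lam₁ (X ∪ Set.range lam₂)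
      (fun γ => rho e (RingHom.id k) _ (q₁ γ).1) E₁ τ₁ Q₁)
    (h₂ : SX.ClsF (pt e) ((rho e (RingHom.id k) _).comp
      (EUF (RingHom.id k) 1 (hyp (s + 2) 1 J₀)).subtype) ι π lam₂ (X ∪ Set.range lam₁)
      (fun γ => rho e (RingHom.id k) _ (q₂ γ).1) E₂ τ₂ Q₂)
    (ψ φ : C₀(PG k (N + 1), ℂ)) : Commute (Q₁ ψ) (Q₂ φ) :=
  xcLφ e hW.fm (wi2_of_fo hW.fo hW.wi (Nat.le_add_left 2 s))
    (EUF (RingHom.id k) 1 (hyp (s + 2) 1 J₀)).subtype (fun g hg => euf_range g hg)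
    (sc_ltO e h ha μ₁ μ₂) (nmc_ltO e h ha μ₁ μ₂) b₁ b₂ t₁ h₁ h₂ ψ φ

end lt_

end Vale.Agent.P092.H325.CL
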