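import Vale.Agent.P092.H325.XcI
import Vale.Agent.P092.H325.Amen

/-!
P092 (helper325), row [P-XC]: the cross-leg step for a NON-COMMUTATIVE (soluble) group of
symmetries. Ports of helper295's `exists_bumps`, `exists_cross`, `commute_of_uniq` and of
`LgI.uq₀`, `uq`, `uniq`, `xc_pt`, with the commutativity replaced by `AB μ S` (`Amen.lean`).
-/

set_option linter.all false

open scoped InnerProductSpace ENNReal Topology ZeroAtInfty Pointwise
open Filter Topology ContinuousLinearMap MeasureTheory Measure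

namespace Vale.Agent.P092.H325

open Vale.Agent.P092.RC (Cm TRN)
open Vale.Agent.P092.H295
open Vale.Agent.P092.H862 (UP cx nsq tp tpr dn al dn_nonneg dn_cont norm_cx)
open Vale.Agent.P092.H715.Disj (Disj trc fs_of_disj)

section bumps

variable {G : Type*} [TopologicalSpace G] [Group G] [IsTopologicalGroup G] [T2Space G]
  [LocallyCompactSpace G] [SecondCountableTopology G] [MeasurableSpace G] [BorelSpace G]
  (μ : Measure G) [μ.IsHaarMeasure] [μ.IsMulRightInvariant]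

/-- `L²` bumps -/
theorem bumpA {S : Set G} (hS : AB μ S) (us : List G) (hus : ∀ u ∈ us, u ∈ S) {O : Set G}
    (hO : O ∈ 𝓝 (1 : G)) {ε : ℝ} (hε : 0 < ε) :
    ∃ c : G → ℝ, Continuous c ∧ HasCompactSupport c ∧ (∀ x, 0 ≤ c x) ∧ tsupport c ⊆ O ∧
      ∫ x, c x ^ 2 ∂μ = 1 ∧ ∀ u ∈ us, ∫ x, (c (u⁻¹ * x * u) - c x) ^ 2 ∂μ ≤ ε := by
  obtain ⟨g, h1, h2, h3, h4, h5, h6⟩ := hS us hus O hO ε hε
  refine ⟨fun x => Real.sqrt (g x), Real.continuous_sqrt.comp h1,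
    h2.comp_left (g := Real.sqrt) Real.sqrt_zero, fun x => Real.sqrt_nonneg _, ?_, ?_, ?_⟩
  · exact (tsupport_comp_subset Real.sqrt_zero g).trans h4
  · rw [← h5]
    refine integral_congr_ae (Eventually.of_forall fun x => ?_)
    exact Real.sq_sqrt (h3 x)
  · intro u hu
    refine le_trans ?_ (h6 u hu)
    refine integral_mono_of_nonneg (Eventually.of_forall fun x => sq_nonneg _) ?_
      (Eventually.of_forall fun x => H626.Bump.sq_sqrt_sub_le (h3 _) (h3 _))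
    exact ((H626.Bump.integrable_conj μ u h1 h2).sub (h1.integrable_of_hasCompactSupport h2)).abs

/-- bumps at `1`, almost invariant under the conjugation with the elements of `N` -/
theorem exists_bumpsA (N : Set G) (hN : AB μ N) :
    ∃ c : Finset N × ℕ → C₀(G, ℂ), (∀ i, HasCompactSupport (c i)) ∧ (∀ i, sq μ (c i) = 1) ∧
      (∀ O ∈ 𝓝 (1 : G), ∀ᶠ i in atTop, ∀ s, c i s ≠ 0 → s ∈ O) ∧
      ∀ u ∈ N, Tendsto (fun i => sq μ (cj u (c i) - c i)) atTop (𝓝 0) := by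
  classical
  obtain ⟨V, hV⟩ := (𝓝 (1 : G)).exists_antitone_basis
  have hP : ∀ F : Finset N, ∀ u ∈ F.toList.map (fun x : N => (x : G)), u ∈ N := by
    intro F u hu
    obtain ⟨x, -, rfl⟩ := List.mem_map.1 hu
    exact x.2
  choose c h1 h2 h3 h4 h5 h6 using fun i : Finset N × ℕ =>
    bumpA μ hN (i.1.toList.map (fun x : N => (x : G))) (hP i.1)
      (hV.1.mem_of_mem (i := i.2) trivial) (ε := 1 / ((i.2 : ℝ) + 1)) (by positivity)
  have e1 : ∀ i, sq μ (H626.Bump.up (c i) (h1 i) (h2 i)) = 1 := by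
    intro i
    rw [← h5 i, H295.sq]
    refine integral_congr_ae (Eventually.of_forall fun x => ?_)
    simp only [H626.Bump.up_apply, Complex.norm_real, Real.norm_eq_abs, sq_abs]
  have e2 : ∀ i (u : G), sq μ (cj u (H626.Bump.up (c i) (h1 i) (h2 i)) -
      H626.Bump.up (c i) (h1 i) (h2 i)) = ∫ x, (c i (u⁻¹ * x * u) - c i x) ^ 2 ∂μ := by
    intro i u
    rw [H295.sq]
    refine integral_congr_ae (Eventually.of_forall fun x => ?_)
    simp only [ZeroAtInftyContinuousMap.sub_apply, cj_apply, H626.Bump.up_apply]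
    rw [← Complex.ofReal_sub, Complex.norm_real, Real.norm_eq_abs, sq_abs, mul_assoc]
  refine ⟨fun i => H626.Bump.up (c i) (h1 i) (h2 i), fun i => ?_, e1, ?_, ?_⟩
  · exact (h2 i).comp_left (g := fun t : ℝ => (t : ℂ)) Complex.ofReal_zero
  · intro O hO
    obtain ⟨n, -, hn⟩ := hV.1.mem_iff.1 hO
    filter_upwards [eventually_ge_atTop ((∅, n) : Finset N × ℕ)] with i hi s hs
    have h7 : s ∈ tsupport (c i) := by
      refine subset_tsupport _ ?_
      rw [Function.mem_support]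
      intro h0
      exact hs (by rw [H626.Bump.up_apply, h0, Complex.ofReal_zero])
    exact hn (hV.2 hi.2 (h4 i h7))
  · intro u hu
    simp only [e2]
    have h8 : Tendsto (fun i : Finset N × ℕ => 1 / ((i.2 : ℝ) + 1)) atTop (𝓝 0) := by
      rw [← prod_atTop_atTop_eq]
      exact (tendsto_one_div_add_atTop_nhds_zero_nat (𝕜 := ℝ)).comp tendsto_snd
    refine squeeze_zero' (Eventually.of_forall fun n => integral_nonneg fun x => sq_nonneg _) ?_ h8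
    filter_upwards [eventually_ge_atTop (({⟨u, hu⟩}, 0) : Finset N × ℕ)] with i hi
    refine h6 i u (List.mem_map.2 ⟨⟨u, hu⟩, ?_, rfl⟩)
    rw [Finset.mem_toList]
    exact hi.1 (Finset.mem_singleton_self _)

end bumps

section cross

variable {G : Type*} [TopologicalSpace G] [Group G] [IsTopologicalGroup G] [T2Space G]
  [LocallyCompactSpace G] [SecondCountableTopology G] [MeasurableSpace G] [BorelSpace G]
  (μ : Measure G) [μ.IsHaarMeasure] [μ.IsMulRightInvariant]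
  {K : Type*} [NormedAddCommGroup K] [InnerProductSpace ℂ K] [CompleteSpace K]
  {Φ : C₀(G, ℂ) →⋆ₙₐ[ℂ] (K →L[ℂ] K)}
  {P : Type*} [TopologicalSpace P] [CompactSpace P]

include μ in
/-- the ultralimit of the pinchings of `E` along `Φ`. -/
theorem exists_crossA (h : ND Φ) (E : C(P, ℂ) →⋆ₐ[ℂ] (K →L[ℂ] K)) (N : Set G)
    (hN : AB μ N) :
    ∃ E' : C(P, ℂ) →ₗ[ℂ] (K →L[ℂ] K), E' 1 = 1 ∧
      (∀ f ζ, ‖E' f ζ‖ ^ 2 ≤ RCLike.re ⟪ζ, E' (star f * f) ζ⟫_ℂ) ∧ (∀ f, ‖E' f‖ ≤ ‖f‖) ∧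
      (∀ T, (∀ c, Φ c * T = T * Φ c) → ∀ f, E f * T = T * E f → E' f * T = T * E' f) ∧
      (∀ (U U' : K →L[ℂ] K) (a : G), adjoint U = U' → U' * U = 1 →
        (∀ c, U * Φ c * U' = Φ (ltr a c)) → ∀ f f', U * E f * U' = E f' → U * E' f * U' = E' f') ∧
      (∀ (U U' : K →L[ℂ] K), ∀ u ∈ N, adjoint U = U' → U' * U = 1 →
        (∀ c, U * Φ c * U' = Φ (rtr u c)) → ∀ f, U * E f * U' = E f → U * E' f * U' = E' f) ∧
      ∀ f χ, E' f * Φ χ = Φ χ * E' f := by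
  classical
  obtain ⟨c, hc, hc1, hcO, hcN⟩ := exists_bumpsA μ N hN
  set 𝒰 : Ultrafilter (Finset N × ℕ) := Ultrafilter.of atTop with h𝒰
  have hle : (𝒰 : Filter (Finset N × ℕ)) ≤ atTop := Ultrafilter.of_le _
  obtain ⟨E', h1, hks, hn, hlim⟩ := H325.ultraP (fun i => pinE μ h (hc i) E)
    (fun i => pinE_one h (hc i) (hc1 i) E) (fun i => pinE_ks h (hc i) (hc1 i) E) 𝒰
  have hsand : ∀ (U U' : K →L[ℂ] K) f x z,
      Tendsto (fun i => ⟪x, (U * pinC μ Φ (c i) (E f) * U') z⟫_ℂ) 𝒰 (𝓝 ⟪x, (U * E' f * U') z⟫_ℂ) := by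
    intro U U' f x z
    have := hlim f (adjoint U x) (U' z)
    simp only [adjoint_inner_left] at this
    exact this
  have hsub0 : ∀ {T : Finset N × ℕ → (K →L[ℂ] K)}, Tendsto (fun i => ‖T i‖) 𝒰 (𝓝 0) →
      ∀ x z, Tendsto (fun i => ⟪x, T i z⟫_ℂ) 𝒰 (𝓝 0) := by
    intro T hT x z
    rw [tendsto_zero_iff_norm_tendsto_zero]
    refine squeeze_zero (fun i => norm_nonneg _) (fun i => ?_)
      (by simpa using (hT.mul_const ‖z‖).const_mul ‖x‖ :
        Tendsto (fun i => ‖x‖ * (‖T i‖ * ‖z‖)) 𝒰 (𝓝 0))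
    exact (norm_inner_le_norm _ _).trans (by gcongr; exact le_opNorm _ _)
  refine ⟨E', h1, hks, hn, ?_, ?_, ?_, ?_⟩
  · intro T hT f hf
    refine ext_inner' fun x z => ?_
    have a1 := hsand 1 T f x z
    have a2 := hsand T 1 f x z
    have a3 : ∀ i, 1 * pinC μ Φ (c i) (E f) * T = T * pinC μ Φ (c i) (E f) * 1 := by
      intro i
      rw [one_mul, mul_one]
      exact pinC_commute h (hc i) hT hf
    simp only [a3] at a1
    have a4 := tendsto_nhds_unique a1 a2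
    rwa [one_mul, mul_one] at a4
  · intro U U' a hU hUU hcov f f' hff
    refine ext_inner' fun x z => ?_
    have a1 := hsand U U' f x z
    have a2 := hlim f' x z
    have a3 : ∀ i, U * pinC μ Φ (c i) (E f) * U' = pinC μ Φ (c i) (E f') := by
      intro i
      rw [pinC_ltr h (hc i) hU hUU hcov, hff]
    simp only [a3] at a1
    exact tendsto_nhds_unique a1 a2
  · intro U U' u hu hU hUU hcov f hf
    refine ext_inner' fun x z => ?_
    have a1 := hsand U U' f x z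
    have a2 := hlim f x z
    have a3 : Tendsto (fun i => ‖U * pinC μ Φ (c i) (E f) * U' - pinC μ Φ (c i) (E f)‖) 𝒰
        (𝓝 0) := by
      have b1 : Tendsto (fun i => 2 * Real.sqrt (sq μ (cj u (c i) - c i)) * ‖E f‖) 𝒰 (𝓝 0) := by
        have := (((Real.continuous_sqrt.tendsto _).comp ((hcN u hu).mono_left hle)).const_mul
          2).mul_const ‖E f‖
        simpa using this
      exact squeeze_zero (fun i => norm_nonneg _)
        (fun i => pinE_right h (hc i) (hc1 i) hU hUU hcov hf) b1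
    have a4 := hsub0 a3 x z
    have a5 := a4.add a2
    simp only [ContinuousLinearMap.sub_apply, inner_sub_right, zero_add] at a5
    refine tendsto_nhds_unique a1 (a5.congr fun i => ?_)
    rw [pinE_apply]
    ring
  · intro f χ
    refine ext_inner' fun x z => ?_
    have a1 := hsand 1 (Φ χ) f x z
    have a2 := hsand (Φ χ) 1 f x z
    have a3 : Tendsto (fun i => ‖1 * pinC μ Φ (c i) (E f) * Φ χ - Φ χ * pinC μ Φ (c i) (E f) * 1‖)
        𝒰 (𝓝 0) := by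
      rw [Metric.tendsto_nhds]
      intro ε hε
      have hpos : 0 < 2 * (‖E f‖ + 1) := by positivity
      obtain ⟨V, hV, hVs⟩ := exists_nhds_right χ (ε := ε / (2 * (2 * (‖E f‖ + 1)))) (by positivity)
      filter_upwards [hle (hcO V hV)] with i hi
      rw [dist_zero_right, norm_norm, one_mul, mul_one]
      have b1 := comm_le (μ := μ) h (hc i) χ (δ := ε / (2 * (2 * (‖E f‖ + 1)))) (by positivity)
        (fun g s hs => (hVs s (hi s hs) g).le) (E f)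
      rw [hc1 i, mul_one] at b1
      refine lt_of_le_of_lt b1 ?_
      have b2 : 2 * (ε / (2 * (2 * (‖E f‖ + 1)))) * ‖E f‖ = ε / 2 * (‖E f‖ / (‖E f‖ + 1)) := by
        field_simp
      rw [b2]
      have b3 : ‖E f‖ / (‖E f‖ + 1) ≤ 1 := by
        rw [div_le_one (by positivity)]
        linarith
      calc ε / 2 * (‖E f‖ / (‖E f‖ + 1)) ≤ ε / 2 * 1 := by gcongr
        _ < ε := by linarith
    have a4 := hsub0 a3 x z
    simp only [ContinuousLinearMap.sub_apply, inner_sub_right] at a4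
    have a5 := tendsto_nhds_unique (a1.sub a2) a4
    rw [one_mul, mul_one, sub_eq_zero] at a5
    exact a5

end cross

section cross2

variable {G₁ G : Type} [TopologicalSpace G₁] [Group G₁] [IsTopologicalGroup G₁]
  [TopologicalSpace G] [Group G] [IsTopologicalGroup G] [T2Space G]
  [LocallyCompactSpace G] [SecondCountableTopology G] [MeasurableSpace G] [BorelSpace G]
  (μ : Measure G) [μ.IsHaarMeasure] [μ.IsMulRightInvariant]
  {P : Type} [TopologicalSpace P] [CompactSpace P] [MulAction G₁ P] [ContinuousSMul G₁ P]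
  {K : Type} [NormedAddCommGroup K] [InnerProductSpace ℂ K] [CompleteSpace K]
  {H Γ Γ' : Type} [Group H] [Group Γ] [Group Γ'] {π : H →* (K →L[ℂ] K)}
  {lam₁ : Γ →* (K →L[ℂ] K)} {lam₂ : Γ' →* (K →L[ℂ] K)}
  {X : Set (K →L[ℂ] K)} {q₁ : Γ →* G₁} {q₂ : Γ' →* G} {ι₁ : H →* G₁} {ι₂ : H →* G} {a : P}
  {E : C(P, ℂ) →⋆ₐ[ℂ] (K →L[ℂ] K)} {Q₁ : C₀(G₁, ℂ) →⋆ₙₐ[ℂ] (K →L[ℂ] K)}
  {Q₂ : C₀(G, ℂ) →⋆ₙₐ[ℂ] (K →L[ℂ] K)}

include μ in
/-- the cross-leg step -/
theorem commute_of_uniqA (h₁ : Pt π lam₁ (X ∪ Set.range lam₂) q₁ ι₁ a E Q₁)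
    (nd₂ : ∀ ξ, (∀ ψ, Q₂ ψ ξ = 0) → ξ = 0) (cm₂ : ∀ ψ, Cm (X ∪ Set.range lam₁) (Q₂ ψ))
    (cov₂ : ∀ γ ψ, lam₂ γ * Q₂ ψ * lam₂ γ⁻¹ = Q₂ (ltr (q₂ γ) ψ))
    (pcov₂ : ∀ h ψ, π h * Q₂ ψ * π h⁻¹ = Q₂ (rtr (ι₂ h) ψ))
    (adjP : ∀ g, adjoint (π g) = π g⁻¹) (adj₁ : ∀ γ, adjoint (lam₁ γ) = lam₁ γ⁻¹)
    (adj₂ : ∀ γ, adjoint (lam₂ γ) = lam₂ γ⁻¹)
    (N : Set H) (hN : AB μ (ι₂ '' N)) (hNa : ∀ u ∈ N, ι₁ u • a = a)
    (uq : Uniq π lam₁ (X ∪ Set.range lam₂) q₁ N E) (f : C(P, ℂ)) (χ : C₀(G, ℂ)) :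
    Commute (E f) (Q₂ χ) := by
  obtain ⟨E', h1, hks, hn, hT, hU, hR, hC⟩ := exists_crossA μ nd₂ E (ι₂ '' N) hN
  have key : ∀ f, E' f = E f := by
    refine uq E' h1 hks hn ?_ ?_ ?_
    · intro f w hw
      rcases hw with hw | ⟨γ, rfl⟩
      · exact hT w (fun c => cm₂ c w (Or.inl hw)) f (h₁.cmE f w (Or.inl hw))
      · have e1 : lam₂ γ * E f * lam₂ γ⁻¹ = E f := by
          rw [← h₁.cmE f (lam₂ γ) (Or.inr ⟨γ, rfl⟩), mul_assoc, mul_inv_map, mul_one]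
        have e2 := hU (lam₂ γ) (lam₂ γ⁻¹) (q₂ γ) (adj₂ γ) (inv_mul_map lam₂ γ) (cov₂ γ) f f e1
        calc E' f * lam₂ γ = lam₂ γ * E' f * lam₂ γ⁻¹ * lam₂ γ := by rw [e2]
          _ = lam₂ γ * E' f := by rw [mul_assoc, inv_mul_map, mul_one]
    · intro γ f
      refine hU (lam₁ γ) (lam₁ γ⁻¹) 1 (adj₁ γ) (inv_mul_map lam₁ γ) (fun c => ?_) f _ (h₁.covE γ f)
      rw [ltr_one, ← cm₂ c (lam₁ γ) (Or.inr ⟨γ, rfl⟩), mul_assoc, mul_inv_map, mul_one]
    · intro u hu f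
      exact hR (π u) (π u⁻¹) (ι₂ u) ⟨u, hu, rfl⟩ (adjP u) (inv_mul_map π u) (pcov₂ u) f
        (h₁.piE (hNa u hu) f)
  rw [← key f]
  exact hC f χ

end cross2

section uq

variable {G Γ : Type} [Group G] [TopologicalSpace G] [IsTopologicalGroup G] [T2Space G]
  [LocallyCompactSpace G] [SecondCountableTopology G] [MeasurableSpace G] [BorelSpace G] [Group Γ]
variable {K : Type} [NormedAddCommGroup K] [InnerProductSpace ℂ K] [CompleteSpace K]
variable {P : Type} [TopologicalSpace P] [CompactSpace P] [T2Space P] [MulAction G P]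
  [ContinuousSMul G P]
variable {H : Type} [Group H]
variable {μ : Measure G} {ι : H →* G} {π : H →* (K →L[ℂ] K)} {lam : Γ →* (K →L[ℂ] K)}
  {W : Set (K →L[ℂ] K)} {Ω : K} {q : Γ →* G} {Φ : C₀(G, ℂ) →⋆ₙₐ[ℂ] (K →L[ℂ] K)}
  {M : Set H} {E : C(P, ℂ) →ₗ[ℂ] (K →L[ℂ] K)}

/-- one good bump for finitely many symmetries -/
theorem exists_bump1A (μ : Measure G) [μ.IsHaarMeasure] [μ.IsMulRightInvariant] {S : Set G}
    (hS : AB μ S) (us : List G) (hus : ∀ u ∈ us, u ∈ S) {O : Set G} (hO : O ∈ 𝓝 (1 : G)) {ε : ℝ} (hε : 0 < ε) :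
    ∃ c : C₀(G, ℂ), HasCompactSupport c ∧ star c = c ∧ ∫⁻ g, ‖c g‖ₑ ^ 2 ∂μ = 1 ∧
      (∀ x, c x ≠ 0 → x ∈ O) ∧
      ∀ u ∈ us, ∫⁻ g, ‖(cj u c - c) g‖ₑ ^ 2 ∂μ ≤ ENNReal.ofReal (ε ^ 2) := by
  obtain ⟨c, h1, h2, h3, h4, h5, h6⟩ :=
    bumpA μ hS us hus hO (ε := ε ^ 2) (by positivity)
  refine ⟨H626.Bump.up c h1 h2, ?_, ?_, ?_, ?_, ?_⟩
  · exact h2.comp_left (g := fun t : ℝ => (t : ℂ)) Complex.ofReal_zero
  · ext x
    exact Complex.conj_ofReal _
  · have := H862.lint_sq (μ := μ) h1 h2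
    rw [h5, ENNReal.ofReal_one] at this
    exact this
  · intro x hx
    refine h4 (subset_tsupport _ ?_)
    intro h0
    apply hx
    rw [H626.Bump.up_apply, h0, Complex.ofReal_zero]
  · intro u hu
    have hc' : Continuous fun x => c (u⁻¹ * x * u) - c x := (h1.comp (by fun_prop)).sub h1
    have hs' : HasCompactSupport fun x => c (u⁻¹ * x * u) - c x := by
      have e : (fun x => c (u⁻¹ * x * u)) = c ∘
          ((Homeomorph.mulLeft u⁻¹).trans (Homeomorph.mulRight u)) := by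
        funext x; rfl
      have h7 : HasCompactSupport (fun x => c (u⁻¹ * x * u)) := by
        rw [e]
        exact h2.comp_homeomorph _
      exact h7.sub h2
    refine le_trans (le_of_eq ?_) (ENNReal.ofReal_le_ofReal (h6 u hu))
    rw [← H862.lint_sq hc' hs']
    refine lintegral_congr fun g => ?_
    rw [ZeroAtInftyContinuousMap.sub_apply, cj_apply, H626.Bump.up_apply, H626.Bump.up_apply,
      Complex.ofReal_sub, mul_assoc]

/-- **uniqueness of the boundary map**, on vectors of compact support -/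
theorem LgI.uq₀A [Countable Γ] [μ.IsHaarMeasure] [μ.IsMulRightInvariant]
    (h : LgI μ ι π lam W Ω q Φ)
    (hN : ∀ C : Set G, IsCompact C → ∃ N : ℕ, ∀ g, ∑' γ, C.indicator (1 : G → ℝ≥0∞) (q γ * g) ≤ N)
    {y : P} (hM : AB μ (ι '' M)) (hy : Disj ι M y)
    (hE : MpI π lam W q M E) (f : C(P, ℂ)) (b b' : C₀(G, ℂ)) (hb : HasCompactSupport b)
    (hbb : ∀ x, b' x = f (x • y) * b x) : E f * Φ b = Φ b' := by
  obtain ⟨V, hV1, hV2⟩ := exists_compact_mem_nhds (1 : G)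
  set C : Set G := tsupport b * V⁻¹ with hC
  have hCc : IsCompact C := hb.isCompact.mul hV1.inv
  have hCm : MeasurableSet C := hCc.measurableSet
  obtain ⟨N, hN⟩ := hN C hCc
  obtain ⟨k, hk0, hky, hk1, -⟩ := H715.Xc6.exists_osc hCc f y
  have hD : Cm W (E f * Φ b - Φ b') :=
    H862.cm_sub (H862.cm_mul (hE.cm f) (h.cm b)) (h.cm b')
  have key : ∀ ω : ℝ, 0 < ω → TRN lam Ω (E f * Φ b - Φ b') ≤
      ENNReal.ofReal (2 * (‖Φ b‖ ^ 2 * (N * ω)) + 2 * (ω ^ 2 * N)) := by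
    intro ω hω
    obtain ⟨F, hF, δ, hδ, hst⟩ := fs_of_disj hy k hk0 hky hω
    have hO : ∀ᶠ s in 𝓝 (1 : G), ∀ g ∈ C, ‖f (g • y) * b (g * s) - b' (g * s)‖ < ω := by
      refine hCc.eventually_forall_of_forall_eventually fun g _ => ?_
      have hcont : Continuous fun p : G × G =>
          ‖f (p.2 • y) * b (p.2 * p.1) - b' (p.2 * p.1)‖ := by fun_prop
      have h0 : ‖f (g • y) * b (g * 1) - b' (g * 1)‖ = 0 := by
        rw [mul_one, hbb, sub_self, norm_zero]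
      have := hcont.tendsto ((1 : G), g)
      simp only at this
      rw [h0] at this
      exact this.eventually (gt_mem_nhds hω)
    have hP : ∀ u ∈ F.toList.map ι, u ∈ ι '' M := by
      intro u hu
      obtain ⟨x, hx, rfl⟩ := List.mem_map.1 hu
      exact ⟨x, hF x (Finset.mem_toList.1 hx), rfl⟩
    obtain ⟨c, c1, c2, c3, c4, c5⟩ := exists_bump1A μ hM (F.toList.map ι) hP
      (Filter.inter_mem hO hV2) (ε := δ / 4) (by positivity)
    have b1 : ∫⁻ g, ‖c g‖ₑ ^ 2 ∂μ ≤ ENNReal.ofReal (1 ^ 2) := by rw [c3]; simp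
    have h3 := h.trn_le hE (c := c) (b := b) (b' := b') (f := f) (k := k) (y := y) (ω := ω)
      (C := C) (N := N) c1 c2 c3 hCm hN hω.le hk1
      (fun g hg x hx => by
        have h4 := (c4 (g⁻¹ * x) hx).1 g hg
        rw [mul_inv_cancel_left] at h4
        exact h4.le)
      (fun g hg x hx => by
        have h5 : b x = 0 := by
          by_contra h0
          apply hg
          refine ⟨x, subset_tsupport _ h0, (g⁻¹ * x)⁻¹, Set.inv_mem_inv.2 (c4 _ hx).2, ?_⟩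
          simp
        exact ⟨h5, by rw [hbb, h5, mul_zero]⟩)
    have h4 : ∫⁻ g, ENNReal.ofReal (dn Φ Ω E c k g) ∂μ = ENNReal.ofReal (al μ Φ Ω E c k) := by
      unfold al
      rw [ofReal_integral_eq_lintegral_ofReal (h.int_dn hE.up c1 zero_le_one b1 k)
        (Eventually.of_forall fun g => dn_nonneg hE.up c hk0 g)]
    have h5 : 0 ≤ al μ Φ Ω E c k := LgI.al_nonneg hE.up c hk0
    have h6 : al μ Φ Ω E c k ≤ ω := by
      refine hst (h.alL hE.up c1 b1) (fun a ha => LgI.al_nonneg hE.up c ha)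
        (h.al_one hE.up c1 c3).le (fun u hu a => ?_)
      exact h.al_inv hE (hF u hu) c1 b1 hδ
        (c5 (ι u) (List.mem_map.2 ⟨u, Finset.mem_toList.2 hu, rfl⟩)) a
    rw [h4] at h3
    refine h3.trans ?_
    have h7 : 2 * (‖Φ b‖ₑ ^ 2 * (N * ENNReal.ofReal (al μ Φ Ω E c k))) +
        2 * (ENNReal.ofReal ω ^ 2 * N) =
        ENNReal.ofReal (2 * (‖Φ b‖ ^ 2 * (N * al μ Φ Ω E c k)) + 2 * (ω ^ 2 * N)) := by
      rw [ENNReal.ofReal_add (by positivity) (by positivity), ENNReal.ofReal_mul zero_le_two,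
        ENNReal.ofReal_mul zero_le_two, ENNReal.ofReal_mul (by positivity),
        ENNReal.ofReal_mul (by positivity), ENNReal.ofReal_mul (by positivity),
        ENNReal.ofReal_pow (norm_nonneg _), ofReal_norm_eq_enorm, ENNReal.ofReal_pow hω.le,
        ENNReal.ofReal_natCast, ENNReal.ofReal_ofNat]
    rw [h7]
    refine ENNReal.ofReal_le_ofReal ?_
    gcongr
  have hz : TRN lam Ω (E f * Φ b - Φ b') = 0 := by
    have h6 : Tendsto (fun n : ℕ => 1 / ((n : ℝ) + 1)) atTop (𝓝 0) :=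
      tendsto_one_div_add_atTop_nhds_zero_nat
    have h7 : Tendsto (fun n : ℕ => ENNReal.ofReal (2 * (‖Φ b‖ ^ 2 * (N * (1 / ((n : ℝ) + 1)))) +
        2 * ((1 / ((n : ℝ) + 1)) ^ 2 * N))) atTop
        (𝓝 (ENNReal.ofReal (2 * (‖Φ b‖ ^ 2 * (N * 0)) + 2 * ((0 : ℝ) ^ 2 * N)))) :=
      (ENNReal.continuous_ofReal.tendsto _).comp
        ((((h6.const_mul _).const_mul _).const_mul _).add (((h6.pow 2).mul_const _).const_mul _))
    have h8 := ge_of_tendsto h7 (Eventually.of_forall fun n => key (1 / ((n : ℝ) + 1)) (by positivity))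
    simpa using h8
  exact sub_eq_zero.1 (h.tr_zero _ hD hz)

/-- **uniqueness of the boundary map** -/
theorem LgI.uqA [Countable Γ] [μ.IsHaarMeasure] [μ.IsMulRightInvariant]
    (h : LgI μ ι π lam W Ω q Φ) (hnd : ∀ ξ, (∀ c, Φ c ξ = 0) → ξ = 0)
    (hN : ∀ C : Set G, IsCompact C → ∃ N : ℕ, ∀ g, ∑' γ, C.indicator (1 : G → ℝ≥0∞) (q γ * g) ≤ N)
    {y : P} (hM : AB μ (ι '' M)) (hy : Disj ι M y)
    (hE : MpI π lam W q M E) (F : C(P, ℂ) → (K →L[ℂ] K))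
    (hF : ∀ f (b b' : C₀(G, ℂ)), (∀ x, b' x = f (x • y) * b x) → F f * Φ b = Φ b') :
    ∀ f, E f = F f := by
  intro f
  have hd : Dense (H295.cs Φ : Set K) := H295.dense_cs hnd
  refine ContinuousLinearMap.ext fun ξ => ?_
  refine congrFun (Continuous.ext_on hd (E f).continuous (F f).continuous ?_) ξ
  rintro v ⟨b, hb, hv⟩
  have h1 := h.uq₀A hN hM hy hE f b (mf y f b) hb (fun x => rfl)
  have h2 := hF f b (mf y f b) (fun x => rfl)
  have h3 := congrArg (fun T : K →L[ℂ] K => T v) (h1.trans h2.symm)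
  change E f (Φ b v) = F f (Φ b v) at h3
  rwa [hv] at h3

/-- **the uniqueness in the letters of helper295** (`Uniq`), for a point of a classical leg -/
theorem LgI.uniqA [Countable Γ] [μ.IsHaarMeasure] [μ.IsMulRightInvariant]
    (h : LgI μ ι π lam W Ω q Φ)
    (hN : ∀ C : Set G, IsCompact C → ∃ N : ℕ, ∀ g, ∑' γ, C.indicator (1 : G → ℝ≥0∞) (q γ * g) ≤ N)
    {y : P} (hM : AB μ (ι '' M)) (hy : Disj ι M y)
    {E : C(P, ℂ) →⋆ₐ[ℂ] (K →L[ℂ] K)} (hp : Pt π lam W q ι y E Φ) : Uniq π lam W q M E := by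
  intro E' h1 h2 h3 h4 h5 h6 f
  refine h.uqA hp.nd hN hM hy (E := E') ⟨⟨h1, h2⟩, h4, fun u hu f => ?_, h5⟩ (fun f => E f)
    (fun f b b' hb => ?_) f
  · have h7 := h6 u hu f
    calc π u * E' f = π u * E' f * π u⁻¹ * π u := by
          rw [mul_assoc (π u * E' f), inv_mul_map, mul_one]
      _ = E' f * π u := by rw [h7]
  · have e : b' = mf y f b := by
      ext x
      exact hb x
    rw [e]
    exact hp.mulE f b

end uq

section pt

variable {G₁ G₂ : Type}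
  [Group G₁] [TopologicalSpace G₁] [IsTopologicalGroup G₁] [T2Space G₁] [LocallyCompactSpace G₁]
  [SecondCountableTopology G₁] [MeasurableSpace G₁] [BorelSpace G₁]
  [Group G₂] [TopologicalSpace G₂] [IsTopologicalGroup G₂] [T2Space G₂] [LocallyCompactSpace G₂]
  [SecondCountableTopology G₂] [MeasurableSpace G₂] [BorelSpace G₂]
variable {Γ₁ Γ₂ H E₀ : Type} [Group Γ₁] [Group Γ₂] [Group H] [Group E₀] [TopologicalSpace E₀]
variable {K : Type} [NormedAddCommGroup K] [InnerProductSpace ℂ K] [CompleteSpace K]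
variable {P : Type} [TopologicalSpace P] [CompactSpace P] [T2Space P] [MulAction G₁ P]
  [ContinuousSMul G₁ P]
variable {π₀ : E₀ →* (K →L[ℂ] K)} {lam₁ : Γ₁ →* (K →L[ℂ] K)} {lam₂ : Γ₂ →* (K →L[ℂ] K)}
  {X : Set (K →L[ℂ] K)} {Ω : K} {q₁ : Γ₁ →* G₁} {q₂ : Γ₂ →* G₂} {ι₁ : H →* G₁} {ι₂ : H →* G₂}
  {Q₁ : C₀(G₁, ℂ) →⋆ₙₐ[ℂ] (K →L[ℂ] K)} {Q₂ : C₀(G₂, ℂ) →⋆ₙₐ[ℂ] (K →L[ℂ] K)}

/-- **[N-XC], abstract form**: the calculus of a point of the first leg commutes with the classical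
calculus of the second leg. `G₁`, `G₂` may be products; `P` is then the space of one coordinate.
From the second leg only `nd`, `cm`, `cov`, `pcov` are used. -/
theorem xc_ptA [Countable Γ₁] (μ₁ : Measure G₁) [μ₁.IsHaarMeasure] [μ₁.IsMulRightInvariant]
    (μ₂ : Measure G₂) [μ₂.IsHaarMeasure] [μ₂.IsMulRightInvariant] (j : H →* E₀)
    (hPic : RC.Pic π₀ lam₁ (X ∪ Set.range lam₂) Ω)
    (tv : ∀ Y, Cm (X ∪ Set.range lam₂) Y → (∀ γ, Y * lam₁ γ = lam₁ γ * Y) → ∀ h : H,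
      ⟪π₀ (j h) Ω, Y (π₀ (j h) Ω)⟫_ℂ = ⟪Ω, Y Ω⟫_ℂ)
    (hN : ∀ C : Set G₁, IsCompact C → ∃ N : ℕ, ∀ g,
      ∑' γ, C.indicator (1 : G₁ → ℝ≥0∞) (q₁ γ * g) ≤ N)
    {y : P} {E : C(P, ℂ) →⋆ₐ[ℂ] (K →L[ℂ] K)}
    (hp : Pt (π₀.comp j) lam₁ (X ∪ Set.range lam₂) q₁ ι₁ y E Q₁)
    (adj₂ : ∀ γ, adjoint (lam₂ γ) = lam₂ γ⁻¹)
    (nd₂ : ∀ ξ, (∀ ψ, Q₂ ψ ξ = 0) → ξ = 0) (cm₂ : ∀ ψ, Cm (X ∪ Set.range lam₁) (Q₂ ψ))
    (cov₂ : ∀ γ ψ, lam₂ γ * Q₂ ψ * lam₂ γ⁻¹ = Q₂ (ltr (q₂ γ) ψ))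
    (pcov₂ : ∀ (h : H) ψ, π₀ (j h) * Q₂ ψ * π₀ (j h)⁻¹ = Q₂ (rtr (ι₂ h) ψ))
    {M : Set H} (hM₁ : AB μ₁ (ι₁ '' M)) (hM₂ : AB μ₂ (ι₂ '' M)) (fix : ∀ u ∈ M, ι₁ u • y = y)
    (hD : Disj ι₁ M y) (f : C(P, ℂ)) (χ : C₀(G₂, ℂ)) : Commute (E f) (Q₂ χ) := by
  have hL := lgI_of' μ₁ j hPic tv hp
  refine commute_of_uniqA (q₂ := q₂) (ι₂ := ι₂) (π := π₀.comp j) μ₂ hp nd₂ cm₂ cov₂ (fun h ψ => ?_)
    (fun g => ?_) hPic.adjL adj₂ M hM₂ fix (hL.uniqA hN hM₁ hD hp) f χ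
  · rw [MonoidHom.comp_apply, MonoidHom.comp_apply, map_inv]
    exact pcov₂ h ψ
  · rw [MonoidHom.comp_apply, MonoidHom.comp_apply, map_inv]
    exact hPic.adjP (j g)

end pt

end Vale.Agent.P092.H325
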