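import Vale.Agent.P092.H325.Amen
import Vale.Agent.P092.H715.DisjP
import Vale.Agent.P092.H714.SpM3

/-!
P092 (helper325), row [P-XC]: the unipotent radical of the stabiliser of a point `[v]` in a
symplectic group (a Heisenberg group): almost invariant bumps (`ab_heis`) and disjoint translates
of the neighbourhoods of the points different from `[v]` (`disj_sp`), through a field embedding.
-/

set_option linter.all false

open Filter Topology Set Matrix MeasureTheory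
open scoped LinearAlgebra.Projectivization

namespace Vale.Agent.P092.H325

open Vale.Agent.P092.H820
open Vale.Agent.P092.H715.Disj (Disj nbd nbd_open exists_far sv sv_ne sv_dot)

section top

variable {n k' : Type*} [Fintype n] [DecidableEq n] [NontriviallyNormedField k']

/-- unipotent elements `1 + s A` with far parameters move `nbd` to disjoint sets -/
theorem nbd_disjU {A : Matrix n n k'} {φ : n → k'} (hAA : ∀ x, A *ᵥ (A *ᵥ x) = 0)
    (hφA : ∀ x, φ ⬝ᵥ (A *ᵥ x) = 0) {c d : ℝ} (hc : 0 < c) (hd : 0 < d)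
    (hA : ∀ x, d * ‖φ ⬝ᵥ x‖ ≤ ‖A *ᵥ x‖) {s s' : k'} (hs : 2 / (c * d) ≤ ‖s - s'‖)
    {w w' : n → k'} (hw : c * ‖w‖ < ‖φ ⬝ᵥ w‖) (hw' : c * ‖w'‖ < ‖φ ⬝ᵥ w'‖) {a : k'} (ha0 : a ≠ 0)
    (ha : a • (w' + s' • (A *ᵥ w')) = w + s • (A *ᵥ w)) : False := by
  obtain ⟨u, hu⟩ : ∃ u : n → k', u = a • w' := ⟨_, rfl⟩
  have hu0 : c * ‖u‖ < ‖φ ⬝ᵥ u‖ := by
    have h1 : 0 < ‖a‖ := norm_pos_iff.2 ha0
    rw [hu, dotProduct_smul, norm_smul, smul_eq_mul, norm_mul]
    nlinarith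
  have e1 : u + s' • (A *ᵥ u) = w + s • (A *ᵥ w) := by
    rw [← ha, hu, smul_add, mulVec_smul, smul_comm]
  have e2 : φ ⬝ᵥ u = φ ⬝ᵥ w := by
    have := congrArg (fun z => φ ⬝ᵥ z) e1
    simpa [dotProduct_add, dotProduct_smul, hφA] using this
  have e3 : A *ᵥ u = A *ᵥ w := by
    have := congrArg (fun z => A *ᵥ z) e1
    simpa only [mulVec_add, mulVec_smul, hAA, smul_zero, add_zero] using this
  have e4 : u - w = (s - s') • (A *ᵥ w) := by
    rw [e3] at e1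
    rw [sub_smul, sub_eq_iff_eq_add]
    rw [eq_sub_of_add_eq e1]
    abel
  have e5 : ‖s - s'‖ * ‖A *ᵥ w‖ ≤ ‖u‖ + ‖w‖ := by
    rw [← norm_smul, ← e4]
    exact norm_sub_le _ _
  have hp : 0 < ‖φ ⬝ᵥ w‖ := lt_of_le_of_lt (by positivity) hw
  rw [e2] at hu0
  have e6 : ‖s - s'‖ * (d * ‖φ ⬝ᵥ w‖) ≤ ‖s - s'‖ * ‖A *ᵥ w‖ :=
    mul_le_mul_of_nonneg_left (hA w) (norm_nonneg _)
  rw [div_le_iff₀ (by positivity)] at hs
  have e7 : 2 * ‖φ ⬝ᵥ w‖ ≤ ‖s - s'‖ * (c * d) * ‖φ ⬝ᵥ w‖ := mul_le_mul_of_nonneg_right hs hp.le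
  have e8 : c * (‖s - s'‖ * (d * ‖φ ⬝ᵥ w‖)) ≤ c * (‖u‖ + ‖w‖) :=
    mul_le_mul_of_nonneg_left (e6.trans e5) hc.le
  nlinarith

/-- **(DISJ) from one-parameter unipotent groups** -/
theorem disj_unip {H G k : Type*} [Group H] [Group G] [MulAction G (ℙ k' (n → k'))] [Field k]
    (σ : k →+* k') (hσ : ∃ t, 1 < ‖σ t‖) (ι : H →* G) (M : Set H) (y : ℙ k' (n → k'))
    (h : ∀ w : {w : n → k' // w ≠ 0}, pj k' n w ≠ y → ∃ (A : Matrix n n k') (φ : n → k') (d : ℝ)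
      (u : k → H), 0 < d ∧ (∀ x, A *ᵥ (A *ᵥ x) = 0) ∧ (∀ x, φ ⬝ᵥ (A *ᵥ x) = 0) ∧
      (∀ x, d * ‖φ ⬝ᵥ x‖ ≤ ‖A *ᵥ x‖) ∧ φ ⬝ᵥ w.1 ≠ 0 ∧ (∀ s, u s ∈ M) ∧
      ∀ s (x : {w : n → k' // w ≠ 0}), ∃ hx : x.1 + σ s • (A *ᵥ x.1) ≠ 0,
        ι (u s) • pj k' n x = pj k' n ⟨x.1 + σ s • (A *ᵥ x.1), hx⟩) : Disj ι M y := by
  intro ξ hξ
  obtain ⟨w, rfl⟩ := pj_surj ξ
  obtain ⟨A, φ, d, u, hd, hAA, hφA, hA, hφw, hu, hact⟩ := h w hξ
  have hw0 : 0 < ‖w.1‖ := norm_pos_iff.2 w.2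
  have hp0 : 0 < ‖φ ⬝ᵥ w.1‖ := norm_pos_iff.2 hφw
  obtain ⟨c, hc⟩ : ∃ c : ℝ, c = ‖φ ⬝ᵥ w.1‖ / (2 * ‖w.1‖) := ⟨_, rfl⟩
  have hc0 : 0 < c := by rw [hc]; positivity
  refine ⟨nbd φ c, nbd_open _ _, ⟨w, ?_, rfl⟩, fun M => ?_⟩
  · change c * ‖w.1‖ < ‖φ ⬝ᵥ w.1‖
    have : c * ‖w.1‖ = ‖φ ⬝ᵥ w.1‖ / 2 := by
      rw [hc]; field_simp
    linarith
  · obtain ⟨s, hs⟩ := exists_far σ hσ (2 / (c * d)) M
    refine ⟨fun a => u (s a), fun a => hu _, fun a b hab x hx x' hx' he => ?_⟩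
    obtain ⟨z, hz, rfl⟩ := hx
    obtain ⟨z', hz', rfl⟩ := hx'
    obtain ⟨h1, h1'⟩ := hact (s a) z
    obtain ⟨h2, h2'⟩ := hact (s b) z'
    have he' : ι (u (s a)) • pj k' n z = ι (u (s b)) • pj k' n z' := he
    rw [h1', h2'] at he'
    obtain ⟨t, ht⟩ := (pj_eq _ _).1 he'
    exact nbd_disjU hAA hφA hc0 hd hA (hs a b hab) hz hz' t.ne_zero ht

/-- a functional which is one on the first vector: lower bounds -/
theorem lower_two {v w : n → k'} (hvw : ∀ c : k', w ≠ c • v) (hv : v ≠ 0) :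
    ∃ d : ℝ, 0 < d ∧ ∀ a b : k', d * ‖a‖ ≤ ‖a • v + b • w‖ := by
  obtain ⟨i, hi⟩ := Function.ne_iff.1 hv
  have hi' : v i ≠ 0 := hi
  obtain ⟨j, hj⟩ : ∃ j, w j ≠ (w i / v i) * v j := by
    by_contra hc
    push Not at hc
    exact hvw (w i / v i) (funext fun j => by rw [Pi.smul_apply, smul_eq_mul]; exact hc j)
  obtain ⟨D, hD⟩ : ∃ D : k', D = w j * v i - w i * v j := ⟨_, rfl⟩
  have hD0 : D ≠ 0 := by
    intro h0
    apply hj
    rw [hD] at h0
    field_simp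
    exact sub_eq_zero.1 h0
  have hD' : 0 < ‖D‖ := norm_pos_iff.2 hD0
  refine ⟨‖D‖ / (‖w i‖ + ‖w j‖ + 1), by positivity, fun a b => ?_⟩
  have e1 : a * D = w j * (a • v + b • w) i - w i * (a • v + b • w) j := by
    simp only [Pi.add_apply, Pi.smul_apply, smul_eq_mul, hD]
    ring
  have e2 : ‖a‖ * ‖D‖ ≤ (‖w i‖ + ‖w j‖) * ‖a • v + b • w‖ := by
    rw [← norm_mul, e1]
    refine (norm_sub_le _ _).trans ?_
    rw [norm_mul, norm_mul]
    have h1 := norm_le_pi_norm (a • v + b • w) i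
    have h2 := norm_le_pi_norm (a • v + b • w) j
    nlinarith [norm_nonneg (w i), norm_nonneg (w j)]
  rw [div_mul_eq_mul_div, div_le_iff₀ (by positivity)]
  nlinarith [norm_nonneg (a • v + b • w)]

end top

section heis

variable {n k : Type*} [Fintype n] [DecidableEq n] [Field k]

theorem mulv (g h : SpecialLinearGroup n k) (x : n → k) :
    (g * h).1 *ᵥ x = g.1 *ᵥ (h.1 *ᵥ x) := by
  rw [mulVec_mulVec]; rfl

theorem onev (x : n → k) : (1 : SpecialLinearGroup n k).1 *ᵥ x = x := one_mulVec x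

theorem inv_mulv (g : SpecialLinearGroup n k) (x : n → k) : (g⁻¹).1 *ᵥ (g.1 *ᵥ x) = x := by
  rw [← mulv, inv_mul_cancel, onev]

theorem mulv_inv (g : SpecialLinearGroup n k) (x : n → k) : g.1 *ᵥ ((g⁻¹).1 *ᵥ x) = x := by
  rw [← mulv, mul_inv_cancel, onev]

theorem inv_fix {g : SpecialLinearGroup n k} {v : n → k} (h : g.1 *ᵥ v = v) :
    (g⁻¹).1 *ᵥ v = v := by
  conv_lhs => rw [← h]
  exact inv_mulv g v

/-- the unipotent radical of the stabiliser of the point `[v]`, `ψ = ω(v, .)` -/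
def Heis (v ψ : n → k) : Subgroup (SpecialLinearGroup n k) where
  carrier := {g | g.1 *ᵥ v = v ∧ (∀ x, ψ ⬝ᵥ (g.1 *ᵥ x) = ψ ⬝ᵥ x) ∧
    ∀ x, ψ ⬝ᵥ x = 0 → ∃ c : k, g.1 *ᵥ x = x + c • v}
  one_mem' := by
    refine ⟨onev v, fun x => by rw [onev], fun x _ => ⟨0, by rw [onev, zero_smul, add_zero]⟩⟩
  mul_mem' := by
    rintro g h ⟨g1, g2, g3⟩ ⟨h1, h2, h3⟩
    refine ⟨by rw [mulv, h1, g1], fun x => by rw [mulv, g2, h2], fun x hx => ?_⟩
    obtain ⟨c, hc⟩ := h3 x hx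
    obtain ⟨c', hc'⟩ := g3 x hx
    refine ⟨c' + c, ?_⟩
    rw [mulv, hc, mulVec_add, mulVec_smul, g1, hc', add_smul, add_assoc]
  inv_mem' := by
    rintro g ⟨g1, g2, g3⟩
    refine ⟨inv_fix g1, fun x => ?_, fun x hx => ?_⟩
    · conv_rhs => rw [← mulv_inv g x]
      rw [g2]
    · obtain ⟨c, hc⟩ := g3 x hx
      refine ⟨-c, ?_⟩
      have e : x = (g⁻¹).1 *ᵥ x + c • v := by
        conv_lhs => rw [← inv_mulv g x]
        rw [hc, mulVec_add, mulVec_smul, inv_fix g1]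
      rw [neg_smul, ← sub_eq_add_neg]
      exact eq_sub_of_add_eq e.symm

theorem mem_heis {v ψ : n → k} {g : SpecialLinearGroup n k} : g ∈ Heis v ψ ↔
    g.1 *ᵥ v = v ∧ (∀ x, ψ ⬝ᵥ (g.1 *ᵥ x) = ψ ⬝ᵥ x) ∧
      ∀ x, ψ ⬝ᵥ x = 0 → ∃ c : k, g.1 *ᵥ x = x + c • v := Iff.rfl

/-- the elements `1 + v ⊗ φ` -/
def Cnt (v : n → k) : Subgroup (SpecialLinearGroup n k) where
  carrier := {g | g.1 *ᵥ v = v ∧ ∀ x, ∃ c : k, g.1 *ᵥ x = x + c • v}
  one_mem' := ⟨onev v, fun x => ⟨0, by rw [onev, zero_smul, add_zero]⟩⟩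
  mul_mem' := by
    rintro g h ⟨g1, g3⟩ ⟨h1, h3⟩
    refine ⟨by rw [mulv, h1, g1], fun x => ?_⟩
    obtain ⟨c, hc⟩ := h3 x
    obtain ⟨c', hc'⟩ := g3 x
    refine ⟨c' + c, ?_⟩
    rw [mulv, hc, mulVec_add, mulVec_smul, g1, hc', add_smul, add_assoc]
  inv_mem' := by
    rintro g ⟨g1, g3⟩
    refine ⟨inv_fix g1, fun x => ?_⟩
    obtain ⟨c, hc⟩ := g3 x
    refine ⟨-c, ?_⟩
    have e : x = (g⁻¹).1 *ᵥ x + c • v := by
      conv_lhs => rw [← inv_mulv g x]
      rw [hc, mulVec_add, mulVec_smul, inv_fix g1]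
    rw [neg_smul, ← sub_eq_add_neg]
    exact eq_sub_of_add_eq e.symm

theorem ext_mulv {g h : SpecialLinearGroup n k} (H : ∀ x, g.1 *ᵥ x = h.1 *ᵥ x) : g = h :=
  Subtype.ext (Matrix.ext_of_mulVec_single fun j => H _)

theorem cnt_comm {v : n → k} {g h : SpecialLinearGroup n k} (hg : g ∈ Cnt v) (hh : h ∈ Cnt v) :
    g * h = h * g := by
  obtain ⟨g1, g3⟩ := hg
  obtain ⟨h1, h3⟩ := hh
  refine ext_mulv fun x => ?_
  obtain ⟨c, hc⟩ := h3 x
  obtain ⟨c', hc'⟩ := g3 x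
  rw [mulv, mulv, hc, hc', mulVec_add, mulVec_add, mulVec_smul, mulVec_smul, g1, h1, hc, hc']
  abel

/-- the commutators of a Heisenberg group -/
theorem heis_comm {v ψ : n → k} {g h : SpecialLinearGroup n k} (hg : g ∈ Heis v ψ)
    (hh : h ∈ Heis v ψ) : g⁻¹ * h⁻¹ * g * h ∈ Cnt v := by
  have hG := hg
  have hH := hh
  obtain ⟨g1, g2, g3⟩ := hg
  obtain ⟨h1, h2, h3⟩ := hh
  refine ⟨?_, fun x => ?_⟩
  · rw [mulv, mulv, mulv, h1, g1, inv_fix h1, inv_fix g1]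
  · -- `g h x = h g x + c v`
    obtain ⟨p, hp⟩ : ∃ p, p = g.1 *ᵥ x - x := ⟨_, rfl⟩
    obtain ⟨r, hr⟩ : ∃ r, r = h.1 *ᵥ x - x := ⟨_, rfl⟩
    have hp0 : ψ ⬝ᵥ p = 0 := by rw [hp, dotProduct_sub, g2, sub_self]
    have hr0 : ψ ⬝ᵥ r = 0 := by rw [hr, dotProduct_sub, h2, sub_self]
    obtain ⟨a, ha⟩ := g3 r hr0
    obtain ⟨b, hb⟩ := h3 p hp0
    have eg : g.1 *ᵥ x = x + p := by rw [hp]; abel
    have eh : h.1 *ᵥ x = x + r := by rw [hr]; abel
    have e1 : g.1 *ᵥ (h.1 *ᵥ x) = h.1 *ᵥ (g.1 *ᵥ x) + (a - b) • v := by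
      rw [eh, eg, mulVec_add, mulVec_add, eg, eh, ha, hb, sub_smul]
      abel
    refine ⟨a - b, ?_⟩
    rw [mulv, mulv, mulv, e1, mulVec_add, inv_mulv, mulVec_add, inv_mulv, mulVec_smul,
      inv_fix h1, mulVec_smul, inv_fix g1]

end heis

section ab

variable {n k : Type*} [Fintype n] [DecidableEq n] [Field k]
  {G : Type*} [Group G] [TopologicalSpace G] [IsTopologicalGroup G] [T2Space G]
  [LocallyCompactSpace G] [MeasurableSpace G] [BorelSpace G] (μ : Measure G)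
  [μ.IsMulLeftInvariant] [μ.IsMulRightInvariant] [IsFiniteMeasureOnCompacts μ]
  [μ.IsOpenPosMeasure]

/-- **almost invariant bumps for the Heisenberg groups** -/
theorem ab_heis (f : SpecialLinearGroup n k →* G) (v ψ : n → k) :
    AB μ (((Heis v ψ).map f : Subgroup G) : Set G) := by
  refine ab_step μ (D' := (Heis v ψ ⊓ Cnt v).map f) (ab_of_commute μ ?_)
    (Subgroup.map_mono inf_le_left) ?_
  · rintro _ ⟨g, hg, rfl⟩ _ ⟨h, hh, rfl⟩
    change f g * f h = f h * f g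
    rw [← map_mul, ← map_mul, cnt_comm hg.2 hh.2]
  · rintro _ ⟨g, hg, rfl⟩ _ ⟨h, hh, rfl⟩
    refine ⟨g⁻¹ * h⁻¹ * g * h, ⟨?_, heis_comm hg hh⟩, by simp⟩
    exact (Heis v ψ).mul_mem ((Heis v ψ).mul_mem ((Heis v ψ).mul_mem ((Heis v ψ).inv_mem hg)
      ((Heis v ψ).inv_mem hh)) hg) hh

end ab

section sp

open Vale.Agent.P092.H714.Sp (om SpG tr ed tr_mulVec ed_mulVec om_self om_skew om_eq mem_SpG
  om_add_right om_smul_right)
open Vale.Agent.P092.H15 (Alt)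

variable {n k : Type} [Fintype n] [DecidableEq n] [Field k] {K : Matrix n n k}

theorem psi_dot (v x : n → k) : (v ᵥ* K) ⬝ᵥ x = om K v x := (om_eq K v x).symm

theorem tr_heis (hK : Alt K) (v : n → k) (s : k) : (tr hK v s).1 ∈ Heis v (v ᵥ* K) := by
  refine ⟨?_, fun x => ?_, fun x hx => ⟨s * om K v x, tr_mulVec hK v x s⟩⟩
  · rw [tr_mulVec, om_self hK, mul_zero, zero_smul, add_zero]
  · rw [tr_mulVec, psi_dot, psi_dot, om_add_right, om_smul_right, om_self hK, mul_zero, add_zero]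

theorem ed_heis (hK : Alt K) {v w : n → k} (hvw : om K v w = 0) (s : k) :
    (ed hK v w s).1 ∈ Heis v (v ᵥ* K) := by
  have h' : om K w v = 0 := by rw [om_skew hK, hvw, neg_zero]
  refine ⟨?_, fun x => ?_, fun x hx => ⟨s * om K w x, ?_⟩⟩
  · rw [ed_mulVec hK hvw, om_self hK, h', mul_zero, zero_smul, zero_smul, add_zero, add_zero]
  · rw [ed_mulVec hK hvw, psi_dot, psi_dot, om_add_right, om_add_right, om_smul_right,
      om_smul_right, om_self hK, hvw, mul_zero, mul_zero, add_zero, add_zero]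
  · rw [psi_dot] at hx
    rw [ed_mulVec hK hvw, hx, mul_zero, zero_smul, add_zero]

variable {k' : Type} [NontriviallyNormedField k']

theorem sv_add (σ : k →+* k') (v w : n → k) : sv σ (v + w) = sv σ v + sv σ w := by
  ext i; simp [sv]

theorem sv_smul (σ : k →+* k') (a : k) (v : n → k) : sv σ (a • v) = σ a • sv σ v := by
  ext i; simp [sv]

/-- matrices under a field embedding on vectors of the big field: rank one terms -/
theorem map_mulv (σ : k →+* k') (g : SpecialLinearGroup n k) {v w φ ψ : n → k} {s : k}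
    (hg : ∀ x, g.1 *ᵥ x = x + (s * (φ ⬝ᵥ x)) • v + (s * (ψ ⬝ᵥ x)) • w) (x : n → k') :
    (SpecialLinearGroup.map σ g).1 *ᵥ x =
      x + σ s • ((vecMulVec (sv σ v) (sv σ φ) + vecMulVec (sv σ w) (sv σ ψ)) *ᵥ x) := by
  have e : (SpecialLinearGroup.map σ g).1 =
      1 + σ s • (vecMulVec (sv σ v) (sv σ φ) + vecMulVec (sv σ w) (sv σ ψ)) := by
    ext i j
    have h1 := congrFun (hg (Pi.single j 1)) i
    rw [mulVec_single_one] at h1
    have h2 : g.1 i j = (Pi.single j (1 : k) : n → k) i + s * φ j * v i + s * ψ j * w i := by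
      have h3 := h1
      simp only [Pi.add_apply, Pi.smul_apply, smul_eq_mul, dotProduct_single_one] at h3
      exact h3
    change σ (g.1 i j) = _
    rw [h2]
    simp only [Matrix.add_apply, Matrix.smul_apply, vecMulVec_apply, sv, map_add, map_mul,
      smul_eq_mul, Matrix.one_apply, Pi.single_apply]
    split_ifs <;> simp <;> ring
  rw [e, add_mulVec, one_mulVec, smul_mulVec]

theorem two_mulv (v w φ ψ x : n → k') : (vecMulVec v φ + vecMulVec w ψ) *ᵥ x =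
    (φ ⬝ᵥ x) • v + (ψ ⬝ᵥ x) • w := by
  rw [add_mulVec, vecMulVec_mulVec, vecMulVec_mulVec, op_smul_eq_smul, op_smul_eq_smul]

/-- **(DISJ) for the Heisenberg groups of a symplectic group**, through a field embedding `σ`, a
homomorphism `ρ` whose range contains the symplectic group, and a homomorphism `ι` to any group
which acts on the target space. -/
theorem disj_sp {H G : Type*} [Group H] [Group G] [MulAction G (ℙ k' (n → k'))] (hK : Alt K)
    (σ : k →+* k') (hσ : ∃ t, 1 < ‖σ t‖) (ρ : H →* SpecialLinearGroup n k)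
    (hρ : ∀ g ∈ SpG K, ∃ h, ρ h = g) (ι : H →* G)
    (hι : ∀ h (x : ℙ k' (n → k')), ι h • x = SpecialLinearGroup.map σ (ρ h) • x)
    {v : n → k} (hv : v ≠ 0) :
    Disj ι {h | ρ h ∈ Heis v (v ᵥ* K)} (pj k' n ⟨sv σ v, sv_ne σ hv⟩) := by
  choose R hR using fun g : SpG K => hρ g.1 g.2
  have hRact : ∀ (g : SpG K) (x : {w : n → k' // w ≠ 0}),
      ι (R g) • pj k' n x = pj k' n ⟨(SpecialLinearGroup.map σ g.1).1 *ᵥ x.1,
        (smul_ne_zero_iff_ne (SpecialLinearGroup.map σ g.1)).2 x.2⟩ := by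
    intro g x
    rw [hι, hR]
    rfl
  have hψv : sv σ (v ᵥ* K) ⬝ᵥ sv σ v = 0 := by rw [sv_dot, psi_dot, om_self hK, map_zero]
  refine disj_unip σ hσ ι _ _ fun x₀ hx₀ => ?_
  by_cases hcase : sv σ (v ᵥ* K) ⬝ᵥ x₀.1 = 0
  · -- the Eichler transformations
    have hwd : wd x₀.1 (sv σ v) ≠ 0 := fun h => hx₀ ((pj_eq_iff _ _).2 h)
    obtain ⟨⟨i, j⟩, hij⟩ : ∃ p, wd x₀.1 (sv σ v) p ≠ 0 := by
      by_contra hc
      push Not at hc
      exact hwd (funext hc)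
    have hij' : x₀.1 i * σ (v j) - x₀.1 j * σ (v i) ≠ 0 := hij
    obtain ⟨φ, hφ⟩ : ∃ φ : n → k, φ = v j • (Pi.single i 1 : n → k) - v i • (Pi.single j 1) :=
      ⟨_, rfl⟩
    have hφv : φ ⬝ᵥ v = 0 := by
      rw [hφ, sub_dotProduct, smul_dotProduct, smul_dotProduct, single_dotProduct,
        single_dotProduct]
      simp only [smul_eq_mul]; ring
    have hφx : sv σ φ ⬝ᵥ x₀.1 ≠ 0 := by
      have e : sv σ φ = σ (v j) • (Pi.single i 1 : n → k') - σ (v i) • (Pi.single j 1) := by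
        ext a
        simp only [sv, hφ, Pi.sub_apply, Pi.smul_apply, smul_eq_mul, map_sub, map_mul]
        congr 2
        · by_cases h : a = i
          · subst h; simp
          · simp [h]
        · by_cases h : a = j
          · subst h; simp
          · simp [h]
      rw [e, sub_dotProduct, smul_dotProduct, smul_dotProduct, single_dotProduct,
        single_dotProduct]
      simp only [smul_eq_mul, one_mul]
      intro h
      apply hij'
      rw [← h]; ring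
    obtain ⟨w, hw⟩ : ∃ w : n → k, w ᵥ* K = φ :=
      ⟨φ ᵥ* K⁻¹, by rw [vecMul_vecMul, nonsing_inv_mul K (isUnit_iff_ne_zero.2 hK.det), vecMul_one]⟩
    have hwv : om K w v = 0 := by rw [← psi_dot, hw, hφv]
    have hvw : om K v w = 0 := by rw [om_skew hK, hwv, neg_zero]
    -- the two vectors are independent over `k'`
    have hind : ∀ c : k', sv σ w ≠ c • sv σ v := by
      intro c hc
      apply hφx
      obtain ⟨i₀, hi₀⟩ := Function.ne_iff.1 hv
      have hi₁ : v i₀ ≠ 0 := hi₀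
      have e1 : c = σ (w i₀ / v i₀) := by
        have h1 := congrFun hc i₀
        simp only [sv, Pi.smul_apply, smul_eq_mul] at h1
        rw [map_div₀, h1, mul_div_assoc, div_self ((map_ne_zero σ).2 hi₁), mul_one]
      have e2 : w = (w i₀ / v i₀) • v := by
        funext a
        have h1 := congrFun hc a
        rw [e1] at h1
        simp only [sv, Pi.smul_apply, smul_eq_mul, ← map_mul] at h1
        exact σ.injective h1
      rw [← hw, e2, smul_vecMul, sv_smul, smul_dotProduct, hcase, smul_zero]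
    obtain ⟨d, hd, hdl⟩ := lower_two hind (sv_ne σ hv)
    refine ⟨vecMulVec (sv σ v) (sv σ φ) + vecMulVec (sv σ w) (sv σ (v ᵥ* K)), sv σ φ, d,
      fun s => R (ed hK v w s), hd, fun x => ?_, fun x => ?_, fun x => ?_, hφx, fun s => ?_,
      fun s x => ?_⟩
    · rw [two_mulv, two_mulv]
      simp only [dotProduct_add, dotProduct_smul, sv_dot, hφv, psi_dot, hvw, hwv, om_self hK, ← hw,
        map_zero, smul_zero, add_zero, zero_smul]
    · rw [two_mulv]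
      simp only [dotProduct_add, dotProduct_smul, sv_dot, hφv, psi_dot, hvw, hwv, om_self hK, ← hw,
        map_zero, smul_zero, add_zero, zero_smul]
    · rw [two_mulv]
      exact hdl _ _
    · change ρ (R (ed hK v w s)) ∈ Heis v (v ᵥ* K)
      rw [hR]
      exact ed_heis hK hvw s
    · have e := map_mulv σ (ed hK v w s).1 (v := v) (w := w) (φ := φ) (ψ := v ᵥ* K) (s := s)
        (fun y => by rw [ed_mulVec hK hvw, ← hw, psi_dot, psi_dot]; abel) x.1
      refine ⟨?_, ?_⟩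
      · rw [← e]
        exact (smul_ne_zero_iff_ne (SpecialLinearGroup.map σ (ed hK v w s).1)).2 x.2
      · rw [hRact]
        congr 1
        exact Subtype.ext e
  · -- the transvections
    obtain ⟨d, hd⟩ : ∃ d : ℝ, d = ‖sv σ v‖ := ⟨_, rfl⟩
    have hd0 : 0 < d := by rw [hd]; exact norm_pos_iff.2 (sv_ne σ hv)
    refine ⟨vecMulVec (sv σ v) (sv σ (v ᵥ* K)) + vecMulVec (sv σ 0) (sv σ 0), sv σ (v ᵥ* K), d,
      fun s => R (tr hK v s), hd0, fun x => ?_, fun x => ?_, fun x => ?_, hcase, fun s => ?_,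
      fun s x => ?_⟩
    · have e0 : sv σ (0 : n → k) = 0 := by ext i; simp [sv]
      rw [two_mulv, two_mulv, e0]
      simp only [smul_zero, add_zero, dotProduct_smul, hψv, zero_smul]
    · have e0 : sv σ (0 : n → k) = 0 := by ext i; simp [sv]
      rw [two_mulv, e0]
      simp only [smul_zero, add_zero, dotProduct_smul, hψv]
    · have e0 : sv σ (0 : n → k) = 0 := by ext i; simp [sv]
      rw [two_mulv, e0, smul_zero, add_zero, norm_smul, hd, mul_comm]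
    · change ρ (R (tr hK v s)) ∈ Heis v (v ᵥ* K)
      rw [hR]
      exact tr_heis hK v s
    · have e := map_mulv σ (tr hK v s).1 (v := v) (w := 0) (φ := v ᵥ* K) (ψ := 0) (s := s)
        (fun y => by rw [tr_mulVec, psi_dot, smul_zero, add_zero]) x.1
      refine ⟨?_, ?_⟩
      · rw [← e]
        exact (smul_ne_zero_iff_ne (SpecialLinearGroup.map σ (tr hK v s).1)).2 x.2
      · rw [hRact]
        congr 1
        exact Subtype.ext e

end sp

end Vale.Agent.P092.H325
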