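import Vale.Agent.P092.H325.DisjU
import Vale.Agent.P092.H714.SgM
import Vale.Agent.P092.H35.Sig

/-!
P092 (helper325), row [P3-XC], stages 3/4: Eichler transformations of a hermitian / symmetric /
alternating form of Witt index at least two move the neighbourhoods of all points different from
`[τ v]` (`v` isotropic) to disjoint sets (`disj_fm`).
-/

set_option linter.all false

open Filter Topology Set Matrix MeasureTheory
open scoped LinearAlgebra.Projectivization

namespace Vale.Agent.P092.H325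

open Vale.Agent.P092.H820
open Vale.Agent.P092.H714.Cl
open Vale.Agent.P092.H714.Sg (Fm)
open Vale.Agent.P092.H715.Disj (Disj nbd nbd_open exists_far sv sv_ne sv_dot)

section alg

variable {n k : Type} [Fintype n] [DecidableEq n] [Field k] {σ : k →+* k} {ε : k}
  {K : Matrix n n k}

/-- `h(., y)` as a vector -/
def fnl (σ : k →+* k) (K : Matrix n n k) (y : n → k) : n → k := K *ᵥ fun i => σ (y i)

theorem dot_fnl (x y : n → k) : fnl σ K y ⬝ᵥ x = hf σ K x y := by
  rw [dotProduct_comm]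
  rfl

theorem fnl_add (y z : n → k) : fnl σ K (y + z) = fnl σ K y + fnl σ K z := by
  unfold fnl
  rw [← mulVec_add]
  congr 1
  ext i
  simp

theorem fnl_smul (a : k) (y : n → k) : fnl σ K (a • y) = σ a • fnl σ K y := by
  unfold fnl
  rw [← mulVec_smul]
  congr 1
  ext i
  simp

theorem fnl_zero : fnl σ K 0 = 0 := by
  have := fnl_smul (σ := σ) (K := K) 0 0
  simpa using this

theorem fm_det (hF : Fm σ ε K) : K.det ≠ 0 := by
  intro h0
  obtain ⟨x, hx, hx0⟩ := Matrix.exists_vecMul_eq_zero_iff.2 h0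
  obtain ⟨y, hy⟩ := hF.nondeg x hx
  apply hy
  unfold hf
  rw [dotProduct_mulVec, hx0, zero_dotProduct]

/-- every functional is `h(., y)` -/
theorem exists_fnl (hF : Fm σ ε K) (φ : n → k) : ∃ y, fnl σ K y = φ := by
  have hu : IsUnit K.det := isUnit_iff_ne_zero.2 (fm_det hF)
  refine ⟨fun i => σ ((K⁻¹ *ᵥ φ) i), ?_⟩
  unfold fnl
  have e : (fun i => σ (σ ((K⁻¹ *ᵥ φ) i))) = K⁻¹ *ᵥ φ := funext fun i => hF.inv _
  rw [e, mulVec_mulVec, mul_nonsing_inv K hu, one_mulVec]

/-- **the isotropic vectors of `v^⊥` span it** (form with two orthogonal isotropic vectors) -/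
theorem span_perp (hF : Fm σ ε K) {v w : n → k} (hw : hf σ K w w = 0)
    (hvw : hf σ K v w = 0) (hi : w ∉ Submodule.span k {v}) (Y : Submodule k (n → k))
    (hY : ∀ y, hf σ K y y = 0 → hf σ K v y = 0 → y ∈ Y) {y : n → k} (hy : hf σ K v y = 0) :
    y ∈ Y := by
  have hwv : hf σ K w v = 0 := hF.symm0 hvw
  obtain ⟨f, hff, hwf, hpf⟩ := hF.partner (Y := Submodule.span k {v}) hw hi (fun z hz => by
    obtain ⟨a, rfl⟩ := Submodule.mem_span_singleton.1 hz
    rw [hf_smul_left, hvw, mul_zero])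
  have hvf : hf σ K v f = 0 := hpf v (Submodule.mem_span_singleton_self v)
  have hfw : hf σ K f w = ε := by rw [hF.herm, hwf, map_one, mul_one]
  have hyv : hf σ K y v = 0 := hF.symm0 hy
  -- the component orthogonal to `w`, `f`
  obtain ⟨y₁, hy₁⟩ : ∃ y₁, y₁ = y + (-hf σ K y f) • w + (-(ε * hf σ K y w)) • f := ⟨_, rfl⟩
  have a1 : hf σ K y₁ f = 0 := by
    rw [hy₁, hf_add_left, hf_add_left, hf_smul_left, hf_smul_left, hwf, hff]; ring
  have a2 : hf σ K y₁ w = 0 := by
    rw [hy₁, hf_add_left, hf_add_left, hf_smul_left, hf_smul_left, hw, hfw]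
    linear_combination -(hf σ K y w) * hF.eps
  have a3 : hf σ K v y₁ = 0 := by
    rw [hy₁, hf_add_right, hf_add_right, hf_smul_right, hf_smul_right, hy, hvw, hvf]; ring
  have a4 : hf σ K w y₁ = 0 := hF.symm0 a2
  have a5 : hf σ K f y₁ = 0 := hF.symm0 a1
  obtain ⟨β, hβ⟩ := hF.tv y₁
  obtain ⟨z, hz⟩ : ∃ z, z = y₁ + w + (-σ β) • f := ⟨_, rfl⟩
  have b1 : hf σ K z z = 0 := by
    rw [hz]
    simp only [hf_add_left, hf_add_right, hf_smul_left, hf_smul_right, a1, a2, a4, a5, hw, hwf,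
      hfw, hff, hβ, map_neg, hF.inv]
    ring
  have b2 : hf σ K v z = 0 := by
    rw [hz, hf_add_right, hf_add_right, hf_smul_right, a3, hvw, hvf]; ring
  have c1 : z ∈ Y := hY z b1 b2
  have c2 : w ∈ Y := hY w hw hvw
  have c3 : f ∈ Y := hY f hff hvf
  have c4 : y₁ ∈ Y := by
    have e : y₁ = z - w - (-σ β) • f := by rw [hz]; abel
    rw [e]
    exact Y.sub_mem (Y.sub_mem c1 c2) (Y.smul_mem _ c3)
  have e : y = y₁ - (-hf σ K y f) • w - (-(ε * hf σ K y w)) • f := by rw [hy₁]; abel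
  rw [e]
  exact Y.sub_mem (Y.sub_mem c4 (Y.smul_mem _ c2)) (Y.smul_mem _ c3)

end alg

section unb

variable {k k' : Type} [Field k] [Infinite k] [NontriviallyNormedField k'] [ProperSpace k']

/-- the field of the fixed elements of an involution -/
def fixF (σ : k →+* k) : Subfield k where
  carrier := {x | σ x = x}
  mul_mem' := fun {a b} ha hb => by
    change σ (a * b) = a * b
    rw [map_mul, show σ a = a from ha, show σ b = b from hb]
  one_mem' := map_one σ
  add_mem' := fun {a b} ha hb => by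
    change σ (a + b) = a + b
    rw [map_add, show σ a = a from ha, show σ b = b from hb]
  zero_mem' := map_zero σ
  neg_mem' := fun {a} ha => by
    change σ (-a) = -a
    rw [map_neg, show σ a = a from ha]
  inv_mem' := fun a ha => by
    change σ a⁻¹ = a⁻¹
    rw [map_inv₀, show σ a = a from ha]

/-- the fixed field is unbounded under every embedding -/
theorem unb_fix {σ : k →+* k} (hσ : ∀ x, σ (σ x) = x) (τ : k →+* k') :
    ∃ t : fixF σ, 1 < ‖(τ.comp (fixF σ).subtype) t‖ := by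
  by_contra hcon
  push Not at hcon
  obtain ⟨x, hx⟩ := H35.Sig.unb' τ 2
  have h1 := hcon ⟨x + σ x, by
    change σ (x + σ x) = x + σ x
    rw [map_add, hσ, add_comm]⟩
  have h2 := hcon ⟨x * σ x, by
    change σ (x * σ x) = x * σ x
    rw [map_mul, hσ, mul_comm]⟩
  have h1' : ‖τ (x + σ x)‖ ≤ 1 := h1
  have h2' : ‖τ (x * σ x)‖ ≤ 1 := h2
  have e : τ x * τ x = τ (x + σ x) * τ x - τ (x * σ x) := by
    rw [← map_mul, ← map_mul, ← map_sub]
    congr 1
    ring
  have h3 : ‖τ x‖ * ‖τ x‖ ≤ 1 * ‖τ x‖ + 1 := by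
    rw [← norm_mul, e]
    refine (norm_sub_le _ _).trans ?_
    rw [norm_mul]
    gcongr
  nlinarith

end unb

section ind

variable {n k k' : Type} [Fintype n] [DecidableEq n] [Field k] [Field k']

/-- independent vectors stay independent over the big field -/
theorem sv_indep (τ : k →+* k') {v w : n → k} (hv : v ≠ 0) (h : ∀ c : k, w ≠ c • v) (c : k') :
    sv τ w ≠ c • sv τ v := by
  intro hc
  obtain ⟨i₀, hi₀⟩ := Function.ne_iff.1 hv
  have hi₁ : v i₀ ≠ 0 := hi₀
  have e1 : c = τ (w i₀ / v i₀) := by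
    have h1 := congrFun hc i₀
    simp only [sv, Pi.smul_apply, smul_eq_mul] at h1
    rw [map_div₀, h1, mul_div_assoc, div_self ((map_ne_zero τ).2 hi₁), mul_one]
  refine h (w i₀ / v i₀) (funext fun a => ?_)
  have h1 := congrFun hc a
  rw [e1] at h1
  simp only [sv, Pi.smul_apply, smul_eq_mul, ← map_mul] at h1
  exact τ.injective h1

end ind

section disj

variable {n k : Type} [Fintype n] [DecidableEq n] [Field k] {σ : k →+* k} {ε : k}
  {K : Matrix n n k}

/-- the Eichler transformations of the point `v` are in the range of `ρ` (columns) -/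
def HasE (σ : k →+* k) (ε : k) (K : Matrix n n k) {H : Type*} [Group H]
    (ρ : H →* SpecialLinearGroup n k) (v : n → k) : Prop :=
  ∀ w, hf σ K w w = 0 → hf σ K v w = 0 → ∀ s, σ s = s → ∃ h, ∀ x,
    (ρ h).1 *ᵥ x = x + (s * hf σ K x v) • w + (s * hf σ K x w) • ((-ε) • v)

variable {k' : Type} [NontriviallyNormedField k'] [ProperSpace k'] [Infinite k]

/-- **(DISJ) for the Eichler transformations of an isotropic vector** `v` of a form with an
isotropic `w₀ ⊥ v`, `w₀ ∉ k v` -/
theorem disj_fm {H G : Type*} [Group H] [Group G] [MulAction G (ℙ k' (n → k'))]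
    (hF : Fm σ ε K) (τ : k →+* k') (ρ : H →* SpecialLinearGroup n k) (ι : H →* G)
    (hι : ∀ h (x : ℙ k' (n → k')), ι h • x = SpecialLinearGroup.map τ (ρ h) • x)
    {v w₀ : n → k} (hv0 : v ≠ 0) (hv : hf σ K v v = 0) (hE : HasE σ ε K ρ v)
    (hw : hf σ K w₀ w₀ = 0) (hvw : hf σ K v w₀ = 0) (hi : w₀ ∉ Submodule.span k {v}) :
    Disj ι {h | ρ h ∈ Heis v (fnl σ K v)} (pj k' n ⟨sv τ v, sv_ne τ hv0⟩) := by
  have hε : ε ≠ 0 := by
    rintro rfl
    have := hF.eps
    rw [mul_zero] at this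
    exact zero_ne_one this
  refine disj_unip (τ.comp (fixF σ).subtype) (unb_fix hF.inv τ) ι _ _ fun x₀ hx₀ => ?_
  -- the vector `w`
  obtain ⟨w, hww, hvw', hwi, φ, hφ, hφx⟩ : ∃ w, hf σ K w w = 0 ∧ hf σ K v w = 0 ∧
      (∀ c : k, w ≠ c • v) ∧ ∃ φ : n → k, (φ = fnl σ K v ∨ φ = fnl σ K w) ∧
        sv τ φ ⬝ᵥ x₀.1 ≠ 0 := by
    by_cases hcase : sv τ (fnl σ K v) ⬝ᵥ x₀.1 = 0
    · by_contra hcon
      push Not at hcon
      -- all functionals which vanish at `v` vanish at `x₀`
      have hall : ∀ φ : n → k, φ ⬝ᵥ v = 0 → sv τ φ ⬝ᵥ x₀.1 = 0 := by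
        intro φ hφ
        obtain ⟨y, rfl⟩ := exists_fnl hF φ
        rw [dot_fnl] at hφ
        let Y : Submodule k (n → k) :=
          { carrier := {y | sv τ (fnl σ K y) ⬝ᵥ x₀.1 = 0}
            add_mem' := by
              intro a b ha hb
              change sv τ (fnl σ K (a + b)) ⬝ᵥ x₀.1 = 0
              rw [fnl_add, sv_add, add_dotProduct, show _ = _ from ha, show _ = _ from hb,
                add_zero]
            zero_mem' := by
              change sv τ (fnl σ K 0) ⬝ᵥ x₀.1 = 0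
              rw [fnl_zero]
              have e0 : sv τ (0 : n → k) = 0 := by ext i; simp [sv]
              rw [e0, zero_dotProduct]
            smul_mem' := by
              intro c a ha
              change sv τ (fnl σ K (c • a)) ⬝ᵥ x₀.1 = 0
              rw [fnl_smul, sv_smul, smul_dotProduct, show _ = _ from ha, smul_zero] }
        refine span_perp hF hw hvw hi Y (fun y h1 h2 => ?_) hφ
        by_cases hyc : ∀ c : k, y ≠ c • v
        · exact hcon y h1 h2 hyc _ (Or.inr rfl)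
        · push Not at hyc
          obtain ⟨c, rfl⟩ := hyc
          change sv τ (fnl σ K (c • v)) ⬝ᵥ x₀.1 = 0
          rw [fnl_smul, sv_smul, smul_dotProduct, hcase, smul_zero]
      have hwd : wd x₀.1 (sv τ v) ≠ 0 := fun h => hx₀ ((pj_eq_iff _ _).2 h)
      obtain ⟨⟨i, j⟩, hij⟩ : ∃ p, wd x₀.1 (sv τ v) p ≠ 0 := by
        by_contra hc
        push Not at hc
        exact hwd (funext hc)
      apply hij
      have h1 := hall (v j • (Pi.single i 1 : n → k) - v i • (Pi.single j 1)) (by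
        rw [sub_dotProduct, smul_dotProduct, smul_dotProduct, single_dotProduct,
          single_dotProduct]
        simp only [smul_eq_mul]; ring)
      have e : sv τ (v j • (Pi.single i 1 : n → k) - v i • (Pi.single j 1)) =
          τ (v j) • (Pi.single i 1 : n → k') - τ (v i) • (Pi.single j 1) := by
        ext a
        simp only [sv, Pi.sub_apply, Pi.smul_apply, smul_eq_mul, map_sub, map_mul]
        congr 2
        · by_cases h : a = i
          · subst h; simp
          · simp [h]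
        · by_cases h : a = j
          · subst h; simp
          · simp [h]
      rw [e, sub_dotProduct, smul_dotProduct, smul_dotProduct, single_dotProduct,
        single_dotProduct] at h1
      simp only [smul_eq_mul, one_mul] at h1
      change x₀.1 i * τ (v j) - x₀.1 j * τ (v i) = 0
      linear_combination h1
    · refine ⟨w₀, hw, hvw, fun c hc => hi ?_, _, Or.inl rfl, hcase⟩
      exact Submodule.mem_span_singleton.2 ⟨c, hc.symm⟩
  have hwv : hf σ K w v = 0 := hF.symm0 hvw'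
  have hw0 : w ≠ 0 := fun h => hwi 0 (by rw [h, zero_smul])
  choose u hu using fun s : fixF σ => hE w hww hvw' s s.2
  -- independence in both orders
  obtain ⟨v', hv'⟩ : ∃ v' : n → k, v' = (-ε) • v := ⟨_, rfl⟩
  have hv'0 : v' ≠ 0 := by
    rw [hv']
    exact smul_ne_zero (neg_ne_zero.2 hε) hv0
  have i1 : ∀ c : k, v' ≠ c • w := by
    intro c hc
    rcases eq_or_ne c 0 with rfl | hc0
    · exact hv'0 (by rw [hc, zero_smul])
    · refine hwi (c⁻¹ * (-ε)) ?_
      rw [mul_smul, ← hv', hc, smul_smul, inv_mul_cancel₀ hc0, one_smul]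
  have i2 : ∀ c : k, w ≠ c • v' := by
    intro c hc
    refine hwi (c * (-ε)) ?_
    rw [mul_smul, ← hv']
    exact hc
  obtain ⟨d₁, hd₁, hl₁⟩ := lower_two (sv_indep τ hw0 i1) (sv_ne τ hw0)
  obtain ⟨d₂, hd₂, hl₂⟩ := lower_two (sv_indep τ hv'0 i2) (sv_ne τ hv'0)
  have z1 : sv τ (fnl σ K v) ⬝ᵥ sv τ w = 0 := by rw [sv_dot, dot_fnl, hwv, map_zero]
  have z2 : sv τ (fnl σ K v) ⬝ᵥ sv τ v' = 0 := by
    rw [sv_dot, dot_fnl, hv', hf_smul_left, hv, mul_zero, map_zero]
  have z3 : sv τ (fnl σ K w) ⬝ᵥ sv τ w = 0 := by rw [sv_dot, dot_fnl, hww, map_zero]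
  have z4 : sv τ (fnl σ K w) ⬝ᵥ sv τ v' = 0 := by
    rw [sv_dot, dot_fnl, hv', hf_smul_left, hvw', mul_zero, map_zero]
  have zφ1 : sv τ φ ⬝ᵥ sv τ w = 0 := by
    rcases hφ with rfl | rfl
    · exact z1
    · exact z3
  have zφ2 : sv τ φ ⬝ᵥ sv τ v' = 0 := by
    rcases hφ with rfl | rfl
    · exact z2
    · exact z4
  have hbd : ∃ d : ℝ, 0 < d ∧ ∀ x : n → k', d * ‖sv τ φ ⬝ᵥ x‖ ≤
      ‖(sv τ (fnl σ K v) ⬝ᵥ x) • sv τ w + (sv τ (fnl σ K w) ⬝ᵥ x) • sv τ v'‖ := by
    rcases hφ with rfl | rfl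
    · exact ⟨d₁, hd₁, fun x => hl₁ _ _⟩
    · refine ⟨d₂, hd₂, fun x => ?_⟩
      rw [add_comm]
      exact hl₂ _ _
  obtain ⟨d, hd, hdl⟩ := hbd
  refine ⟨vecMulVec (sv τ w) (sv τ (fnl σ K v)) + vecMulVec (sv τ v') (sv τ (fnl σ K w)),
    sv τ φ, d, u, hd, fun x => ?_, fun x => ?_, fun x => ?_, hφx, fun s => ?_, fun s x => ?_⟩
  · rw [two_mulv, two_mulv]
    simp only [dotProduct_add, dotProduct_smul, z1, z2, z3, z4, smul_zero, add_zero, zero_smul]
  · rw [two_mulv]
    simp only [dotProduct_add, dotProduct_smul, zφ1, zφ2, smul_zero, add_zero]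
  · rw [two_mulv]
    exact hdl x
  · refine ⟨?_, fun x => ?_, fun x hx => ⟨(s : k) * hf σ K x w * (-ε), ?_⟩⟩
    · rw [hu, hv, hvw', mul_zero, zero_smul, zero_smul, add_zero, add_zero]
    · rw [hu, dot_fnl, dot_fnl]
      simp only [hf_add_left, hf_smul_left, hwv, hv, mul_zero, add_zero]
    · rw [dot_fnl] at hx
      rw [hu, hx, mul_zero, zero_smul, add_zero, smul_smul]
  · have e := map_mulv τ (ρ (u s)) (v := w) (w := v') (φ := fnl σ K v) (ψ := fnl σ K w)
      (s := (s : k)) (fun y => by rw [hu, dot_fnl, dot_fnl, hv']) x.1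
    refine ⟨?_, ?_⟩
    · change x.1 + τ s • _ ≠ 0
      rw [← e]
      exact (smul_ne_zero_iff_ne (SpecialLinearGroup.map τ (ρ (u s)))).2 x.2
    · rw [hι]
      change pj k' n ⟨(SpecialLinearGroup.map τ (ρ (u s))).1 *ᵥ x.1, _⟩ = _
      congr 1
      exact Subtype.ext e

end disj

end Vale.Agent.P092.H325
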