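import Vale.Agent.P092.H325.FmXc

/-!
P092 (helper325), row [P3-XC]: forms of Witt index at least two: the isotropic vectors avoid
finitely many hyperplanes (`avoid`), they span (`span_iso`), there is a projective frame of
isotropic points (`exists_frame`), `goodFr_fm`; Eichler transformations (`hasE_of`, `hasE_tv`).
-/

set_option linter.all false

open Filter Topology Set Matrix
open scoped LinearAlgebra.Projectivization

namespace Vale.Agent.P092.H325

open Vale.Agent.P092.H820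
open Vale.Agent.P092.H714.Cl
open Vale.Agent.P092.H714.Sg (Fm)
open Vale.Agent.P092.H715.Disj (nn nn_mulVec)

section avoid

variable {n k : Type} [Fintype n] [DecidableEq n] [Field k] {σ : k →+* k} {ε : k}
  {K : Matrix n n k}

/-- Witt index at least two -/
def Wi2 (σ : k →+* k) (K : Matrix n n k) : Prop :=
  ∀ x : n → k, x ≠ 0 → hf σ K x x = 0 →
    ∃ w, hf σ K w w = 0 ∧ hf σ K x w = 0 ∧ w ∉ Submodule.span k {x}

theorem exists_avoid [Infinite k] {ι : Type*} (S : Finset ι) (a b : ι → k)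
    (h : ∀ i ∈ S, a i ≠ 0 ∨ b i ≠ 0) : ∃ t : k, t ≠ 0 ∧ ∀ i ∈ S, a i + t * b i ≠ 0 := by
  classical
  obtain ⟨t, ht⟩ := Infinite.exists_notMem_finset (insert 0 (S.image fun i => -a i / b i))
  rw [Finset.mem_insert, not_or] at ht
  refine ⟨t, ht.1, fun i hi h0 => ?_⟩
  rcases eq_or_ne (b i) 0 with hb | hb
  · rw [hb, mul_zero, add_zero] at h0
    exact (h i hi).elim (fun h => h h0) (fun h => h hb)
  · apply ht.2
    refine Finset.mem_image.2 ⟨i, hi, ?_⟩
    rw [div_eq_iff hb]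
    linear_combination -h0

/-- sums of orthogonal isotropic vectors -/
theorem iso_add (hF : Fm σ ε K) {x w : n → k} (hx : hf σ K x x = 0) (hw : hf σ K w w = 0)
    (h : hf σ K x w = 0) (t : k) : hf σ K (x + t • w) (x + t • w) = 0 := by
  have h' : hf σ K w x = 0 := hF.symm0 h
  simp only [hf_add_left, hf_add_right, hf_smul_left, hf_smul_right, hx, hw, h, h', mul_zero,
    add_zero]

theorem avoid_A [Infinite k] (hF : Fm σ ε K) {x w : n → k} (hx : hf σ K x x = 0)
    (hw : hf σ K w w = 0) (h : hf σ K x w = 0) (S : Finset ((n → k) →ₗ[k] k))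
    (hS : ∀ f ∈ S, f x ≠ 0) {φ : (n → k) →ₗ[k] k} (hφ : φ w ≠ 0) :
    ∃ x' : n → k, x' ≠ 0 ∧ hf σ K x' x' = 0 ∧ (∀ f ∈ S, f x' ≠ 0) ∧ φ x' ≠ 0 := by
  classical
  obtain ⟨t, -, ht⟩ := exists_avoid (insert φ S) (fun f => f x) (fun f => f w) (by
    intro f hf
    rcases Finset.mem_insert.1 hf with rfl | hf
    · exact Or.inr hφ
    · exact Or.inl (hS f hf))
  have h1 : ∀ f ∈ insert φ S, f (x + t • w) ≠ 0 := by
    intro f hf
    rw [map_add, map_smul, smul_eq_mul]
    exact ht f hf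
  have h2 := h1 φ (Finset.mem_insert_self _ _)
  refine ⟨x + t • w, ?_, iso_add hF hx hw h t, fun f hf => h1 f (Finset.mem_insert_of_mem hf), h2⟩
  intro h0
  rw [h0, map_zero] at h2
  exact h2 rfl

theorem avoid_B (hF : Fm σ ε K) (hW : Wi2 σ K) {x : n → k} (hx0 : x ≠ 0) (hx : hf σ K x x = 0)
    {φ : (n → k) →ₗ[k] k} (hno : ∀ w, hf σ K w w = 0 → hf σ K x w = 0 → φ w = 0) {y : n → k}
    (hy : hf σ K x y = 0) : φ y = 0 := by
  obtain ⟨w, h1, h2, h3⟩ := hW x hx0 hx
  have := span_perp hF h1 h2 h3 (LinearMap.ker φ) (fun y a b => LinearMap.mem_ker.2 (hno y a b)) hy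
  exact LinearMap.mem_ker.1 this

theorem avoid_step [Infinite k] (hF : Fm σ ε K) (hW : Wi2 σ K) {x : n → k} (hx0 : x ≠ 0)
    (hx : hf σ K x x = 0) (S : Finset ((n → k) →ₗ[k] k)) (hS : ∀ f ∈ S, f x ≠ 0)
    {φ : (n → k) →ₗ[k] k} (hφ : φ ≠ 0) :
    ∃ x' : n → k, x' ≠ 0 ∧ hf σ K x' x' = 0 ∧ (∀ f ∈ S, f x' ≠ 0) ∧ φ x' ≠ 0 := by
  by_cases hex : ∃ w, hf σ K w w = 0 ∧ hf σ K x w = 0 ∧ φ w ≠ 0
  · obtain ⟨w, h1, h2, h3⟩ := hex
    exact avoid_A hF hx h1 h2 S hS h3
  · push Not at hex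
    obtain ⟨w, hw, hxw, hi⟩ := hW x hx0 hx
    obtain ⟨t, ht0, ht⟩ := exists_avoid S (fun f => f x) (fun f => f w)
      (fun f hf => Or.inl (hS f hf))
    obtain ⟨z, hz⟩ : ∃ z, z = x + t • w := ⟨_, rfl⟩
    have hxz : x ∉ Submodule.span k {z} := by
      intro hmem
      obtain ⟨c, hc⟩ := Submodule.mem_span_singleton.1 hmem
      rcases eq_or_ne c 0 with rfl | hc0
      · exact hx0 (by rw [← hc, zero_smul])
      · apply hi
        refine Submodule.mem_span_singleton.2 ⟨(1 - c) / (c * t), ?_⟩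
        have h1 : (1 - c) • x = (c * t) • w := by
          rw [sub_smul, one_smul, mul_smul]
          nth_rewrite 1 [← hc]
          rw [hz, smul_add]
          abel
        rw [div_eq_inv_mul, mul_smul, h1, smul_smul, inv_mul_cancel₀ (mul_ne_zero hc0 ht0),
          one_smul]
    have hz0 : z ≠ 0 := by
      intro h0
      apply hi
      refine Submodule.mem_span_singleton.2 ⟨-t⁻¹, ?_⟩
      have h1 : t • w = -x := by
        rw [h0] at hz
        exact (neg_eq_of_add_eq_zero_right hz.symm).symm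
      have h2 : w = t⁻¹ • (t • w) := by rw [smul_smul, inv_mul_cancel₀ ht0, one_smul]
      rw [h2, h1, smul_neg, neg_smul]
    have hzz : hf σ K z z = 0 := by rw [hz]; exact iso_add hF hx hw hxw t
    have hSz : ∀ f ∈ S, f z ≠ 0 := by
      intro f hf
      rw [hz, map_add, map_smul, smul_eq_mul]
      exact ht f hf
    by_cases hex' : ∃ w, hf σ K w w = 0 ∧ hf σ K z w = 0 ∧ φ w ≠ 0
    · obtain ⟨w, h1, h2, h3⟩ := hex'
      exact avoid_A hF hzz h1 h2 S hSz h3
    · push Not at hex'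
      exfalso
      apply hφ
      obtain ⟨v, hv1, hv2⟩ := hF.sep (Y := Submodule.span k {z}) hxz
      have hv3 : φ v = 0 :=
        avoid_B hF hW hz0 hzz hex' (hv2 z (Submodule.mem_span_singleton_self z))
      refine LinearMap.ext fun y => ?_
      rw [LinearMap.zero_apply]
      have h1 : φ (y + (-σ (hf σ K x y)) • v) = 0 := by
        refine avoid_B hF hW hx0 hx hex ?_
        rw [hf_add_right, hf_smul_right, hv1, map_neg, hF.inv]
        ring
      rw [map_add, map_smul, hv3, smul_zero, add_zero] at h1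
      exact h1

/-- **the isotropic vectors avoid finitely many hyperplanes** -/
theorem avoid [Infinite k] (hF : Fm σ ε K) (hW : Wi2 σ K) (S : Finset ((n → k) →ₗ[k] k))
    (hS : ∀ f ∈ S, f ≠ 0) : ∃ x : n → k, x ≠ 0 ∧ hf σ K x x = 0 ∧ ∀ f ∈ S, f x ≠ 0 := by
  classical
  induction S using Finset.induction_on with
  | empty =>
    obtain ⟨u, hu0, hu⟩ := hF.iso
    exact ⟨u, hu0, hu, by simp⟩
  | insert φ S _ ih =>
    obtain ⟨x, hx0, hx, h⟩ := ih fun f hf => hS f (Finset.mem_insert_of_mem hf)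
    obtain ⟨x', h1, h2, h3, h4⟩ := avoid_step hF hW hx0 hx S h (hS φ (Finset.mem_insert_self _ _))
    refine ⟨x', h1, h2, fun f hf => ?_⟩
    rcases Finset.mem_insert.1 hf with rfl | hf
    · exact h4
    · exact h3 f hf

theorem span_iso [Infinite k] (hF : Fm σ ε K) (hW : Wi2 σ K) :
    Submodule.span k {x : n → k | hf σ K x x = 0} = ⊤ := by
  classical
  by_contra hne
  obtain ⟨u, hu⟩ : ∃ u, u ∉ Submodule.span k {x : n → k | hf σ K x x = 0} := by
    by_contra hc
    push Not at hc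
    exact hne (eq_top_iff.2 fun u _ => hc u)
  obtain ⟨f, hf0, hle⟩ := Submodule.exists_le_ker_of_notMem hu
  obtain ⟨x, -, hx, h⟩ := avoid hF hW {f} (fun g hg => by
    rw [Finset.mem_singleton.1 hg]
    rintro rfl
    exact hf0 rfl)
  exact h f (Finset.mem_singleton_self f) (LinearMap.mem_ker.1 (hle (Submodule.subset_span hx)))

end avoid

section frame

variable {k : Type} [Field k] [Infinite k] {N : ℕ} {σ : k →+* k} {ε : k}
  {K : Matrix (Fin (N + 1)) (Fin (N + 1)) k}

/-- **a projective frame of isotropic points** -/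
theorem exists_frame (hF : Fm σ ε K) (hW : Wi2 σ K) : ∃ B : GL (Fin (N + 1)) k,
    (∀ i, hf σ K (B.1 *ᵥ Pi.single i 1) (B.1 *ᵥ Pi.single i 1) = 0) ∧
      hf σ K (B.1 *ᵥ fun _ => 1) (B.1 *ᵥ fun _ => 1) = 0 := by
  classical
  obtain ⟨b, hb⟩ : ∃ b : Module.Basis (Fin (N + 1)) k (Fin (N + 1) → k), ∀ i,
      hf σ K (b i) (b i) = 0 := by
    have hs : ⊤ ≤ Submodule.span k {x : Fin (N + 1) → k | hf σ K x x = 0} :=
      (span_iso hF hW).ge
    let b₀ := Module.Basis.ofSpan hs
    haveI : Fintype ((linearIndepOn_empty k id).extend (Set.empty_subset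
        {x : Fin (N + 1) → k | hf σ K x x = 0})) := FiniteDimensional.fintypeBasisIndex b₀
    have hc := Module.finrank_eq_card_basis b₀
    rw [Module.finrank_fin_fun] at hc
    let e := Fintype.equivFinOfCardEq hc.symm
    refine ⟨b₀.reindex e, fun i => ?_⟩
    rw [Module.Basis.reindex_apply]
    exact Module.Basis.ofSpan_subset hs ⟨_, rfl⟩
  obtain ⟨x, -, hx, hc⟩ := avoid hF hW (Finset.univ.image fun i => b.coord i) (by
    intro f hf h0
    obtain ⟨i, -, rfl⟩ := Finset.mem_image.1 hf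
    have := congrArg (fun g => g (b i)) h0
    simp at this)
  have hc' : ∀ i, b.repr x i ≠ 0 := fun i =>
    hc (b.coord i) (Finset.mem_image.2 ⟨i, Finset.mem_univ i, rfl⟩)
  let B : Matrix (Fin (N + 1)) (Fin (N + 1)) k := Matrix.of fun r i => b.repr x i * b i r
  have hcol : ∀ i, B *ᵥ Pi.single i 1 = b.repr x i • b i := by
    intro i
    rw [mulVec_single_one]
    ext r
    rfl
  have hB : IsUnit B := by
    rw [← Matrix.linearIndependent_cols_iff_isUnit]
    have h1 := (b.unitsSMul fun i => Units.mk0 _ (hc' i)).linearIndependent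
    have e : B.col = fun i => (b.unitsSMul fun i => Units.mk0 _ (hc' i)) i := by
      funext i
      rw [Module.Basis.unitsSMul_apply]
      ext r
      rfl
    rw [e]
    exact h1
  refine ⟨Matrix.GeneralLinearGroup.mk'' B ((Matrix.isUnit_iff_isUnit_det B).1 hB), fun i => ?_, ?_⟩
  · change hf σ K (B *ᵥ Pi.single i 1) (B *ᵥ Pi.single i 1) = 0
    rw [hcol, hf_smul_left, hf_smul_right, hb, mul_zero, mul_zero]
  · change hf σ K (B *ᵥ fun _ => 1) (B *ᵥ fun _ => 1) = 0
    have e : B *ᵥ (fun _ => (1 : k)) = x := by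
      conv_rhs => rw [← b.sum_repr x]
      ext r
      simp only [Matrix.mulVec, dotProduct, mul_one, Finset.sum_apply, Pi.smul_apply, smul_eq_mul]
      rfl
    rw [e, hx]

end frame

section good

variable {k : Type} [NontriviallyNormedField k] {N : ℕ} {σ : k →+* k} {ε : k}
  {K : Matrix (Fin (N + 1)) (Fin (N + 1)) k} {S P₀ : Type} [Group S]

open Vale.Agent.P092.RC (GG YY) in
/-- **forms of Witt index at least two have a good frame** -/
theorem goodFr_fm (hF : Fm σ ε K) (hW : Wi2 σ K) (ρ : S →* GG k N)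
    (hE : ∀ v, v ≠ 0 → hf σ K v v = 0 → HasE σ ε K ρ v) (pt : P₀ → YY k N)
    (hpt : ∀ (v : Fin (N + 1) → k) (hv : v ≠ 0), hf σ K v v = 0 →
      ∃ b, pt b = pj k (Fin (N + 1)) ⟨v, hv⟩) : SX.GoodFr pt ρ := by
  haveI : Infinite k := NontriviallyNormedField.infinite k
  obtain ⟨B, h1, h2⟩ := exists_frame hF hW
  have hne : ∀ i, B.1 *ᵥ H789.sv k N i ≠ 0 := by
    intro i h0
    apply H789.sv_ne k N i
    have h3 := congrArg (fun z => (B⁻¹).1 *ᵥ z) h0
    simp only [mulVec_zero, mulVec_mulVec] at h3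
    have h4 : (B⁻¹).1 * B.1 = 1 := by
      rw [← Units.val_mul, inv_mul_cancel, Units.val_one]
    rwa [h4, one_mulVec] at h3
  have hiso : ∀ i, hf σ K (B.1 *ᵥ H789.sv k N i) (B.1 *ᵥ H789.sv k N i) = 0 := by
    intro i
    refine Fin.lastCases ?_ (fun j => ?_) i
    · rw [H789.sv_last]
      exact h2
    · rw [H789.sv_castSucc]
      exact h1 j
  choose fr hfr using fun i => hpt _ (hne i) (hiso i)
  refine ⟨B, fr, fun i => ?_, fun i => ⟨_, hne i, hfr i, ?_⟩⟩
  · rw [hfr]
    rfl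
  · obtain ⟨w, a1, a2, a3⟩ := hW _ (hne i) (hiso i)
    exact SX.symV_fm hF ρ (hne i) (hiso i) (hE _ (hne i) (hiso i)) a1 a2 a3

end good

section eichler

variable {n k : Type} [Fintype n] [DecidableEq n] [Field k] {σ : k →+* k} {ε : k}
  {K : Matrix n n k} {H : Type*} [Group H]

/-- groups which contain all isometries of determinant one contain the Eichler transformations -/
theorem hasE_of (hF : Fm σ ε K) {ρ : H →* SpecialLinearGroup n k}
    (hρ : ∀ g : SpecialLinearGroup n k,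
      (∀ x y, hf σ K (g.1 *ᵥ x) (g.1 *ᵥ y) = hf σ K x y) → ∃ h, ρ h = g)
    {v : n → k} (hv : hf σ K v v = 0) : HasE σ ε K ρ v := by
  intro w hw hvw s hs
  have hwv : hf σ K w v = 0 := hF.symm0 hvw
  have z1 : (s • fnl σ K v) ⬝ᵥ w = 0 := by rw [smul_dotProduct, dot_fnl, hwv, smul_zero]
  have z2 : (s • fnl σ K w) ⬝ᵥ ((-ε) • v) = 0 := by
    rw [smul_dotProduct, dot_fnl, hf_smul_left, hvw, mul_zero, smul_zero]
  have hact : ∀ x, (nn w (s • fnl σ K v) z1 * nn ((-ε) • v) (s • fnl σ K w) z2).1 *ᵥ x =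
      x + (s * hf σ K x v) • w + (s * hf σ K x w) • ((-ε) • v) := by
    intro x
    rw [mulv, nn_mulVec, nn_mulVec]
    simp only [smul_dotProduct, dotProduct_add, dotProduct_smul, dot_fnl, hv, smul_eq_mul,
      mul_zero, add_zero]
    abel
  obtain ⟨h, hh⟩ := hρ (nn w (s • fnl σ K v) z1 * nn ((-ε) • v) (s • fnl σ K w) z2) (by
    intro x y
    rw [hact, hact]
    simp only [hf_add_left, hf_add_right, hf_smul_left, hf_smul_right, hv, hw, hvw, hwv, mul_zero,
      add_zero, map_mul, map_neg, hs, hF.seps]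
    have e1 : hf σ K v y = ε * σ (hf σ K y v) := hF.herm y v
    have e2 : hf σ K w y = ε * σ (hf σ K y w) := hF.herm y w
    rw [e1, e2]
    linear_combination (-(s * hf σ K x w * σ (hf σ K y v))) * hF.eps)
  exact ⟨h, fun x => by rw [hh, hact]⟩

/-- groups which contain the transvections contain the Eichler transformations -/
theorem hasE_tv (hF : Fm σ ε K) {ρ : H →* SpecialLinearGroup n k} {c₀ : k} (hc0 : c₀ ≠ 0)
    (hc : c₀ + ε * σ c₀ = 0)
    (hρ : ∀ u c, hf σ K u u = 0 → c + ε * σ c = 0 → ∃ h, ∀ x,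
      (ρ h).1 *ᵥ x = x + (c * hf σ K x u) • u)
    {v : n → k} (hv : hf σ K v v = 0) : HasE σ ε K ρ v := by
  intro w hw hvw s hs
  have hwv : hf σ K w v = 0 := hF.symm0 hvw
  obtain ⟨w', hw'⟩ : ∃ w', w' = (s * c₀⁻¹) • w := ⟨_, rfl⟩
  have a1 : hf σ K w' w' = 0 := by rw [hw', hf_smul_left, hf_smul_right, hw, mul_zero, mul_zero]
  have a2 : hf σ K v w' = 0 := by rw [hw', hf_smul_right, hvw, mul_zero]
  have a3 : hf σ K w' v = 0 := hF.symm0 a2
  have hc' : -c₀ + ε * σ (-c₀) = 0 := by rw [map_neg]; linear_combination -hc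
  obtain ⟨g₁, h₁⟩ := hρ (v + w') c₀ (by
    simp only [hf_add_left, hf_add_right, hv, a1, a2, a3, add_zero]) hc
  obtain ⟨g₂, h₂⟩ := hρ v (-c₀) hv hc'
  obtain ⟨g₃, h₃⟩ := hρ w' (-c₀) a1 hc'
  refine ⟨g₁ * g₂ * g₃, fun x => ?_⟩
  have hσc : σ c₀ = -(ε * c₀) := by
    have h1 : ε * (c₀ + ε * σ c₀) = 0 := by rw [hc, mul_zero]
    linear_combination h1 - σ c₀ * hF.eps
  have hε : ε ≠ 0 := by
    rintro rfl
    have := hF.eps
    rw [mul_zero] at this
    exact zero_ne_one this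
  have e0 : hf σ K x w' = -(ε * s * c₀⁻¹) * hf σ K x w := by
    rw [hw', hf_smul_right, map_mul, hs, map_inv₀, hσc]
    have : (-(ε * c₀))⁻¹ = -(ε * c₀⁻¹) := by
      rw [inv_neg, mul_inv]
      congr 2
      exact inv_eq_of_mul_eq_one_right hF.eps
    rw [this]
    ring
  rw [map_mul, map_mul, mulv, mulv, h₃, h₂, h₁]
  simp only [hf_add_left, hf_add_right, hf_smul_left, hv, a1, a2, a3, mul_zero, add_zero,
    zero_add]
  rw [e0, hw']
  match_scalars
  · ring
  · field_simp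
    ring
  · field_simp
    ring

end eichler

end Vale.Agent.P092.H325
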