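import Vale.Agent.P092.H325.SXc
import Vale.Agent.P092.H325.FmA

/-!
P092 (helper325), row [P3-XC], stages 3/4: two classical legs commute when the source is an isometry
group of Witt index at least two (any kind); source points = ISOTROPIC points (a type `P₀` with a map
`pt` to the projective space), targets in `PGL_n(l)`, picture `RC.PicX`; also finite products.
-/

set_option linter.all false

open scoped InnerProductSpace ENNReal ZeroAtInfty LinearAlgebra.Projectivization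
open Filter Topology ContinuousLinearMap MeasureTheory Matrix

namespace Vale.Agent.P092.H325.SX

open Vale.Agent.P092.RC (Cm TRN GG PG YY)
open Vale.Agent.P092.SN (CY PH UD nm)
open Vale.Agent.P092.H295
open Vale.Agent.P092.H715.Disj (Disj sv sv_ne)
open Vale.Agent.P092.H35 (sp)
open Vale.Agent.P092.H375.X2 (sgm sgm_smul sgm_src sgm_mk)
open Vale.Agent.P092.H714.Sg (Fm)
open Vale.Agent.P092.H714.Cl (hf)

section symm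

variable {kS : Type} [NontriviallyNormedField kS] {N : ℕ} {S : Type} [Group S]

/-- enough symmetries at the point `[v]`: a group `H₀` of elements fixing `v`, with almost
invariant bumps, such that the part of `S` over `H₀` moves the other points apart, for every field
embedding -/
def SymV (ρ : S →* GG kS N) (v : Fin (N + 1) → kS) (hv : v ≠ 0) : Prop :=
  ∃ H₀ : Subgroup (GG kS N),
    (∀ {G : Type} [Group G] [TopologicalSpace G] [IsTopologicalGroup G] [T2Space G]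
      [LocallyCompactSpace G] [MeasurableSpace G] [BorelSpace G] (μ : Measure G)
      [μ.IsMulLeftInvariant] [μ.IsMulRightInvariant] [IsFiniteMeasureOnCompacts μ]
      [μ.IsOpenPosMeasure] (f : GG kS N →* G), AB μ ((H₀.map f : Subgroup G) : Set G)) ∧
    (∀ g ∈ H₀, g.1 *ᵥ v = v) ∧
    ∀ {k : Type} [NontriviallyNormedField k] [ProperSpace k] (τ : kS →+* k),
      Disj ((sp k (N + 1)).comp ((SpecialLinearGroup.map τ).comp ρ))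
        {h | ρ h ∈ H₀} (H820.pj k (Fin (N + 1)) ⟨sv τ v, sv_ne τ hv⟩)

/-- **isotropic points of forms of Witt index at least two have enough symmetries** -/
theorem symV_fm {σ : kS →+* kS} {ε : kS} {K : Matrix (Fin (N + 1)) (Fin (N + 1)) kS}
    (hF : Fm σ ε K) (ρ : S →* GG kS N) {v w₀ : Fin (N + 1) → kS} (hv0 : v ≠ 0)
    (hv : hf σ K v v = 0) (hE : HasE σ ε K ρ v) (hw : hf σ K w₀ w₀ = 0) (hvw : hf σ K v w₀ = 0)
    (hi : w₀ ∉ Submodule.span kS {v}) : SymV ρ v hv0 := by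
  haveI : Infinite kS := NontriviallyNormedField.infinite kS
  refine ⟨Heis v (fnl σ K v), fun μ _ _ _ _ f => ab_heis μ f v (fnl σ K v), fun g hg => hg.1,
    fun {k} _ _ τ => ?_⟩
  exact disj_fm hF τ ρ _ (fun h x => rfl) hv0 hv hE hw hvw hi

end symm

section gl

variable {kS k : Type} [NontriviallyNormedField kS] [NontriviallyNormedField k] {N : ℕ}

theorem sgm_smul_gl (τ : kS →+* k) (g : GL (Fin (N + 1)) kS) (x : YY kS N) :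
    sgm τ (N + 1) (g • x) = Matrix.GeneralLinearGroup.map τ g • sgm τ (N + 1) x := by
  induction x using Projectivization.ind with
  | h v hv =>
    rw [sgm_mk, Projectivization.smul_mk, Projectivization.smul_mk, sgm_mk]
    congr 1
    funext i
    change τ ((g.1.mulVec v) i) =
      ((Matrix.GeneralLinearGroup.map τ g).1.mulVec fun i => τ (v i)) i
    rw [RingHom.map_mulVec]
    rfl

end gl

/-! ### one leg -/

section leg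

variable {kS k : Type} [NontriviallyNormedField kS] [NontriviallyNormedField k] [ProperSpace k]
  {N : ℕ} {S E₀ Γ K P₀ : Type} [Group S]
  [Group E₀] [Group Γ] [NormedAddCommGroup K] [InnerProductSpace ℂ K] [CompleteSpace K]

/-- the calculus `Q` of the collineation, twisted by `τ : kS → k`; symmetries of `S` only; the
points of the source are those of the type `P₀` -/
structure ClsF (pt : P₀ → YY kS N) (ρ : S →* GG kS N) (ι : S →* E₀) (π : E₀ →* (K →L[ℂ] K))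
    (lam : Γ →* (K →L[ℂ] K)) (W : Set (K →L[ℂ] K)) (q : Γ → GG k N)
    (Ec : P₀ → (CY k N →⋆ₐ[ℂ] (K →L[ℂ] K))) (τ : kS →+* k)
    (Q : C₀(PG k (N + 1), ℂ) →⋆ₙₐ[ℂ] (K →L[ℂ] K)) : Prop where
  nd : ∀ ξ, (∀ ψ, Q ψ ξ = 0) → ξ = 0
  cm : ∀ ψ, Cm W (Q ψ)
  cov : ∀ γ (ψ ψ' : C₀(PG k (N + 1), ℂ)), (∀ x, ψ' x = ψ ((sp k (N + 1) (q γ))⁻¹ * x)) →
    lam γ * Q ψ * lam γ⁻¹ = Q ψ'
  pcov : ∀ (h : S) (ψ ψ' : C₀(PG k (N + 1), ℂ)),
    (∀ x, ψ' x = ψ (x * sp k (N + 1) (SpecialLinearGroup.map τ (ρ h)))) →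
    π (ι h) * Q ψ * π (ι h)⁻¹ = Q ψ'
  mulE : ∀ b (f : CY k N) (ψ ψ' : C₀(PG k (N + 1), ℂ)),
    (∀ x, ψ' x = f (x • sgm τ (N + 1) (pt b)) * ψ x) → Ec b f * Q ψ = Q ψ'

/-- a projective frame of isotropic points, with enough symmetries at each of them -/
def GoodFr (pt : P₀ → YY kS N) (ρ : S →* GG kS N) : Prop :=
  ∃ (B : GL (Fin (N + 1)) kS) (fr : Fin (N + 2) → P₀),
    (∀ i, pt (fr i) = B • H789.src kS N i) ∧
    ∀ i, ∃ (v : Fin (N + 1) → kS) (hv : v ≠ 0), pt (fr i) = H820.pj kS (Fin (N + 1)) ⟨v, hv⟩ ∧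
      SymV ρ v hv

variable {pt : P₀ → YY kS N} {ρ : S →* GG kS N} {ι : S →* E₀} {π : E₀ →* (K →L[ℂ] K)}
  {lam : Γ →* (K →L[ℂ] K)} {W : Set (K →L[ℂ] K)} {q : Γ → GG k N}
  {Ec : P₀ → (CY k N →⋆ₐ[ℂ] (K →L[ℂ] K))} {τ : kS →+* k}
  {Q : C₀(PG k (N + 1), ℂ) →⋆ₙₐ[ℂ] (K →L[ℂ] K)}

/-- the points of a classical leg in the letters of helper295 -/
theorem ClsF.toPt (h : ClsF pt ρ ι π lam W q Ec τ Q) (hq : PH q) (b : P₀) :
    Pt (π.comp ι) lam W (qP q hq) ((sp k (N + 1)).comp ((SpecialLinearGroup.map τ).comp ρ))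
      (sgm τ (N + 1) (pt b)) (Ec b) Q where
  nd := h.nd
  cm := h.cm
  cov γ ψ := h.cov γ ψ _ fun x => rfl
  pcov g ψ := by
    rw [MonoidHom.comp_apply, MonoidHom.comp_apply, map_inv]
    exact h.pcov g ψ _ fun x => rfl
  mulE f ψ := h.mulE b f ψ _ fun x => rfl

/-- the points of an isotropic frame generate -/
theorem ClsF.gen (h : ClsF pt ρ ι π lam W q Ec τ Q) {B : GL (Fin (N + 1)) kS}
    {fr : Fin (N + 2) → P₀} (hfr : ∀ i, pt (fr i) = B • H789.src kS N i) {T : K →L[ℂ] K}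
    (hT : ∀ i f, Commute T (Ec (fr i) f)) (ψ : C₀(PG k (N + 1), ℂ)) : Commute T (Q ψ) := by
  obtain ⟨g, hg⟩ : ∃ g : PG k (N + 1),
      g = QuotientGroup.mk (Matrix.GeneralLinearGroup.map τ B) := ⟨_, rfl⟩
  have hc : IsOpenEmbedding fun x : PG k (N + 1) => H789.cmap k N (x * g) :=
    (H789.isOpenEmbedding_cmap (k := k) (m := N)).comp (Homeomorph.mulRight g).isOpenEmbedding
  refine H715.Gen.comm_abs hc h.nd (E := fun i => Ec (fr i)) (fun i f ψ ψ' hψ => ?_)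
    (fun i f => hT i f) ψ
  refine h.mulE (fr i) f ψ ψ' fun x => ?_
  have e : x • sgm τ (N + 1) (pt (fr i)) = H789.cmap k N (x * g) i := by
    rw [hfr, sgm_smul_gl, sgm_src, H789.cmap_apply, mul_smul, hg]
    rfl
  rw [e, hψ x]

end leg

section pg

variable {J : Type} [Fintype J] {kS l₁ l₂ : J → Type} [∀ j, NontriviallyNormedField (kS j)]
  [∀ j, NontriviallyNormedField (l₁ j)] [∀ j, ProperSpace (l₁ j)]
  [∀ j, NontriviallyNormedField (l₂ j)] [∀ j, ProperSpace (l₂ j)] {N : J → ℕ} {S P₀ : J → Type}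
  [∀ j, Group (S j)]
variable {E₀ Γ₁ Γ₂ K : Type} [Group E₀] [TopologicalSpace E₀] [Group Γ₁] [Group Γ₂]
  [NormedAddCommGroup K] [InnerProductSpace ℂ K] [CompleteSpace K]
variable {pt : ∀ j, P₀ j → YY (kS j) (N j)} {ρ : ∀ j, S j →* GG (kS j) (N j)}
  {ι : ∀ j, S j →* E₀} {π : E₀ →* (K →L[ℂ] K)}
  {lam₁ : Γ₁ →* (K →L[ℂ] K)} {lam₂ : Γ₂ →* (K →L[ℂ] K)} {X : Set (K →L[ℂ] K)} {Ω : K}
  {q₁ : ∀ j, Γ₁ → GG (l₁ j) (N j)} {q₂ : ∀ j, Γ₂ → GG (l₂ j) (N j)}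
  {E₁ : ∀ j, P₀ j → (CY (l₁ j) (N j) →⋆ₐ[ℂ] (K →L[ℂ] K))}
  {E₂ : ∀ j, P₀ j → (CY (l₂ j) (N j) →⋆ₐ[ℂ] (K →L[ℂ] K))}
  {τ₁ : ∀ j, kS j →+* l₁ j} {τ₂ : ∀ j, kS j →+* l₂ j}
  {Q₁ : ∀ j, C₀(PG (l₁ j) (N j + 1), ℂ) →⋆ₙₐ[ℂ] (K →L[ℂ] K)}
  {Q₂ : ∀ j, C₀(PG (l₂ j) (N j + 1), ℂ) →⋆ₙₐ[ℂ] (K →L[ℂ] K)}

/-- the factors of one leg -/
theorem fl_ofF {Γ : Type} [Group Γ] {lam : Γ →* (K →L[ℂ] K)} {W : Set (K →L[ℂ] K)}
    {q : ∀ j, Γ → GG (l₁ j) (N j)}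
    {Ec : ∀ j, P₀ j → (CY (l₁ j) (N j) →⋆ₐ[ℂ] (K →L[ℂ] K))}
    {τ : ∀ j, kS j →+* l₁ j} {Q : ∀ j, C₀(PG (l₁ j) (N j + 1), ℂ) →⋆ₙₐ[ℂ] (K →L[ℂ] K)}
    (ph : ∀ j, PH (q j))
    (h : ∀ j, ClsF (pt j) (ρ j) (ι j) π lam W (q j) (Ec j) (τ j) (Q j))
    (pcm : ∀ j' j, j' ≠ j → ∀ (h : S j') ψ, Commute (π (ι j' h)) (Q j ψ))
    (com : ∀ j' j, j' ≠ j → ∀ ψ φ, Commute (Q j' ψ) (Q j φ)) :
    FL (G := fun j => PG (l₁ j) (N j + 1)) π lam W ι (fun j => qP (q j) (ph j))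
      (fun j => (sp (l₁ j) (N j + 1)).comp ((SpecialLinearGroup.map (τ j)).comp (ρ j))) Q where
  nd j := (h j).nd
  cm j := (h j).cm
  cov j γ ψ := (h j).cov γ ψ _ fun x => rfl
  pcov j g ψ := (h j).pcov g ψ _ fun x => rfl
  pcm := pcm
  com := com

/-- **[P3-XC] for products** of groups of Witt index at least two (isotropic points) -/
theorem pXcF [Countable Γ₁] (hS : ∀ j, GoodFr (pt j) (ρ j))
    (hPic : RC.PicX π lam₁ (X ∪ Set.range lam₂) Ω)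
    (tv : ∀ Y, Cm (X ∪ Set.range lam₂) Y → (∀ γ, Y * lam₁ γ = lam₁ γ * Y) → ∀ e : E₀,
      ⟪π e Ω, Y (π e Ω)⟫_ℂ = ⟪Ω, Y Ω⟫_ℂ)
    (adj₂ : ∀ γ, adjoint (lam₂ γ) = lam₂ γ⁻¹) (ph₁ : ∀ j, PH (q₁ j)) (ph₂ : ∀ j, PH (q₂ j))
    (disc₁ : ∀ C : ℝ, {γ : Γ₁ | ∀ j, nm (q₁ j γ) ≤ C}.Finite)
    (h₁ : ∀ j, ClsF (pt j) (ρ j) (ι j) π lam₁ (X ∪ Set.range lam₂) (q₁ j) (E₁ j) (τ₁ j) (Q₁ j))
    (pcm₁ : ∀ j' j, j' ≠ j → ∀ (h : S j') ψ, Commute (π (ι j' h)) (Q₁ j ψ))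
    (com₁ : ∀ j' j, j' ≠ j → ∀ ψ φ, Commute (Q₁ j' ψ) (Q₁ j φ))
    (h₂ : ∀ j, ClsF (pt j) (ρ j) (ι j) π lam₂ (X ∪ Set.range lam₁) (q₂ j) (E₂ j) (τ₂ j) (Q₂ j))
    (pcm₂ : ∀ j' j, j' ≠ j → ∀ (h : S j') ψ, Commute (π (ι j' h)) (Q₂ j ψ))
    (com₂ : ∀ j' j, j' ≠ j → ∀ ψ φ, Commute (Q₂ j' ψ) (Q₂ j φ))
    (j j' : J) (ψ : C₀(PG (l₁ j) (N j + 1), ℂ)) (φ : C₀(PG (l₂ j') (N j' + 1), ℂ)) :
    Commute (Q₁ j ψ) (Q₂ j' φ) := by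
  letI : ∀ j, MeasurableSpace (PG (l₁ j) (N j + 1)) := fun j => borel _
  haveI : ∀ j, BorelSpace (PG (l₁ j) (N j + 1)) := fun j => ⟨rfl⟩
  haveI : ∀ j, (Measure.haar : Measure (PG (l₁ j) (N j + 1))).IsMulRightInvariant := fun j =>
    H626.rightInv_pg (l₁ j) (N j + 1) _
  letI : ∀ j, MeasurableSpace (PG (l₂ j) (N j + 1)) := fun j => borel _
  haveI : ∀ j, BorelSpace (PG (l₂ j) (N j + 1)) := fun j => ⟨rfl⟩
  haveI : ∀ j, (Measure.haar : Measure (PG (l₂ j) (N j + 1))).IsMulRightInvariant := fun j =>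
    H626.rightInv_pg (l₂ j) (N j + 1) _
  have f₁ := fl_ofF ph₁ h₁ pcm₁ com₁
  have f₂ := fl_ofF ph₂ h₂ pcm₂ com₂
  obtain ⟨QQ₁, J₁⟩ := f₁.joint
  obtain ⟨QQ₂, J₂⟩ := f₂.joint
  obtain ⟨B, fr, hfr, hsym⟩ := hS j
  have key : ∀ i f χ, Commute (E₁ j (fr i) f) (QQ₂ χ) := by
    intro i f χ
    haveI : Infinite (kS j) := NontriviallyNormedField.infinite (kS j)
    haveI : Infinite (l₁ j) := NontriviallyNormedField.infinite (l₁ j)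
    obtain ⟨v, hv, hvi, H₀, hAB, hfix, hD⟩ := hsym i
    have hsg : sgm (τ₁ j) (N j + 1) (pt j (fr i)) =
        H820.pj (l₁ j) (Fin (N j + 1)) ⟨sv (τ₁ j) v, sv_ne (τ₁ j) hv⟩ := by
      rw [hvi]
      rfl
    refine xc_factorX (fun j => (Measure.haar : Measure (PG (l₁ j) (N j + 1))))
      (Measure.pi fun j => (Measure.haar : Measure (PG (l₂ j) (N j + 1)))) hPic tv J₁ f₁.nd
      (disc_pi ph₁ disc₁) adj₂ J₂.nd J₂.cm J₂.cov J₂.pcov j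
      (y := H820.pj (l₁ j) (Fin (N j + 1)) ⟨sv (τ₁ j) v, sv_ne (τ₁ j) hv⟩)
      (fun f ψ => (h₁ j).mulE (fr i) f ψ _ fun x => by rw [hsg]; rfl) (M := {h | ρ j h ∈ H₀})
      (fun μ _ _ => ?_) ?_ (fun u hu => fix_pt (τ₁ j) (ρ j) hv (hfix _ hu)) (hD (τ₁ j)) f χ
    · refine (hAB μ (sg (fun j => (sp (l₁ j) (N j + 1)).comp (SpecialLinearGroup.map (τ₁ j)))
        j)).mono ?_
      rintro _ ⟨h, hh, rfl⟩
      exact ⟨ρ j h, hh, rfl⟩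
    · refine (hAB _ (sg (fun j => (sp (l₂ j) (N j + 1)).comp (SpecialLinearGroup.map (τ₂ j)))
        j)).mono ?_
      rintro _ ⟨h, hh, rfl⟩
      exact ⟨ρ j h, hh, rfl⟩
  refine J₂.comm (fun χ => ?_) j' φ
  exact ((h₁ j).gen hfr (T := QQ₂ χ) (fun i f => (key i f χ).symm) ψ).symm

end pg

/-! ### one factor -/

section one

variable {kS l₁ l₂ : Type} [NontriviallyNormedField kS] [NontriviallyNormedField l₁]
  [ProperSpace l₁] [NontriviallyNormedField l₂] [ProperSpace l₂] {N : ℕ}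
  {S E₀ Γ₁ Γ₂ K P₀ : Type} [Group S] [Group E₀] [TopologicalSpace E₀] [Group Γ₁] [Group Γ₂]
  [NormedAddCommGroup K] [InnerProductSpace ℂ K] [CompleteSpace K]
  {pt : P₀ → YY kS N} {ρ : S →* GG kS N} {ι : S →* E₀} {π : E₀ →* (K →L[ℂ] K)}
  {lam₁ : Γ₁ →* (K →L[ℂ] K)}
  {lam₂ : Γ₂ →* (K →L[ℂ] K)} {X : Set (K →L[ℂ] K)} {Ω : K} {q₁ : Γ₁ → GG l₁ N}
  {q₂ : Γ₂ → GG l₂ N}
  {E₁ : P₀ → (CY l₁ N →⋆ₐ[ℂ] (K →L[ℂ] K))} {E₂ : P₀ → (CY l₂ N →⋆ₐ[ℂ] (K →L[ℂ] K))}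
  {τ₁ : kS →+* l₁} {τ₂ : kS →+* l₂}
  {Q₁ : C₀(PG l₁ (N + 1), ℂ) →⋆ₙₐ[ℂ] (K →L[ℂ] K)} {Q₂ : C₀(PG l₂ (N + 1), ℂ) →⋆ₙₐ[ℂ] (K →L[ℂ] K)}

/-- **[P3-XC], one factor** -/
theorem xcF [Countable Γ₁] (hS : GoodFr pt ρ) (hPic : RC.PicX π lam₁ (X ∪ Set.range lam₂) Ω)
    (tv : ∀ Y, Cm (X ∪ Set.range lam₂) Y → (∀ γ, Y * lam₁ γ = lam₁ γ * Y) → ∀ h : S,
      ⟪π (ι h) Ω, Y (π (ι h) Ω)⟫_ℂ = ⟪Ω, Y Ω⟫_ℂ)
    (adj₂ : ∀ γ, adjoint (lam₂ γ) = lam₂ γ⁻¹) (ph₁ : PH q₁) (ph₂ : PH q₂)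
    (ov₁ : ∀ C : Set (PG l₁ (N + 1)), IsCompact C → ∃ M : ℕ, ∀ g : PG l₁ (N + 1),
      ∑' γ, C.indicator (1 : PG l₁ (N + 1) → ℝ≥0∞) (qP q₁ ph₁ γ * g) ≤ M)
    (h₁ : ClsF pt ρ ι π lam₁ (X ∪ Set.range lam₂) q₁ E₁ τ₁ Q₁)
    (h₂ : ClsF pt ρ ι π lam₂ (X ∪ Set.range lam₁) q₂ E₂ τ₂ Q₂)
    (ψ : C₀(PG l₁ (N + 1), ℂ)) (φ : C₀(PG l₂ (N + 1), ℂ)) : Commute (Q₁ ψ) (Q₂ φ) := by
  letI : MeasurableSpace (PG l₁ (N + 1)) := borel _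
  haveI : BorelSpace (PG l₁ (N + 1)) := ⟨rfl⟩
  haveI : (Measure.haar : Measure (PG l₁ (N + 1))).IsMulRightInvariant :=
    H626.rightInv_pg l₁ (N + 1) _
  letI : MeasurableSpace (PG l₂ (N + 1)) := borel _
  haveI : BorelSpace (PG l₂ (N + 1)) := ⟨rfl⟩
  haveI : (Measure.haar : Measure (PG l₂ (N + 1))).IsMulRightInvariant :=
    H626.rightInv_pg l₂ (N + 1) _
  haveI : Infinite kS := NontriviallyNormedField.infinite kS
  haveI : Infinite l₁ := NontriviallyNormedField.infinite l₁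
  obtain ⟨B, fr, hfr, hsym⟩ := hS
  refine (h₁.gen hfr (T := Q₂ φ) (fun i f => Commute.symm ?_) ψ).symm
  obtain ⟨v, hv, hvi, H₀, hAB, hfix, hD⟩ := hsym i
  have hpt := h₁.toPt ph₁ (fr i)
  have hsg : sgm τ₁ (N + 1) (pt (fr i)) =
      H820.pj l₁ (Fin (N + 1)) ⟨sv τ₁ v, sv_ne τ₁ hv⟩ := by
    rw [hvi]
    rfl
  rw [hsg] at hpt
  refine xc_ptX (Measure.haar : Measure (PG l₁ (N + 1)))
    (Measure.haar : Measure (PG l₂ (N + 1))) (q₂ := qP q₂ ph₂)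
    (ι₂ := ((sp l₂ (N + 1)).comp (SpecialLinearGroup.map τ₂)).comp ρ) ι hPic tv ov₁
    hpt adj₂ h₂.nd h₂.cm
    (fun γ ψ => h₂.cov γ ψ _ fun x => rfl) (fun h ψ => h₂.pcov h ψ _ fun x => rfl)
    (M := {h | ρ h ∈ H₀}) ?_ ?_ (fun u hu => fix_pt τ₁ ρ hv (hfix _ hu)) (hD τ₁) f φ
  · refine (hAB (Measure.haar : Measure (PG l₁ (N + 1)))
      ((sp l₁ (N + 1)).comp (SpecialLinearGroup.map τ₁))).mono ?_
    rintro _ ⟨h, hh, rfl⟩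
    exact ⟨ρ h, hh, rfl⟩
  · refine (hAB (Measure.haar : Measure (PG l₂ (N + 1)))
      ((sp l₂ (N + 1)).comp (SpecialLinearGroup.map τ₂))).mono ?_
    rintro _ ⟨h, hh, rfl⟩
    exact ⟨ρ h, hh, rfl⟩

end one

end Vale.Agent.P092.H325.SX
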