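import Vale.Agent.P092.H325.Comm

set_option linter.unusedSectionVars false

/-!
P092 (helper325): a positivity preserving operator of `L²(G)` which commutes with all translations and is
bounded on integrable functions is a scalar, if the conjugation on `G` is recurrent only at `1`.
-/

open MeasureTheory Set Filter
open scoped ENNReal Topology InnerProductSpace Pointwise

namespace Vale.Agent.P092.H325

section base

variable {X : Type*} [MeasurableSpace X] (μ : Measure X)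

open Classical in
/-- the indicator function of a set of finite measure -/
noncomputable def iv (A : Set X) : Lp ℂ 2 μ :=
  if h : MeasurableSet A ∧ μ A ≠ ⊤ then indicatorConstLp 2 h.1 h.2 (1 : ℂ) else 0

theorem iv_eq {A : Set X} (hA : MeasurableSet A) (hμ : μ A ≠ ⊤) :
    iv μ A = indicatorConstLp 2 hA hμ (1 : ℂ) := dif_pos ⟨hA, hμ⟩

theorem iv_ae {A : Set X} (hA : MeasurableSet A) (hμ : μ A ≠ ⊤) :
    iv μ A =ᵐ[μ] A.indicator fun _ => (1 : ℂ) := by
  rw [iv_eq μ hA hμ]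
  exact indicatorConstLp_coeFn

theorem inner_iv {A : Set X} (hA : MeasurableSet A) (hμ : μ A ≠ ⊤) (f : Lp ℂ 2 μ) :
    ⟪iv μ A, f⟫_ℂ = ∫ x in A, f x ∂μ := by
  rw [iv_eq μ hA hμ, L2.inner_indicatorConstLp_one]

/-- the complex number is a nonnegative real number -/
def Pos (z : ℂ) : Prop := 0 ≤ z.re ∧ z.im = 0

theorem Pos.eq {z : ℂ} (h : Pos z) : z = (‖z‖ : ℂ) := by
  have h1 : z = (z.re : ℂ) := by
    apply Complex.ext
    · simp
    · simp [h.2]
  rw [h1, Complex.norm_real, Real.norm_of_nonneg h.1]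

theorem pos_conj {z : ℂ} (h : Pos z) : Pos (star z) := by
  refine ⟨?_, ?_⟩
  · simpa using h.1
  · simp [h.2]

theorem nonneg_of_pair [SigmaFinite μ] (f : Lp ℂ 2 μ)
    (h : ∀ A, MeasurableSet A → μ A ≠ ⊤ → Pos ⟪iv μ A, f⟫_ℂ) : ∀ᵐ x ∂μ, Pos (f x) := by
  have hint : ∀ s, MeasurableSet s → μ s < ⊤ → IntegrableOn (f : X → ℂ) s μ := fun s _ hs =>
    integrableOn_Lp_of_measure_ne_top f (by simp) hs.ne
  have hre : ∀ s, MeasurableSet s → μ s < ⊤ →
      ∫ x in s, (f x).re ∂μ = (⟪iv μ s, f⟫_ℂ).re := by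
    intro s hs hsμ
    rw [inner_iv μ hs hsμ.ne]
    exact (Complex.reCLM.integral_comp_comm (hint s hs hsμ))
  have him : ∀ s, MeasurableSet s → μ s < ⊤ →
      ∫ x in s, (f x).im ∂μ = (⟪iv μ s, f⟫_ℂ).im := by
    intro s hs hsμ
    rw [inner_iv μ hs hsμ.ne]
    exact (Complex.imCLM.integral_comp_comm (hint s hs hsμ))
  have h1 : 0 ≤ᵐ[μ] fun x => (f x).re :=
    ae_nonneg_of_forall_setIntegral_nonneg_of_sigmaFinite
      (fun s hs hsμ => Complex.reCLM.integrable_comp (hint s hs hsμ))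
      (fun s hs hsμ => by rw [hre s hs hsμ]; exact (h s hs hsμ.ne).1)
  have h2 : (fun x => (f x).im) =ᵐ[μ] 0 :=
    ae_eq_zero_of_forall_setIntegral_eq_of_sigmaFinite
      (fun s hs hsμ => Complex.imCLM.integrable_comp (hint s hs hsμ))
      (fun s hs hsμ => by rw [him s hs hsμ]; exact (h s hs hsμ.ne).2)
  filter_upwards [h1, h2] with x a b
  exact ⟨a, b⟩

theorem lint_eq (f : Lp ℂ 2 μ) (hf : ∀ᵐ x ∂μ, Pos (f x)) {A : Set X} (hA : MeasurableSet A)
    (hμ : μ A ≠ ⊤) : ∫⁻ x in A, ‖f x‖ₑ ∂μ = ‖⟪iv μ A, f⟫_ℂ‖ₑ := by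
  have hint : IntegrableOn (f : X → ℂ) A μ := integrableOn_Lp_of_measure_ne_top f (by simp) hμ
  rw [inner_iv μ hA hμ, ← ofReal_integral_norm_eq_lintegral_enorm hint]
  have h1 : ∫ x in A, f x ∂μ = ((∫ x in A, ‖f x‖ ∂μ : ℝ) : ℂ) := by
    rw [← integral_complex_ofReal]
    exact integral_congr_ae (ae_restrict_of_ae (hf.mono fun x hx => hx.eq))
  rw [h1, ← ofReal_norm, Complex.norm_real, Real.norm_of_nonneg (by positivity)]

end base

section kp

variable {X : Type*} [MeasurableSpace X] (μ : Measure X) [SigmaFinite μ]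
  (T : Lp ℂ 2 μ →L[ℂ] Lp ℂ 2 μ)

/-- the mass of `T 1_A` on `B` -/
noncomputable def kp (A B : Set X) : ℝ≥0∞ := ∫⁻ x in B, ‖T (iv μ A) x‖ₑ ∂μ

/-- positivity preserving -/
def PosOp : Prop := ∀ A B : Set X, MeasurableSet A → μ A ≠ ⊤ → MeasurableSet B → μ B ≠ ⊤ →
  Pos ⟪iv μ B, T (iv μ A)⟫_ℂ

variable {T}

theorem PosOp.ae (hT : PosOp μ T) {A : Set X} (hA : MeasurableSet A) (hμ : μ A ≠ ⊤) :
    ∀ᵐ x ∂μ, Pos (T (iv μ A) x) :=
  nonneg_of_pair μ _ fun B hB hBμ => hT A B hA hμ hB hBμ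

theorem PosOp.ae_adj (hT : PosOp μ T) {B : Set X} (hB : MeasurableSet B) (hμ : μ B ≠ ⊤) :
    ∀ᵐ x ∂μ, Pos (ContinuousLinearMap.adjoint T (iv μ B) x) :=
  nonneg_of_pair μ _ fun A hA hAμ => by
    rw [ContinuousLinearMap.adjoint_inner_right, ← inner_conj_symm]
    exact pos_conj (hT A B hA hAμ hB hμ)

theorem kp_eq_adj (hT : PosOp μ T) {A B : Set X} (hA : MeasurableSet A) (hAμ : μ A ≠ ⊤)
    (hB : MeasurableSet B) (hBμ : μ B ≠ ⊤) :
    kp μ T A B = ∫⁻ x in A, ‖ContinuousLinearMap.adjoint T (iv μ B) x‖ₑ ∂μ := by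
  rw [kp, lint_eq μ _ (hT.ae μ hA hAμ) hB hBμ, lint_eq μ _ (hT.ae_adj μ hB hBμ) hA hAμ,
    ContinuousLinearMap.adjoint_inner_right, ← inner_conj_symm (iv μ B), ← ofReal_norm,
    ← ofReal_norm]
  congr 1
  exact RCLike.norm_conj _

theorem kp_mono_right {A B B' : Set X} (h : B ⊆ B') : kp μ T A B ≤ kp μ T A B' :=
  lintegral_mono_set h

theorem kp_mono_left (hT : PosOp μ T) {A A' B : Set X} (hA : MeasurableSet A) (hAμ : μ A ≠ ⊤)
    (hA' : MeasurableSet A') (hAμ' : μ A' ≠ ⊤) (hB : MeasurableSet B) (hBμ : μ B ≠ ⊤) (h : A ⊆ A') :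
    kp μ T A B ≤ kp μ T A' B := by
  rw [kp_eq_adj μ hT hA hAμ hB hBμ, kp_eq_adj μ hT hA' hAμ' hB hBμ]
  exact lintegral_mono_set h

end kp

section trans

variable {G : Type*} [Group G] [TopologicalSpace G] [IsTopologicalGroup G] [MeasurableSpace G]
  [BorelSpace G] (μ : Measure G) [SigmaFinite μ] (T : Lp ℂ 2 μ →L[ℂ] Lp ℂ 2 μ)

/-- `g A` -/
def lA (g : G) (A : Set G) : Set G := (fun x => g⁻¹ * x) ⁻¹' A

/-- `A y⁻¹` -/
def rA (y : G) (A : Set G) : Set G := (fun x => x * y) ⁻¹' A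

theorem meas_lA (g : G) {A : Set G} (hA : MeasurableSet A) : MeasurableSet (lA g A) :=
  (measurable_const_mul g⁻¹) hA

theorem meas_rA (g : G) {A : Set G} (hA : MeasurableSet A) : MeasurableSet (rA g A) :=
  (measurable_mul_const g) hA

theorem mu_lA [μ.IsMulLeftInvariant] (g : G) {A : Set G} (hA : MeasurableSet A) :
    μ (lA g A) = μ A :=
  (measurePreserving_mul_left μ g⁻¹).measure_preimage hA.nullMeasurableSet

theorem mu_rA [μ.IsMulRightInvariant] (g : G) {A : Set G} (hA : MeasurableSet A) :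
    μ (rA g A) = μ A :=
  (measurePreserving_mul_right μ g).measure_preimage hA.nullMeasurableSet

theorem iv_lA [μ.IsMulLeftInvariant] (g : G) {A : Set G} (hA : MeasurableSet A) (hμ : μ A ≠ ⊤) :
    iv μ (lA g A) = tl μ g (iv μ A) := by
  apply Lp.ext
  have h1 := (measurePreserving_mul_left μ g⁻¹).quasiMeasurePreserving.ae_eq_comp
    (iv_ae μ hA hμ)
  filter_upwards [iv_ae μ (meas_lA g hA) (by rwa [mu_lA μ g hA]), tl_ae μ g (iv μ A), h1] with
    x e1 e2 e3
  rw [e1, e2]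
  exact e3.symm

theorem iv_rA [μ.IsMulRightInvariant] (g : G) {A : Set G} (hA : MeasurableSet A) (hμ : μ A ≠ ⊤) :
    iv μ (rA g A) = tr μ g (iv μ A) := by
  apply Lp.ext
  have h1 := (measurePreserving_mul_right μ g).quasiMeasurePreserving.ae_eq_comp
    (iv_ae μ hA hμ)
  filter_upwards [iv_ae μ (meas_rA g hA) (by rwa [mu_rA μ g hA]), tr_ae μ g (iv μ A), h1] with
    x e1 e2 e3
  rw [e1, e2]
  exact e3.symm

variable {T}

theorem kp_lA [μ.IsMulLeftInvariant] (hl : ∀ g f, T (tl μ g f) = tl μ g (T f)) (g : G)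
    {A B : Set G} (hA : MeasurableSet A) (hμ : μ A ≠ ⊤) :
    kp μ T (lA g A) (lA g B) = kp μ T A B := by
  rw [kp, iv_lA μ g hA hμ, hl]
  have h1 : ∫⁻ x in lA g B, ‖tl μ g (T (iv μ A)) x‖ₑ ∂μ =
      ∫⁻ x in lA g B, ‖T (iv μ A) (g⁻¹ * x)‖ₑ ∂μ := by
    refine lintegral_congr_ae (ae_restrict_of_ae ?_)
    filter_upwards [tl_ae μ g (T (iv μ A))] with x hx
    rw [hx]
  rw [h1]
  exact (measurePreserving_mul_left μ g⁻¹).setLIntegral_comp_preimage_emb
    (MeasurableEquiv.mulLeft g⁻¹).measurableEmbedding (fun b => ‖T (iv μ A) b‖ₑ) B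

theorem kp_rA [μ.IsMulRightInvariant] (hr : ∀ g f, T (tr μ g f) = tr μ g (T f)) (g : G)
    {A B : Set G} (hA : MeasurableSet A) (hμ : μ A ≠ ⊤) :
    kp μ T (rA g A) (rA g B) = kp μ T A B := by
  rw [kp, iv_rA μ g hA hμ, hr]
  have h1 : ∫⁻ x in rA g B, ‖tr μ g (T (iv μ A)) x‖ₑ ∂μ =
      ∫⁻ x in rA g B, ‖T (iv μ A) (x * g)‖ₑ ∂μ := by
    refine lintegral_congr_ae (ae_restrict_of_ae ?_)
    filter_upwards [tr_ae μ g (T (iv μ A))] with x hx
    rw [hx]
  rw [h1]
  exact (measurePreserving_mul_right μ g).setLIntegral_comp_preimage_emb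
    (MeasurableEquiv.mulRight g).measurableEmbedding (fun b => ‖T (iv μ A) b‖ₑ) B

/-- the averaging inequality -/
theorem kp_avg [SecondCountableTopology G] [μ.IsMulLeftInvariant]
    (hl : ∀ g f, T (tl μ g f) = tl μ g (T f)) (hT : PosOp μ T)
    {U F U' D W : Set G} (hU : MeasurableSet U) (hUμ : μ U ≠ ⊤) (hF : MeasurableSet F)
    (hFμ : μ F ≠ ⊤) (hU' : MeasurableSet U') (hUμ' : μ U' ≠ ⊤) (hD : MeasurableSet D)
    (hUD : ∀ x ∈ U, ∀ u ∈ U', x * u⁻¹ ∈ D) (hDW : ∀ y ∈ D, ∀ f ∈ F, y⁻¹ * f ∈ W) :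
    μ U'⁻¹ * kp μ T U F ≤ μ D * kp μ T U' W := by
  set k : G → ℝ≥0∞ := fun x => ‖ContinuousLinearMap.adjoint T (iv μ F) x‖ₑ with hk
  have hkm : AEMeasurable k μ := (Lp.aestronglyMeasurable _).enorm
  have hP : MeasurableSet {p : G × G | p.2⁻¹ * p.1 ∈ U'} := by
    have : Measurable fun p : G × G => p.2⁻¹ * p.1 := by fun_prop
    exact this hU'
  set φ : G → G → ℝ≥0∞ := fun x y =>
    {p : G × G | p.2⁻¹ * p.1 ∈ U'}.indicator (fun p => k p.1) (x, y) with hφ
  have hφm : AEMeasurable (Function.uncurry φ) (μ.prod (μ.restrict D)) := by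
    have h1 : AEMeasurable (fun p : G × G => k p.1) (μ.prod (μ.restrict D)) := by
      refine hkm.comp_quasiMeasurePreserving ?_
      exact Measure.quasiMeasurePreserving_fst
    exact h1.indicator hP
  have h1 : μ U'⁻¹ * kp μ T U F ≤ ∫⁻ x, ∫⁻ y in D, φ x y ∂μ ∂μ := by
    rw [kp_eq_adj μ hT hU hUμ hF hFμ, ← lintegral_const_mul'' _ hkm.restrict]
    calc ∫⁻ x in U, μ U'⁻¹ * k x ∂μ ≤ ∫⁻ x in U, ∫⁻ y in D, φ x y ∂μ ∂μ := by
          refine setLIntegral_mono' hU fun x hx => ?_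
          have h2 : ∀ y, φ x y = ((x * ·⁻¹) '' U').indicator (fun _ => k x) y := by
            intro y
            simp only [hφ, Set.indicator]
            have : ((x, y) ∈ {p : G × G | p.2⁻¹ * p.1 ∈ U'}) ↔ y ∈ (fun z => x * z⁻¹) '' U' := by
              constructor
              · intro h
                refine ⟨y⁻¹ * x, h, ?_⟩
                group
              · rintro ⟨u, hu, rfl⟩
                show (x * u⁻¹)⁻¹ * x ∈ U'
                rw [show (x * u⁻¹)⁻¹ * x = u by group]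
                exact hu
            by_cases h : y ∈ (fun z => x * z⁻¹) '' U'
            · rw [if_pos h, if_pos (this.2 h)]
            · rw [if_neg h, if_neg (fun h' => h (this.1 h'))]
          simp only [h2]
          have h3 : (fun z => x * z⁻¹) '' U' = lA x U'⁻¹ := by
            ext y
            simp only [lA, mem_image, mem_preimage, Set.mem_inv]
            constructor
            · rintro ⟨u, hu, rfl⟩
              rw [show (x⁻¹ * (x * u⁻¹))⁻¹ = u by group]
              exact hu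
            · intro h
              exact ⟨_, h, by group⟩
          have h4 : MeasurableSet (lA x U'⁻¹) := meas_lA x hU'.inv
          have h5 : lA x U'⁻¹ ⊆ D := by
            rw [← h3]
            rintro _ ⟨u, hu, rfl⟩
            exact hUD x hx u hu
          rw [h3, lintegral_indicator h4, setLIntegral_const, Measure.restrict_apply h4,
            inter_eq_left.2 h5, mu_lA μ x hU'.inv, mul_comm]
      _ ≤ ∫⁻ x, ∫⁻ y in D, φ x y ∂μ ∂μ := setLIntegral_le_lintegral _ _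
  refine h1.trans ?_
  rw [lintegral_lintegral_swap hφm]
  calc ∫⁻ y in D, ∫⁻ x, φ x y ∂μ ∂μ ≤ ∫⁻ y in D, kp μ T U' W ∂μ := by
        refine setLIntegral_mono' hD fun y hy => ?_
        have h2 : ∀ x, φ x y = (lA y U').indicator k x := by
          intro x
          rfl
        simp only [h2]
        rw [lintegral_indicator (meas_lA y hU')]
        have h3 : ∫⁻ x in lA y U', k x ∂μ = kp μ T (lA y U') F :=
          (kp_eq_adj μ hT (meas_lA y hU') (by rwa [mu_lA μ y hU']) hF hFμ).symm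
        have h4 : lA y (lA y⁻¹ F) = F := by
          ext x
          simp [lA]
        have h5 : kp μ T (lA y U') F = kp μ T U' (lA y⁻¹ F) := by
          conv_lhs => rw [← h4]
          exact kp_lA μ hl y hU' hUμ'
        rw [h3, h5]
        refine kp_mono_right μ fun z hz => ?_
        have hz' : y⁻¹⁻¹ * z ∈ F := hz
        have := hDW y hy _ hz'
        rwa [inv_inv, inv_mul_cancel_left] at this
    _ = μ D * kp μ T U' W := by rw [setLIntegral_const, mul_comm]

end trans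

section rec

variable {G : Type*} [Group G] [TopologicalSpace G] [IsTopologicalGroup G]

/-- the conjugation action is recurrent only at `1`: every `z ≠ 1` has a neighbourhood with infinitely
many pairwise disjoint conjugates -/
def Rec (G : Type*) [Group G] [TopologicalSpace G] : Prop :=
  ∀ z : G, z ≠ 1 → ∃ E ∈ 𝓝 z, ∃ a : ℕ → G, Pairwise fun i j =>
    Disjoint ((fun y => a i * y * (a i)⁻¹) '' E) ((fun y => a j * y * (a j)⁻¹) '' E)

/-- finitely many pairwise disjoint compact sets remain disjoint after multiplication by a small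
neighbourhood of `1` -/
theorem exists_disjoint_mul [T2Space G] (M : ℕ) (E : ℕ → Set G) (hE : ∀ m, IsCompact (E m))
    (hd : Pairwise fun i j => Disjoint (E i) (E j)) :
    ∃ V ∈ 𝓝 (1 : G), ∀ i < M, ∀ j < M, i ≠ j → Disjoint (V * E i) (V * E j) := by
  have key : ∀ i j : ℕ, i ≠ j → ∃ V ∈ 𝓝 (1 : G), Disjoint (V * E i) (V * E j) := by
    intro i j hij
    have hc : IsCompact ((fun p : G × G => p.1 * p.2⁻¹) '' (E i ×ˢ E j)) :=
      ((hE i).prod (hE j)).image (by fun_prop)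
    have h1 : (1 : G) ∉ (fun p : G × G => p.1 * p.2⁻¹) '' (E i ×ˢ E j) := by
      rintro ⟨⟨x, y⟩, ⟨hx, hy⟩, hxy⟩
      have : x = y := by
        have h2 : x * y⁻¹ = 1 := hxy
        rwa [mul_inv_eq_one] at h2
      exact Set.disjoint_left.1 (hd hij) hx (this ▸ hy)
    have h2 : ((fun p : G × G => p.1 * p.2⁻¹) '' (E i ×ˢ E j))ᶜ ∈ 𝓝 (1 : G) :=
      hc.isClosed.isOpen_compl.mem_nhds h1
    have h3 : Tendsto (fun p : G × G => p.1⁻¹ * p.2) (𝓝 1 ×ˢ 𝓝 1) (𝓝 (1 : G)) := by
      have : Continuous fun p : G × G => p.1⁻¹ * p.2 := by fun_prop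
      have := this.tendsto (1, 1)
      rwa [nhds_prod_eq, inv_one, one_mul] at this
    obtain ⟨V, hV, W, hW, hVW⟩ := Filter.mem_prod_iff.1 (h3 h2)
    refine ⟨V ∩ W, inter_mem hV hW, Set.disjoint_left.2 ?_⟩
    rintro _ ⟨v, hv, x, hx, rfl⟩ ⟨w, hw, y, hy, hxy⟩
    have h4 : v⁻¹ * w ∈ ((fun p : G × G => p.1 * p.2⁻¹) '' (E i ×ˢ E j))ᶜ :=
      hVW (show (v, w) ∈ V ×ˢ W from ⟨hv.1, hw.2⟩)
    refine h4 ⟨(x, y), ⟨hx, hy⟩, ?_⟩
    have h5 : w * y = v * x := hxy
    show x * y⁻¹ = v⁻¹ * w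
    rw [eq_inv_mul_iff_mul_eq, ← mul_assoc, ← h5, mul_inv_cancel_right]
  choose! V hV hVd using key
  refine ⟨⋂ i ∈ Finset.range M, ⋂ j ∈ (Finset.range M).filter (fun j => i ≠ j), V i j, ?_, ?_⟩
  · rw [Filter.biInter_finset_mem]
    intro i _
    rw [Filter.biInter_finset_mem]
    intro j hj
    exact hV i j (Finset.mem_filter.1 hj).2
  · intro i hi j hj hij
    have hsub : (⋂ i ∈ Finset.range M, ⋂ j ∈ (Finset.range M).filter (fun j => i ≠ j), V i j) ⊆
        V i j := by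
      intro x hx
      simp only [mem_iInter] at hx
      exact hx i (Finset.mem_range.2 hi) j (Finset.mem_filter.2 ⟨Finset.mem_range.2 hj, hij⟩)
    exact (hVd i j hij).mono (Set.mul_subset_mul_right hsub) (Set.mul_subset_mul_right hsub)

variable [T2Space G] [MeasurableSpace G] [BorelSpace G] (μ : Measure G) [SigmaFinite μ]
  [μ.IsOpenPosMeasure] [IsFiniteMeasureOnCompacts μ] [μ.OuterRegular]
  [μ.IsMulLeftInvariant] [μ.IsMulRightInvariant] [SecondCountableTopology G] [LocallyCompactSpace G]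
  {T : Lp ℂ 2 μ →L[ℂ] Lp ℂ 2 μ}

/-- the key estimate: no mass between `U` and `F` if `U⁻¹ F` has infinitely many disjoint conjugates -/
theorem kp_zero (hl : ∀ g f, T (tl μ g f) = tl μ g (T f)) (hr : ∀ g f, T (tr μ g f) = tr μ g (T f))
    (hT : PosOp μ T) (C : ℝ≥0∞) (hC : C ≠ ⊤)
    (hm : ∀ A, MeasurableSet A → μ A ≠ ⊤ → kp μ T A univ ≤ C * μ A)
    {U F : Set G} (hU : IsCompact U) (hF : IsCompact F) (a : ℕ → G)
    (ha : Pairwise fun i j => Disjoint ((fun y => a i * y * (a i)⁻¹) '' (U⁻¹ * F))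
      ((fun y => a j * y * (a j)⁻¹) '' (U⁻¹ * F))) : kp μ T U F = 0 := by
  have hUF : IsCompact (U⁻¹ * F) := hU.inv.mul hF
  have hcj : ∀ m, Continuous fun y : G => a m * y * (a m)⁻¹ := fun m => by fun_prop
  have hbound : ∀ M : ℕ, (M : ℝ≥0∞) * kp μ T U F ≤ (μ U + 1) * C := by
    intro M
    set E : ℕ → Set G := fun m => (fun y => a m * y * (a m)⁻¹) '' (U⁻¹ * F) with hE
    obtain ⟨V, hV, hVd⟩ := exists_disjoint_mul M E (fun m => hUF.image (hcj m)) ha
    -- the conjugates of `U`, `F`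
    set Um : ℕ → Set G := fun m => (fun y => a m * y * (a m)⁻¹) '' U with hUm
    set Fm : ℕ → Set G := fun m => (fun y => a m * y * (a m)⁻¹) '' F with hFm
    have hUmc : ∀ m, IsCompact (Um m) := fun m => hU.image (hcj m)
    have hFmc : ∀ m, IsCompact (Fm m) := fun m => hF.image (hcj m)
    have hconj : ∀ m (S : Set G), (fun y => a m * y * (a m)⁻¹) '' S = lA (a m) (rA (a m) S) := by
      intro m S
      ext y
      simp only [mem_image, lA, rA, mem_preimage]
      constructor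
      · rintro ⟨x, hx, rfl⟩
        rw [show (a m)⁻¹ * (a m * x * (a m)⁻¹) * a m = x by group]
        exact hx
      · intro h
        exact ⟨_, h, by group⟩
    have hμU : ∀ m, μ (Um m) = μ U := by
      intro m
      rw [hUm]
      simp only
      rw [hconj, mu_lA μ _ (meas_rA _ hU.measurableSet), mu_rA μ _ hU.measurableSet]
    have hkp : ∀ m, kp μ T (Um m) (Fm m) = kp μ T U F := by
      intro m
      rw [hUm, hFm]
      simp only
      rw [hconj, hconj, kp_lA μ hl _ (meas_rA _ hU.measurableSet)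
        (by rw [mu_rA μ _ hU.measurableSet]; exact hU.measure_lt_top.ne),
        kp_rA μ hr _ hU.measurableSet hU.measure_lt_top.ne]
    -- a small symmetric neighbourhood
    have hsm : ∀ m, ∃ W ∈ 𝓝 (1 : G), μ (Um m * W) ≤ μ U + 1 := by
      intro m
      have h1 : μ (Um m) < μ U + 1 := by
        rw [hμU]
        exact ENNReal.lt_add_right hU.measure_lt_top.ne one_ne_zero
      obtain ⟨O, hO, hOo, hOμ⟩ := (Um m).exists_isOpen_lt_of_lt _ h1
      obtain ⟨W, hW, hWO⟩ := compact_open_separated_mul_right (hUmc m) hOo hO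
      exact ⟨W, hW, (measure_mono hWO).trans hOμ.le⟩
    choose W hW hWμ using hsm
    have hN : V ∩ ⋂ m ∈ Finset.range M, W m ∈ 𝓝 (1 : G) :=
      inter_mem hV ((Filter.biInter_finset_mem _).2 fun m _ => hW m)
    have hN' : (V ∩ ⋂ m ∈ Finset.range M, W m) ∩ (V ∩ ⋂ m ∈ Finset.range M, W m)⁻¹ ∈ 𝓝 (1 : G) :=
      inter_mem hN (inv_mem_nhds_one G hN)
    obtain ⟨K1, hK1, hK1sub, hK1c⟩ := local_compact_nhds hN'
    set U' : Set G := K1 ∩ K1⁻¹ with hU'
    have hU'c : IsCompact U' := hK1c.inter hK1c.inv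
    have hU'n : U' ∈ 𝓝 (1 : G) := inter_mem hK1 (inv_mem_nhds_one G hK1)
    have hU'i : U'⁻¹ = U' := by
      rw [hU', Set.inter_inv, inv_inv, inter_comm]
    have hU'V : U' ⊆ V := fun x hx => (hK1sub hx.1).1.1
    have hU'W : ∀ m < M, U' ⊆ W m := by
      intro m hm x hx
      have := (hK1sub hx.1).1.2
      simp only [mem_iInter] at this
      exact this m (Finset.mem_range.2 hm)
    have hμU'0 : μ U' ≠ 0 := (Measure.measure_pos_of_mem_nhds μ hU'n).ne'
    have hμU't : μ U' ≠ ⊤ := hU'c.measure_lt_top.ne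
    have hEm : ∀ m, (Um m)⁻¹ * Fm m = E m := by
      intro m
      ext y
      simp only [hUm, hFm, hE, Set.mem_mul, Set.mem_inv, mem_image]
      constructor
      · rintro ⟨u, ⟨u', hu', hu⟩, f, ⟨f', hf', rfl⟩, rfl⟩
        refine ⟨u'⁻¹ * f', ⟨u'⁻¹, by simpa using hu', f', hf', rfl⟩, ?_⟩
        have : u = a m * u'⁻¹ * (a m)⁻¹ := by
          rw [← inv_inv u, ← hu]
          group
        rw [this]
        group
      · rintro ⟨_, ⟨u, hu, f, hf, rfl⟩, rfl⟩
        refine ⟨a m * u * (a m)⁻¹, ⟨u⁻¹, hu, by group⟩, a m * f * (a m)⁻¹, ⟨f, hf, rfl⟩, by group⟩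
    have hone : ∀ m < M, μ U' * kp μ T U F ≤ (μ U + 1) * kp μ T U' (U' * E m) := by
      intro m hm'
      have h1 := kp_avg μ hl hT (U := Um m) (F := Fm m) (U' := U') (D := Um m * U')
        (W := U' * E m) (hUmc m).measurableSet (hUmc m).measure_lt_top.ne (hFmc m).measurableSet
        (hFmc m).measure_lt_top.ne hU'c.measurableSet hμU't ((hUmc m).mul hU'c).measurableSet
        (fun x hx u hu => ⟨x, hx, u⁻¹, by
          show u⁻¹ ∈ U'
          rw [← hU'i]
          simpa using hu, rfl⟩)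
        (by
          rintro _ ⟨x, hx, u, hu, rfl⟩ f hf
          refine ⟨u⁻¹, by
            show u⁻¹ ∈ U'
            rw [← hU'i]
            simpa using hu, x⁻¹ * f, ?_, by group⟩
          rw [← hEm]
          exact ⟨x⁻¹, by simpa using hx, f, hf, rfl⟩)
      rw [hU'i, hkp] at h1
      refine h1.trans (mul_le_mul_left ?_ _)
      exact (measure_mono (Set.mul_subset_mul_left (hU'W m hm'))).trans (hWμ m)
    have hsum : (M : ℝ≥0∞) * (μ U' * kp μ T U F) ≤ (μ U + 1) * (C * μ U') := by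
      calc (M : ℝ≥0∞) * (μ U' * kp μ T U F) = ∑ m ∈ Finset.range M, μ U' * kp μ T U F := by
            rw [Finset.sum_const, Finset.card_range, nsmul_eq_mul]
        _ ≤ ∑ m ∈ Finset.range M, (μ U + 1) * kp μ T U' (U' * E m) :=
            Finset.sum_le_sum fun m hm' => hone m (Finset.mem_range.1 hm')
        _ = (μ U + 1) * ∑ m ∈ Finset.range M, kp μ T U' (U' * E m) := by rw [Finset.mul_sum]
        _ ≤ (μ U + 1) * kp μ T U' univ := by
            refine mul_le_mul_right ?_ _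
            have h2 : ∑ m ∈ Finset.range M, kp μ T U' (U' * E m) =
                kp μ T U' (⋃ m ∈ Finset.range M, U' * E m) := by
              rw [kp, lintegral_biUnion_finset]
              · rfl
              · intro i hi j hj hij
                have := hVd i (Finset.mem_range.1 hi) j (Finset.mem_range.1 hj) hij
                exact this.mono (Set.mul_subset_mul_right hU'V) (Set.mul_subset_mul_right hU'V)
              · intro m _
                exact (hU'c.mul (hUF.image (hcj m))).measurableSet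
            rw [h2]
            exact kp_mono_right μ (subset_univ _)
        _ ≤ (μ U + 1) * (C * μ U') :=
            mul_le_mul_right (hm U' hU'c.measurableSet hμU't) _
    have h3 : μ U' * ((M : ℝ≥0∞) * kp μ T U F) ≤ μ U' * ((μ U + 1) * C) := by
      calc μ U' * ((M : ℝ≥0∞) * kp μ T U F) = (M : ℝ≥0∞) * (μ U' * kp μ T U F) := by ring
        _ ≤ (μ U + 1) * (C * μ U') := hsum
        _ = μ U' * ((μ U + 1) * C) := by ring
    exact (ENNReal.mul_le_mul_iff_right hμU'0 hμU't).1 h3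
  by_contra hne
  have hfin : (μ U + 1) * C ≠ ⊤ :=
    ENNReal.mul_ne_top (ENNReal.add_ne_top.2 ⟨hU.measure_lt_top.ne, ENNReal.one_ne_top⟩) hC
  have h4 : kp μ T U F ≠ ⊤ := by
    intro h
    have := hbound 1
    rw [h] at this
    simp at this
    exact hfin this
  obtain ⟨M, hM⟩ := ENNReal.exists_nat_mul_gt hne hfin
  exact absurd (hbound M) (not_le.2 hM)

/-- no mass between disjoint compact sets -/
theorem kp_compact (hrec : Rec G) (hl : ∀ g f, T (tl μ g f) = tl μ g (T f))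
    (hr : ∀ g f, T (tr μ g f) = tr μ g (T f))
    (hT : PosOp μ T) (C : ℝ≥0∞) (hC : C ≠ ⊤)
    (hm : ∀ A, MeasurableSet A → μ A ≠ ⊤ → kp μ T A univ ≤ C * μ A)
    {A B : Set G} (hA : IsCompact A) (hB : IsCompact B) (hAB : Disjoint A B) :
    kp μ T A B = 0 := by
  have hloc : ∀ x y : G, x ≠ y → ∃ U ∈ 𝓝 x, ∃ F ∈ 𝓝 y, IsCompact U ∧ IsCompact F ∧
      kp μ T U F = 0 := by
    intro x y hxy
    have hz : x⁻¹ * y ≠ 1 := by
      rw [Ne, inv_mul_eq_one]
      exact hxy
    obtain ⟨E, hE, a, ha⟩ := hrec (x⁻¹ * y) hz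
    have h1 : Tendsto (fun p : G × G => p.1⁻¹ * p.2) (𝓝 x ×ˢ 𝓝 y) (𝓝 (x⁻¹ * y)) := by
      have : Continuous fun p : G × G => p.1⁻¹ * p.2 := by fun_prop
      have := this.tendsto (x, y)
      rwa [nhds_prod_eq] at this
    obtain ⟨V, hV, W, hW, hVW⟩ := Filter.mem_prod_iff.1 (h1 hE)
    obtain ⟨U, hU, hUV, hUc⟩ := local_compact_nhds hV
    obtain ⟨F, hF, hFW, hFc⟩ := local_compact_nhds hW
    refine ⟨U, hU, F, hF, hUc, hFc, ?_⟩
    have hsub : U⁻¹ * F ⊆ E := by
      rintro _ ⟨u, hu, f, hf, rfl⟩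
      have h2 := hVW (show (u⁻¹, f) ∈ V ×ˢ W from ⟨hUV hu, hFW hf⟩)
      simpa using h2
    refine kp_zero μ hl hr hT C hC hm hUc hFc a fun i j hij => ?_
    exact (ha hij).mono (image_mono hsub) (image_mono hsub)
  -- fix `x`
  have hstep : ∀ x ∈ A, ∃ U ∈ 𝓝 x, IsCompact U ∧ kp μ T U B = 0 := by
    intro x hx
    have h1 : ∀ y ∈ B, ∃ U ∈ 𝓝 x, ∃ F ∈ 𝓝 y, IsCompact U ∧ IsCompact F ∧ kp μ T U F = 0 :=
      fun y hy => hloc x y fun h => Set.disjoint_left.1 hAB hx (h ▸ hy)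
    choose! U hU F hF hUc hFc hk using h1
    obtain ⟨t, htB⟩ := hB.elim_nhds_subcover' (fun y _ => F y) (fun y hy => hF y hy)
    obtain ⟨U0, hU0c, hU0⟩ := exists_compact_mem_nhds x
    have hU1c : IsCompact (U0 ∩ ⋂ y ∈ t, U y) :=
      hU0c.inter_right (isClosed_biInter fun y _ => (hUc y y.2).isClosed)
    refine ⟨U0 ∩ ⋂ y ∈ t, U y, inter_mem hU0 ((Filter.biInter_finset_mem t).2 fun y _ =>
      hU y y.2), hU1c, ?_⟩
    have h2 : ∀ S : Set G, MeasurableSet S → kp μ T (U0 ∩ ⋂ y ∈ t, U y) S =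
        (μ.withDensity fun x => ‖T (iv μ (U0 ∩ ⋂ y ∈ t, U y)) x‖ₑ) S := fun S hS =>
      (withDensity_apply _ hS).symm
    rw [h2 B hB.measurableSet]
    refine measure_mono_null htB ?_
    have hnull : ∀ (ρ : Measure G), (∀ y ∈ t, ρ (F y) = 0) → ρ (⋃ y ∈ t, F y) = 0 := fun ρ h =>
      (measure_biUnion_null_iff t.finite_toSet.countable).2 h
    refine hnull _ fun y hy => ?_
    rw [← h2 _ (hFc y y.2).measurableSet]
    refine le_antisymm ?_ bot_le
    rw [← hk y y.2]
    exact kp_mono_left μ hT hU1c.measurableSet hU1c.measure_lt_top.ne (hUc y y.2).measurableSet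
      (hUc y y.2).measure_lt_top.ne (hFc y y.2).measurableSet (hFc y y.2).measure_lt_top.ne
      (inter_subset_right.trans (biInter_subset_of_mem hy))
  choose! U hU hUc hk using hstep
  obtain ⟨t, htA⟩ := hA.elim_nhds_subcover' (fun y _ => U y) (fun y hy => hU y hy)
  have h2 : ∀ S : Set G, IsCompact S → kp μ T S B =
      (μ.withDensity fun x => ‖ContinuousLinearMap.adjoint T (iv μ B) x‖ₑ) S := fun S hS => by
    rw [withDensity_apply _ hS.measurableSet]
    exact kp_eq_adj μ hT hS.measurableSet hS.measure_lt_top.ne hB.measurableSet hB.measure_lt_top.ne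
  rw [h2 A hA]
  refine measure_mono_null htA ?_
  have hnull : ∀ (ρ : Measure G), (∀ y ∈ t, ρ (U y) = 0) → ρ (⋃ y ∈ t, U y) = 0 := fun ρ h =>
    (measure_biUnion_null_iff t.finite_toSet.countable).2 h
  refine hnull _ fun y _ => ?_
  rw [← h2 _ (hUc y y.2)]
  exact hk y y.2

/-- `T 1_A` vanishes outside `A` -/
theorem ae_zero_compl (hrec : Rec G) (hl : ∀ g f, T (tl μ g f) = tl μ g (T f))
    (hr : ∀ g f, T (tr μ g f) = tr μ g (T f))
    (hT : PosOp μ T) (C : ℝ≥0∞) (hC : C ≠ ⊤)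
    (hm : ∀ A, MeasurableSet A → μ A ≠ ⊤ → kp μ T A univ ≤ C * μ A)
    {A : Set G} (hA : IsCompact A) : kp μ T A Aᶜ = 0 := by
  -- the complement of `A` is a countable union of compact sets
  obtain ⟨K, hK, hKA⟩ : ∃ K : ℕ → Set G, (∀ n, IsCompact (K n)) ∧ ⋃ n, K n = Aᶜ := by
    have h1 : IsSigmaCompact Aᶜ := by
      have : LocallyCompactSpace (Aᶜ : Set G) := hA.isClosed.isOpen_compl.locallyCompactSpace
      exact isSigmaCompact_iff_sigmaCompactSpace.2 inferInstance
    obtain ⟨K, hK, hKA⟩ := h1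
    exact ⟨K, hK, hKA⟩
  have h2 : ∀ S : Set G, MeasurableSet S → kp μ T A S =
        (μ.withDensity fun x => ‖T (iv μ A) x‖ₑ) S := fun S hS =>
      (withDensity_apply _ hS).symm
  rw [h2 _ hA.measurableSet.compl, ← hKA]
  refine measure_iUnion_null fun n => ?_
  rw [← h2 _ (hK n).measurableSet]
  refine kp_compact μ hrec hl hr hT C hC hm hA (hK n) ?_
  refine Set.disjoint_left.2 fun x hx hx' => ?_
  have : x ∈ Aᶜ := hKA ▸ mem_iUnion_of_mem n hx'
  exact this hx

/-- no mass between disjoint sets of finite measure -/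
theorem kp_disj [μ.InnerRegularCompactLTTop] (hrec : Rec G)
    (hl : ∀ g f, T (tl μ g f) = tl μ g (T f))
    (hr : ∀ g f, T (tr μ g f) = tr μ g (T f))
    (hT : PosOp μ T) (C : ℝ≥0∞) (hC : C ≠ ⊤)
    (hm : ∀ A, MeasurableSet A → μ A ≠ ⊤ → kp μ T A univ ≤ C * μ A)
    {A B : Set G} (hA : MeasurableSet A) (hμ : μ A ≠ ⊤) (hB : MeasurableSet B) (hBμ : μ B ≠ ⊤)
    (hAB : Disjoint A B) : kp μ T A B = 0 := by
  set k : G → ℝ≥0∞ := fun x => ‖ContinuousLinearMap.adjoint T (iv μ B) x‖ₑ with hk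
  have hkm : AEMeasurable k μ := (Lp.aestronglyMeasurable _).enorm
  rw [kp_eq_adj μ hT hA hμ hB hBμ]
  -- it is enough to look at compact subsets of `A`
  have hcomp : ∀ A', A' ⊆ A → IsCompact A' → ∫⁻ x in A', k x ∂μ = 0 := by
    intro A' hA' hc
    rw [← kp_eq_adj μ hT hc.measurableSet hc.measure_lt_top.ne hB hBμ]
    refine le_antisymm ?_ bot_le
    rw [← ae_zero_compl μ hrec hl hr hT C hC hm hc]
    refine kp_mono_right μ fun x hx hx' => ?_
    exact Set.disjoint_left.1 hAB (hA' hx') hx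
  have h1 : ∀ n : ℕ, ∃ A' ⊆ A, IsCompact A' ∧ μ (A \ A') < (n + 1 : ℝ≥0∞)⁻¹ := by
    intro n
    exact hA.exists_isCompact_sdiff_lt hμ (by simp)
  choose K hKA hKc hKμ using h1
  have h2 : μ (A \ ⋃ n, K n) = 0 := by
    refine le_antisymm ?_ bot_le
    refine ge_of_tendsto' (f := fun n : ℕ => (n + 1 : ℝ≥0∞)⁻¹) (x := atTop) ?_ fun n => ?_
    · have h3 := ENNReal.tendsto_inv_nat_nhds_zero
      have h4 := h3.comp (tendsto_add_atTop_nat 1)
      refine h4.congr fun n => ?_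
      simp
    · exact (measure_mono (sdiff_subset_sdiff_right (subset_iUnion K n))).trans (hKμ n).le
  have h3 : ∫⁻ x in A, k x ∂μ = (μ.withDensity k) A := (withDensity_apply k hA).symm
  rw [h3]
  have h4 : A ⊆ (A \ ⋃ n, K n) ∪ ⋃ n, K n := by
    intro x hx
    by_cases h : x ∈ ⋃ n, K n
    · exact Or.inr h
    · exact Or.inl ⟨hx, h⟩
  refine measure_mono_null h4 (measure_union_null ?_ ?_)
  · exact (withDensity_absolutelyContinuous μ k) h2
  · refine measure_iUnion_null fun n => ?_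
    rw [withDensity_apply k (hKc n).measurableSet]
    exact hcomp _ (hKA n) (hKc n)

/-- **[KL]** a positivity preserving operator of `L²(G)` which commutes with all left and right
translations and is bounded on integrable functions is a scalar, if the conjugation is recurrent only
at `1`. -/
theorem scalar [μ.InnerRegularCompactLTTop] [μ.IsHaarMeasure] (hrec : Rec G)
    (hl : ∀ g f, T (tl μ g f) = tl μ g (T f))
    (hr : ∀ g f, T (tr μ g f) = tr μ g (T f))
    (hT : PosOp μ T) (C : ℝ≥0∞) (hC : C ≠ ⊤)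
    (hm : ∀ A, MeasurableSet A → μ A ≠ ⊤ → kp μ T A univ ≤ C * μ A) :
    ∃ c : NNReal, ∀ f, T f = (c : ℂ) • f := by
  have hdisj : ∀ A B, MeasurableSet A → μ A ≠ ⊤ → MeasurableSet B → μ B ≠ ⊤ → Disjoint A B →
      kp μ T A B = 0 := fun A B hA hAμ hB hBμ h =>
    kp_disj μ hrec hl hr hT C hC hm hA hAμ hB hBμ h
  set S : ℕ → Set G := spanningSets μ with hS
  have hSm : ∀ n, MeasurableSet (S n) := measurableSet_spanningSets μ
  have hSμ : ∀ n, μ (S n) ≠ ⊤ := fun n => (measure_spanningSets_lt_top μ n).ne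
  have hSU : ⋃ n, S n = univ := iUnion_spanningSets μ
  have hSmono : Monotone S := monotone_spanningSets μ
  -- the restriction to `A`
  have hfin : ∀ A B, MeasurableSet A → μ A ≠ ⊤ → MeasurableSet B → A ⊆ B → μ B ≠ ⊤ →
      kp μ T A univ = kp μ T A B := by
    intro A B hA hAμ hB hAB hBμ
    have h1 : kp μ T A Bᶜ = 0 := by
      have h2 : Bᶜ ⊆ ⋃ n, (S n \ B) := by
        intro x hx
        obtain ⟨n, hn⟩ := mem_iUnion.1 (hSU ▸ mem_univ x : x ∈ ⋃ n, S n)
        exact mem_iUnion.2 ⟨n, hn, hx⟩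
      have h3 : ∀ R : Set G, MeasurableSet R → kp μ T A R =
          (μ.withDensity fun x => ‖T (iv μ A) x‖ₑ) R := fun R hR => (withDensity_apply _ hR).symm
      rw [h3 _ hB.compl]
      refine measure_mono_null h2 (measure_iUnion_null fun n => ?_)
      rw [← h3 _ ((hSm n).diff hB)]
      refine hdisj A _ hA hAμ ((hSm n).diff hB)
        ((measure_mono sdiff_subset).trans_lt (hSμ n).lt_top).ne ?_
      exact Set.disjoint_left.2 fun x hx hx' => hx'.2 (hAB hx)
    have h4 := lintegral_add_compl (μ := μ) (fun x => ‖T (iv μ A) x‖ₑ) hB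
    rw [kp, Measure.restrict_univ, ← h4]
    show kp μ T A B + kp μ T A Bᶜ = kp μ T A B
    rw [h1, add_zero]
  -- the density
  set k : ℕ → G → ℝ≥0∞ := fun n x => ‖ContinuousLinearMap.adjoint T (iv μ (S n)) x‖ₑ with hk
  have hkm : ∀ n, AEMeasurable (k n) μ := fun n => (Lp.aestronglyMeasurable _).enorm
  have hkA : ∀ n A, MeasurableSet A → μ A ≠ ⊤ → ∫⁻ x in A, k n x ∂μ = kp μ T A (S n) :=
    fun n A hA hAμ => (kp_eq_adj μ hT hA hAμ (hSm n) (hSμ n)).symm
  have hkmono : ∀ᵐ x ∂μ, Monotone fun n => k n x := by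
    have h1 : ∀ᵐ x ∂μ, ∀ n, k n x ≤ k (n + 1) x := by
      rw [ae_all_iff]
      intro n
      refine ae_le_of_forall_setLIntegral_le_of_sigmaFinite₀ (hkm n) fun A hA hAμ => ?_
      rw [hkA n A hA hAμ.ne, hkA (n + 1) A hA hAμ.ne]
      exact kp_mono_right μ (hSmono (Nat.le_succ n))
    filter_upwards [h1] with x hx
    exact monotone_nat_of_le_succ hx
  set kk : G → ℝ≥0∞ := fun x => ⨆ n, k n x with hkk
  set ν : Measure G := μ.withDensity kk with hν
  have hνA : ∀ A, MeasurableSet A → μ A ≠ ⊤ → ν A = kp μ T A univ := by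
    intro A hA hAμ
    rw [hν, withDensity_apply _ hA, hkk]
    simp only
    rw [lintegral_iSup' (fun n => (hkm n).restrict) (ae_restrict_of_ae hkmono)]
    simp only [hkA _ A hA hAμ]
    rw [← hSU, kp, setLIntegral_iUnion_of_directed _ hSmono.directed_le]
    rfl
  have hmonoA : ∀ A, Monotone fun n => A ∩ S n := fun A n m h =>
    inter_subset_inter_right _ (hSmono h)
  have hUA : ∀ A : Set G, ⋃ n, (A ∩ S n) = A := by
    intro A
    rw [← inter_iUnion, hSU, inter_univ]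
  have hinv : ν.IsMulLeftInvariant := by
    refine ⟨fun g => ?_⟩
    ext A hA
    rw [Measure.map_apply (measurable_const_mul g) hA]
    have h1 : ∀ B, MeasurableSet B → μ B ≠ ⊤ → ν ((g * ·) ⁻¹' B) = ν B := by
      intro B hB hBμ
      have h2 : (g * ·) ⁻¹' B = lA g⁻¹ B := by
        ext x
        simp [lA]
      have h3 : lA g⁻¹ (univ : Set G) = univ := rfl
      rw [h2, hνA _ (meas_lA _ hB) (by rwa [mu_lA μ _ hB]), hνA B hB hBμ]
      conv_lhs => rw [← h3]
      exact kp_lA μ hl _ hB hBμ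
    have h4 : ∀ n, μ (A ∩ S n) ≠ ⊤ := fun n =>
      ((measure_mono inter_subset_right).trans_lt (hSμ n).lt_top).ne
    rw [← hUA A, preimage_iUnion, Monotone.measure_iUnion (hmonoA A), Monotone.measure_iUnion]
    · congr 1
      funext n
      exact h1 _ (hA.inter (hSm n)) (h4 n)
    · intro n m h
      exact preimage_mono (hmonoA A h)
  have hcomp : IsFiniteMeasureOnCompacts ν := by
    refine ⟨fun K hK => ?_⟩
    rw [hνA K hK.measurableSet hK.measure_lt_top.ne]
    exact (hm K hK.measurableSet hK.measure_lt_top.ne).trans_lt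
      (ENNReal.mul_lt_top hC.lt_top hK.measure_lt_top)
  have hsm := Measure.isMulLeftInvariant_eq_smul ν μ
  set c : NNReal := Measure.haarScalarFactor ν μ with hc
  have hkc : ∀ A, MeasurableSet A → μ A ≠ ⊤ → kp μ T A univ = c * μ A := by
    intro A hA hAμ
    rw [← hνA A hA hAμ, hsm]
    rfl
  have hAB : ∀ A B, MeasurableSet A → μ A ≠ ⊤ → MeasurableSet B → μ B ≠ ⊤ →
      kp μ T A B = c * μ (A ∩ B) := by
    intro A B hA hAμ hB hBμ
    have hiμ : μ (A ∩ B) ≠ ⊤ := ((measure_mono inter_subset_right).trans_lt hBμ.lt_top).ne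
    have hdμ : μ (A \ B) ≠ ⊤ := ((measure_mono sdiff_subset).trans_lt hAμ.lt_top).ne
    rw [kp_eq_adj μ hT hA hAμ hB hBμ, ← lintegral_inter_add_sdiff _ A hB,
      ← kp_eq_adj μ hT (hA.inter hB) hiμ hB hBμ, ← kp_eq_adj μ hT (hA.diff hB) hdμ hB hBμ,
      hdisj _ _ (hA.diff hB) hdμ hB hBμ (Set.disjoint_left.2 fun x hx hx' => hx.2 hx'), add_zero,
      ← hfin _ _ (hA.inter hB) hiμ hB inter_subset_right hBμ, hkc _ (hA.inter hB) hiμ]
  have hTA : ∀ A, MeasurableSet A → μ A ≠ ⊤ → T (iv μ A) = (c : ℂ) • iv μ A := by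
    intro A hA hAμ
    have h1 : (fun x => ‖T (iv μ A) x‖ₑ) =ᵐ[μ] A.indicator fun _ => (c : ℝ≥0∞) := by
      refine ae_eq_of_forall_setLIntegral_eq_of_sigmaFinite₀ (Lp.aestronglyMeasurable _).enorm
        (aemeasurable_const.indicator hA) fun B hB hBμ => ?_
      have h2 := hAB A B hA hAμ hB hBμ.ne
      rw [kp] at h2
      rw [h2, lintegral_indicator hA, lintegral_const, Measure.restrict_apply MeasurableSet.univ,
        univ_inter, Measure.restrict_apply hA]
    apply Lp.ext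
    filter_upwards [h1, hT.ae μ hA hAμ, iv_ae μ hA hAμ, Lp.coeFn_smul (c : ℂ) (iv μ A)] with
      x e1 e2 e3 e4
    rw [e2.eq, e4, Pi.smul_apply, e3]
    have e5 : ‖T (iv μ A) x‖ₑ = A.indicator (fun _ => (c : ℝ≥0∞)) x := e1
    by_cases hx : x ∈ A
    · rw [indicator_of_mem hx] at e5 ⊢
      have e6 : ‖T (iv μ A) x‖ = (c : ℝ) := by
        have := congrArg ENNReal.toReal e5
        simpa using this
      rw [e6]
      simp
    · rw [indicator_of_notMem hx] at e5 ⊢
      have e6 : T (iv μ A) x = 0 := by simpa using e5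
      rw [e6]
      simp
  refine ⟨c, fun f => ?_⟩
  refine Lp.induction (p := 2) (by simp) (motive := fun f : Lp ℂ 2 μ => T f = (c : ℂ) • f) ?_ ?_ ?_ f
  · intro a A hA hAμ
    have h1 : (Lp.simpleFunc.indicatorConst 2 hA hAμ.ne a : Lp ℂ 2 μ) = a • iv μ A := by
      rw [Lp.simpleFunc.coe_indicatorConst, iv_eq μ hA hAμ.ne]
      apply Lp.ext
      filter_upwards [indicatorConstLp_coeFn (p := 2) (hs := hA) (hμs := hAμ.ne) (c := a),
        indicatorConstLp_coeFn (p := 2) (hs := hA) (hμs := hAμ.ne) (c := (1 : ℂ)),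
        Lp.coeFn_smul a (indicatorConstLp 2 hA hAμ.ne (1 : ℂ))] with x e1 e2 e3
      rw [e1, e3, Pi.smul_apply, e2]
      by_cases hx : x ∈ A <;> simp [hx]
    rw [h1, map_smul, hTA A hA hAμ.ne, smul_comm]
  · intro f g hf hg _ h1 h2
    rw [map_add, h1, h2, smul_add]
  · exact isClosed_eq T.continuous (continuous_const_smul _)

end rec

section final

variable {G : Type*} [Group G] [TopologicalSpace G] [IsTopologicalGroup G] [T2Space G]
  [LocallyCompactSpace G] [SecondCountableTopology G] [MeasurableSpace G] [BorelSpace G]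
  (μ : Measure G) [μ.IsHaarMeasure] [μ.IsMulRightInvariant] {T : Lp ℂ 2 μ →L[ℂ] Lp ℂ 2 μ}

/-- **[KL], L¹ form** -/
theorem scalar_L1 (hrec : Rec G) (hl : ∀ g f, T (tl μ g f) = tl μ g (T f))
    (hr : ∀ g f, T (tr μ g f) = tr μ g (T f)) (hT : PosOp μ T) (C : ℝ≥0∞) (hC : C ≠ ⊤)
    (hm : ∀ A, MeasurableSet A → μ A ≠ ⊤ → kp μ T A univ ≤ C * μ A) :
    ∃ c : NNReal, ∀ f, T f = (c : ℂ) • f :=
  scalar μ hrec hl hr hT C hC hm

theorem posOp_of (hpos : ∀ f : Lp ℂ 2 μ, (∀ᵐ x ∂μ, Pos (f x)) → ∀ᵐ x ∂μ, Pos (T f x)) :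
    PosOp μ T := by
  intro A B hA hAμ hB hBμ
  have h1 : ∀ᵐ x ∂μ, Pos (iv μ A x) := by
    filter_upwards [iv_ae μ hA hAμ] with x hx
    rw [hx]
    by_cases h : x ∈ A
    · rw [indicator_of_mem h]
      exact ⟨by simp, by simp⟩
    · rw [indicator_of_notMem h]
      exact ⟨by simp, by simp⟩
  have h2 := hpos _ h1
  rw [inner_iv μ hB hBμ]
  have hint : IntegrableOn (T (iv μ A) : G → ℂ) B μ :=
    integrableOn_Lp_of_measure_ne_top _ (by simp) hBμ
  have h3 : ∫ x in B, T (iv μ A) x ∂μ = ((∫ x in B, ‖T (iv μ A) x‖ ∂μ : ℝ) : ℂ) := by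
    rw [← integral_complex_ofReal]
    exact integral_congr_ae (ae_restrict_of_ae (h2.mono fun x hx => hx.eq))
  rw [h3]
  refine ⟨?_, by simp⟩
  rw [Complex.ofReal_re]
  positivity

theorem adj_tl (hl : ∀ g f, T (tl μ g f) = tl μ g (T f)) (g : G) (f : Lp ℂ 2 μ) :
    ContinuousLinearMap.adjoint T (tl μ g f) = tl μ g (ContinuousLinearMap.adjoint T f) := by
  have hin : ∀ (g : G) (u w : Lp ℂ 2 μ), ⟪tl μ g u, tl μ g w⟫_ℂ = ⟪u, w⟫_ℂ := by
    intro g u w
    exact (Lp.compMeasurePreservingₗᵢ ℂ (fun x => g⁻¹ * x)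
      (measurePreserving_mul_left μ g⁻¹)).inner_map_map u w
  have hinv : ∀ (g : G) (u : Lp ℂ 2 μ), tl μ g (tl μ g⁻¹ u) = u := by
    intro g u
    apply Lp.ext
    have h3 := (measurePreserving_mul_left μ g⁻¹).quasiMeasurePreserving.ae (tl_ae μ g⁻¹ u)
    filter_upwards [tl_ae μ g (tl μ g⁻¹ u), h3] with x e1 e2
    rw [e1, e2]
    simp
  refine ext_inner_left ℂ fun u => ?_
  rw [ContinuousLinearMap.adjoint_inner_right]
  conv_lhs => rw [← hinv g u, hl, hin]
  conv_rhs => rw [← hinv g u, hin]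
  rw [ContinuousLinearMap.adjoint_inner_right]

theorem adj_tr (hr : ∀ g f, T (tr μ g f) = tr μ g (T f)) (g : G) (f : Lp ℂ 2 μ) :
    ContinuousLinearMap.adjoint T (tr μ g f) = tr μ g (ContinuousLinearMap.adjoint T f) := by
  have hin : ∀ (g : G) (u w : Lp ℂ 2 μ), ⟪tr μ g u, tr μ g w⟫_ℂ = ⟪u, w⟫_ℂ := by
    intro g u w
    exact (Lp.compMeasurePreservingₗᵢ ℂ (fun x => x * g)
      (measurePreserving_mul_right μ g)).inner_map_map u w
  have hinv : ∀ (g : G) (u : Lp ℂ 2 μ), tr μ g (tr μ g⁻¹ u) = u := by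
    intro g u
    apply Lp.ext
    have h3 := (measurePreserving_mul_right μ g).quasiMeasurePreserving.ae (tr_ae μ g⁻¹ u)
    filter_upwards [tr_ae μ g (tr μ g⁻¹ u), h3] with x e1 e2
    rw [e1, e2]
    simp
  refine ext_inner_left ℂ fun u => ?_
  rw [ContinuousLinearMap.adjoint_inner_right]
  conv_lhs => rw [← hinv g u, hr, hin]
  conv_rhs => rw [← hinv g u, hin]
  rw [ContinuousLinearMap.adjoint_inner_right]

theorem posOp_adj (hT : PosOp μ T) : PosOp μ (ContinuousLinearMap.adjoint T) := by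
  intro A B hA hAμ hB hBμ
  rw [ContinuousLinearMap.adjoint_inner_right, ← inner_conj_symm]
  exact pos_conj (hT B A hB hBμ hA hAμ)

/-- **[KL], L^∞ form**: `T` positivity preserving, commuting with all translations, `T 1_A ≤ C`. -/
theorem scalar_Linf (hrec : Rec G) (hl : ∀ g f, T (tl μ g f) = tl μ g (T f))
    (hr : ∀ g f, T (tr μ g f) = tr μ g (T f)) (hT : PosOp μ T) (C : NNReal)
    (hb : ∀ A, MeasurableSet A → μ A ≠ ⊤ → ∀ᵐ x ∂μ, ‖T (iv μ A) x‖ ≤ C) :
    ∃ c : NNReal, ∀ f, T f = (c : ℂ) • f := by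
  have hT' := posOp_adj μ hT
  have hm : ∀ A, MeasurableSet A → μ A ≠ ⊤ →
      kp μ (ContinuousLinearMap.adjoint T) A univ ≤ C * μ A := by
    intro A hA hAμ
    rw [← iUnion_spanningSets μ, kp,
      setLIntegral_iUnion_of_directed _ (monotone_spanningSets μ).directed_le]
    refine iSup_le fun n => ?_
    have h1 := kp_eq_adj μ hT' hA hAμ (measurableSet_spanningSets μ n)
      (measure_spanningSets_lt_top μ n).ne
    rw [ContinuousLinearMap.adjoint_adjoint] at h1
    have h2 : kp μ (ContinuousLinearMap.adjoint T) A (spanningSets μ n) ≤ C * μ A := by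
      rw [h1]
      have h3 : ∀ᵐ x ∂μ.restrict A, ‖T (iv μ (spanningSets μ n)) x‖ₑ ≤ C := by
        refine ae_restrict_of_ae ?_
        filter_upwards [hb _ (measurableSet_spanningSets μ n)
          (measure_spanningSets_lt_top μ n).ne] with x hx
        rw [← ofReal_norm]
        exact (ENNReal.ofReal_le_ofReal hx).trans (by simp)
      refine (lintegral_mono_ae h3).trans ?_
      rw [lintegral_const, Measure.restrict_apply MeasurableSet.univ, univ_inter]
    exact h2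
  obtain ⟨c, hc⟩ := scalar μ hrec (adj_tl μ hl) (adj_tr μ hr) hT' C ENNReal.coe_ne_top hm
  refine ⟨c, fun f => ?_⟩
  refine ext_inner_left ℂ fun u => ?_
  rw [← ContinuousLinearMap.adjoint_inner_left, hc, inner_smul_left, inner_smul_right]
  simp

end final

end Vale.Agent.P092.H325
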