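import Vale.Agent.P092.H325.KLMeasure
import Vale.Agent.P092.H515.RkDef

/-!
P092 (helper325): finite measures on `SL_n(k)` which are invariant under conjugation by a lattice are
carried by the centre.
-/

open MeasureTheory Set Matrix

namespace Vale.Agent.P092.H325

section gen

variable {H : Type*} [Group H] [TopologicalSpace H] [IsTopologicalGroup H] [PolishSpace H]
  [MeasurableSpace H] [BorelSpace H]

/-- The image of `ν` under the conjugation by `g`, as a function of `gΓ`. -/
noncomputable def cj (Γ : Subgroup H) (ν : Measure H)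
    (hν : ∀ γ ∈ Γ, ν.map (fun x => γ * x * γ⁻¹) = ν) : H ⧸ Γ → Measure H :=
  Quotient.lift (fun g => ν.map (fun x => g * x * g⁻¹)) (by
    intro a b hab
    have hab' : a⁻¹ * b ∈ Γ := QuotientGroup.leftRel_apply.1 hab
    have hc : ∀ g : H, Continuous fun x : H => g * x * g⁻¹ := fun g => by fun_prop
    show ν.map (fun x => a * x * a⁻¹) = ν.map (fun x => b * x * b⁻¹)
    conv_lhs => rw [← hν _ hab']
    rw [Measure.map_map (hc _).measurable (hc _).measurable]
    congr 1
    funext x
    simp only [Function.comp]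
    group)

omit [PolishSpace H] in
theorem cj_mk (Γ : Subgroup H) (ν : Measure H)
    (hν : ∀ γ ∈ Γ, ν.map (fun x => γ * x * γ⁻¹) = ν) (g : H) :
    cj Γ ν hν (g : H ⧸ Γ) = ν.map (fun x => g * x * g⁻¹) := rfl

theorem null_of_lattice (Γ : Subgroup H) [DiscreteTopology Γ] (m : Measure (H ⧸ Γ))
    [IsFiniteMeasure m] (hm : m ≠ 0) (hinv : ∀ g : H, m.map (fun q => g • q) = m)
    (Z : Set H) (hZ : MeasurableSet Z) (hZn : ∀ g x : H, g * x * g⁻¹ ∈ Z ↔ x ∈ Z)
    (hH : ∀ μ : Measure H, IsFiniteMeasure μ → (∀ g : H, μ.map (fun x => g * x * g⁻¹) = μ) →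
      μ Zᶜ = 0)
    (ν : Measure H) [IsFiniteMeasure ν] (hν : ∀ γ ∈ Γ, ν.map (fun x => γ * x * γ⁻¹) = ν) :
    ν Zᶜ = 0 := by
  have hcl : IsClosed (Γ : Set H) := Subgroup.isClosed_of_discrete
  have hc : ∀ g : H, Continuous fun x : H => g * x * g⁻¹ := fun g => by fun_prop
  have hmeas : Measurable (cj Γ ν hν) := by
    refine Measure.measurable_of_measurable_coe _ fun B hB => ?_
    refine measurable_from_quotient.2 ?_
    show Measurable fun g : H => (ν.map (fun x => g * x * g⁻¹)) B
    have h1 : ∀ g : H, (ν.map (fun x => g * x * g⁻¹)) B =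
        ν (Prod.mk g ⁻¹' {p : H × H | p.1 * p.2 * p.1⁻¹ ∈ B}) := by
      intro g
      rw [Measure.map_apply (hc g).measurable hB]
      rfl
    simp only [h1]
    refine measurable_measure_prodMk_left ?_
    have h2 : Continuous fun p : H × H => p.1 * p.2 * p.1⁻¹ := by fun_prop
    exact h2.measurable hB
  set μ : Measure H := m.bind (cj Γ ν hν) with hμ
  have hμa : ∀ B, MeasurableSet B → μ B = ∫⁻ q, cj Γ ν hν q B ∂m := fun B hB =>
    Measure.bind_apply hB hmeas.aemeasurable
  have htot : ∀ q : H ⧸ Γ, cj Γ ν hν q univ = ν univ := by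
    intro q
    obtain ⟨g, rfl⟩ := QuotientGroup.mk_surjective q
    rw [cj_mk, Measure.map_apply (hc g).measurable MeasurableSet.univ, preimage_univ]
  have hfin : IsFiniteMeasure μ := by
    constructor
    rw [hμa _ MeasurableSet.univ]
    simp only [htot, lintegral_const]
    exact ENNReal.mul_lt_top (measure_lt_top _ _) (measure_lt_top _ _)
  have hconj : ∀ g : H, μ.map (fun x => g * x * g⁻¹) = μ := by
    intro g
    ext B hB
    rw [Measure.map_apply (hc g).measurable hB, hμa _ ((hc g).measurable hB), hμa _ hB]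
    have h1 : ∀ q : H ⧸ Γ, cj Γ ν hν q ((fun x => g * x * g⁻¹) ⁻¹' B) =
        cj Γ ν hν (g • q) B := by
      intro q
      obtain ⟨a, rfl⟩ := QuotientGroup.mk_surjective q
      have e : g • (a : H ⧸ Γ) = ((g * a : H) : H ⧸ Γ) := rfl
      rw [e, cj_mk, cj_mk, Measure.map_apply (hc _).measurable ((hc g).measurable hB),
        Measure.map_apply (hc _).measurable hB]
      congr 1
      ext x
      simp only [mem_preimage]
      rw [show g * (a * x * a⁻¹) * g⁻¹ = g * a * x * (g * a)⁻¹ by group]
    simp only [h1]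
    have hgm : Measurable fun q : H ⧸ Γ => g • q := (continuous_const_smul g).measurable
    have h2 : Measurable fun q : H ⧸ Γ => cj Γ ν hν q B := (Measure.measurable_coe hB).comp hmeas
    rw [← lintegral_map h2 hgm, hinv]
  have h0 : μ Zᶜ = 0 := hH μ hfin hconj
  have hmZ : Measurable fun q : H ⧸ Γ => cj Γ ν hν q Zᶜ :=
    (Measure.measurable_coe hZ.compl).comp hmeas
  rw [hμa _ hZ.compl, lintegral_eq_zero_iff hmZ] at h0
  have : (ae m).NeBot := ae_neBot.2 hm
  obtain ⟨q, hq⟩ := h0.exists
  obtain ⟨g, rfl⟩ := QuotientGroup.mk_surjective q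
  have hq' : (ν.map (fun x => g * x * g⁻¹)) Zᶜ = 0 := hq
  rw [Measure.map_apply (hc g).measurable hZ.compl] at hq'
  have e : (fun x => g * x * g⁻¹) ⁻¹' Zᶜ = Zᶜ := by
    ext x
    simp only [mem_preimage, mem_compl_iff, hZn]
  rw [e] at hq'
  exact hq'

end gen

section sl

variable {k : Type} [NontriviallyNormedField k] [ProperSpace k] {n : Type} [Fintype n] [DecidableEq n]

theorem polish_sl : PolishSpace (SpecialLinearGroup n k) := by
  have h0 : PolishSpace k := by
    have : CompleteSpace k := complete_of_proper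
    have : SecondCountableTopology k := secondCountable_of_proper
    infer_instance
  have h1 : PolishSpace (Matrix n n k) := inferInstanceAs (PolishSpace (n → n → k))
  have hcl : IsClosed {A : Matrix n n k | A.det = 1} :=
    isClosed_eq (continuous_id.matrix_det) continuous_const
  exact hcl.polishSpace

/-- A finite measure on `SL_n(k)` which is invariant under the conjugation by the elements of a
lattice is carried by the centre. -/
theorem ae_center_of_lattice [MeasurableSpace (SpecialLinearGroup n k)]
    [BorelSpace (SpecialLinearGroup n k)] {Γ : Subgroup (SpecialLinearGroup n k)}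
    (hΓ : H515.St.IsLattice Γ) (ν : Measure (SpecialLinearGroup n k)) [IsFiniteMeasure ν]
    (hν : ∀ γ ∈ Γ, ν.map (fun x => γ * x * γ⁻¹) = ν) :
    ∀ᵐ x ∂ν, x ∈ Subgroup.center (SpecialLinearGroup n k) := by
  have hP : PolishSpace (SpecialLinearGroup n k) := polish_sl
  have hd : DiscreteTopology Γ := hΓ.disc
  obtain ⟨m0, hm0, hfin, hinv⟩ := hΓ.covol
  have hcl : IsClosed (Γ : Set (SpecialLinearGroup n k)) := Subgroup.isClosed_of_discrete
  have hb : (inferInstance : MeasurableSpace (SpecialLinearGroup n k ⧸ Γ)) =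
      borel (SpecialLinearGroup n k ⧸ Γ) := BorelSpace.measurable_eq
  have key : ∀ (ms : MeasurableSpace (SpecialLinearGroup n k ⧸ Γ))
      (hms : ms = borel (SpecialLinearGroup n k ⧸ Γ)), ∃ m : @Measure _ ms,
      m ≠ 0 ∧ m Set.univ < ⊤ ∧ ∀ g : SpecialLinearGroup n k, ∀ s, MeasurableSet[ms] s →
        m ((fun x => g • x) ⁻¹' s) = m s := by
    rintro ms rfl
    exact ⟨m0, hm0, hfin, hinv⟩
  obtain ⟨m, hm, hmfin, hminv⟩ := key _ hb
  have hmf : IsFiniteMeasure m := ⟨hmfin⟩
  have hZ : IsClosed ((Subgroup.center (SpecialLinearGroup n k) : Subgroup _) :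
      Set (SpecialLinearGroup n k)) := by
    have : ((Subgroup.center (SpecialLinearGroup n k) : Subgroup _) :
        Set (SpecialLinearGroup n k)) = ⋂ g, {x | g * x = x * g} := by
      ext x
      simp [Subgroup.mem_center_iff]
    rw [this]
    exact isClosed_iInter fun g => isClosed_eq (by fun_prop) (by fun_prop)
  have h := null_of_lattice Γ m hm (fun g => by
      ext s hs
      have hgm : Measurable fun q : SpecialLinearGroup n k ⧸ Γ => g • q :=
        (continuous_const_smul g).measurable
      rw [Measure.map_apply hgm hs]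
      exact hminv g s hs) _ hZ.measurableSet (fun g x => by
      constructor
      · intro h
        have h2 := (inferInstance : (Subgroup.center (SpecialLinearGroup n k)).Normal).conj_mem _ h
          g⁻¹
        rw [show g⁻¹ * (g * x * g⁻¹) * g⁻¹⁻¹ = x by group] at h2
        exact h2
      · intro h
        exact (inferInstance : (Subgroup.center (SpecialLinearGroup n k)).Normal).conj_mem _ h g)
    (fun μ hμ hc => by
      have h3 := ae_mem_center μ hc
      rw [ae_iff] at h3
      exact h3) ν hν
  rw [ae_iff]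
  exact h

end sl

end Vale.Agent.P092.H325
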