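import Mathlib

/-!
P092 (helper325): finite measures on `SL_n(k)` which are invariant under conjugation are carried by the
centre.
-/

open MeasureTheory Set Matrix

namespace Vale.Agent.P092.H325

section scale

variable {X : Type*} [MeasurableSpace X] {k : Type*} [NontriviallyNormedField k] [MeasurableSpace k]
  [OpensMeasurableSpace k]

/-- A function which is scaled by a measure preserving map vanishes almost everywhere if the measure is
finite. -/
theorem ae_eq_zero_of_scale (μ : Measure X) [IsFiniteMeasure μ] (f : X → k) (hf : Measurable f)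
    (T : X → X) (hT : MeasurePreserving T μ μ) (c : k) (hc : 1 < ‖c‖) (h : ∀ x, f (T x) = c * f x) :
    ∀ᵐ x ∂μ, f x = 0 := by
  set E : ℤ → Set X := fun m => {x | ‖c‖ ^ m < ‖f x‖} with hE
  have hc0 : (0 : ℝ) < ‖c‖ := lt_trans one_pos hc
  have hEm : ∀ m, MeasurableSet (E m) := fun m =>
    measurableSet_lt measurable_const hf.norm
  have hpre : ∀ m, T ⁻¹' (E (m + 1)) = E m := by
    intro m
    ext x
    simp only [hE, mem_preimage, mem_ofPred_eq, h, norm_mul]
    rw [zpow_add_one₀ hc0.ne', mul_comm (‖c‖ ^ m)]
    exact mul_lt_mul_iff_right₀ hc0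
  have hstep : ∀ m, μ (E (m + 1)) = μ (E m) := by
    intro m
    rw [← hpre m, hT.measure_preimage (hEm _).nullMeasurableSet]
  have hall : ∀ m : ℤ, μ (E m) = μ (E 0) := by
    intro m
    induction m using Int.induction_on with
    | zero => rfl
    | succ i hi => rw [hstep, hi]
    | pred i hi =>
      rw [← hi, ← hstep (-(i : ℤ) - 1)]
      congr 2
      ring
  have hanti : Antitone fun i : ℕ => E (i : ℤ) := by
    intro i j hij x hx
    simp only [hE, mem_ofPred_eq] at hx ⊢
    exact lt_of_le_of_lt (zpow_le_zpow_right₀ hc.le (by exact_mod_cast hij)) hx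
  have hinter : (⋂ i : ℕ, E (i : ℤ)) = ∅ := by
    ext x
    simp only [hE, mem_iInter, mem_ofPred_eq, mem_empty_iff_false, iff_false, not_forall, not_lt]
    obtain ⟨N, hN⟩ := pow_unbounded_of_one_lt ‖f x‖ hc
    exact ⟨N, by rw [zpow_natCast]; exact hN.le⟩
  have h0 : μ (E 0) = 0 := by
    have ht := tendsto_measure_iInter_atTop (μ := μ) (s := fun i : ℕ => E (i : ℤ))
      (fun i => (hEm _).nullMeasurableSet) hanti ⟨0, measure_ne_top _ _⟩
    rw [hinter, measure_empty] at ht
    have hconst : (μ ∘ fun i : ℕ => E (i : ℤ)) = fun _ => μ (E 0) := by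
      funext i
      exact hall i
    rw [hconst] at ht
    exact tendsto_nhds_unique tendsto_const_nhds ht
  have hsub : {x | f x ≠ 0} ⊆ ⋃ i : ℕ, E (-(i : ℤ)) := by
    intro x hx
    have hfx : 0 < ‖f x‖ := norm_pos_iff.2 hx
    obtain ⟨N, hN⟩ := pow_unbounded_of_one_lt (‖f x‖⁻¹) hc
    refine mem_iUnion.2 ⟨N, ?_⟩
    simp only [hE, mem_ofPred_eq]
    rw [_root_.zpow_neg, zpow_natCast]
    exact inv_lt_of_inv_lt₀ hfx hN
  rw [ae_iff]
  refine measure_mono_null hsub (measure_iUnion_null fun i => ?_)
  rw [hall, h0]

end scale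

section sl

variable {k : Type*} [NontriviallyNormedField k] {n : Type*} [Fintype n] [DecidableEq n]

/-- the diagonal element with `t` at `i` and `t⁻¹` at `j` -/
noncomputable def tor (i j : n) (hij : i ≠ j) (t : k) (ht : t ≠ 0) : SpecialLinearGroup n k :=
  ⟨diagonal (Function.update (Function.update 1 i t) j t⁻¹), by
    rw [det_diagonal, Finset.prod_update_of_mem (Finset.mem_univ j), Finset.prod_update_of_mem
      (by simp [hij])]
    simp [ht]⟩

/-- the elementary matrix `1 + c E_ij` -/
noncomputable def elt (i j : n) (hij : i ≠ j) (c : k) : SpecialLinearGroup n k :=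
  ⟨transvection i j c, det_transvection_of_ne i j hij c⟩

/-- the entry `(i, j)` -/
def ent (i j : n) (x : SpecialLinearGroup n k) : k := (x : Matrix n n k) i j

theorem ent_mul (i j : n) (x y : SpecialLinearGroup n k) :
    ent i j (x * y) = ((x : Matrix n n k) * (y : Matrix n n k)) i j := rfl

theorem conj_tor (i j : n) (hij : i ≠ j) (t : k) (ht : t ≠ 0) (x : SpecialLinearGroup n k) :
    ent i j (tor i j hij t ht * x * (tor i j hij t ht)⁻¹) = (t * t) * ent i j x := by
  set g := tor i j hij t ht with hg
  set y := g * x * g⁻¹ with hy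
  have h : y * g = g * x := by rw [hy, inv_mul_cancel_right]
  have e1 : ent i j (y * g) = ent i j y * t⁻¹ := by
    rw [ent_mul, hg]
    simp [tor, mul_diagonal, ent]
  have e2 : ent i j (g * x) = t * ent i j x := by
    rw [ent_mul, hg]
    simp [tor, diagonal_mul, hij, ent]
  have h2 : ent i j y * t⁻¹ = t * ent i j x := by
    rw [← e1, ← e2, h]
  field_simp at h2
  rw [h2]
  ring

theorem conj_elt (i j : n) (hij : i ≠ j) (c : k) (x : SpecialLinearGroup n k) :
    ent i j (elt i j hij c * x * (elt i j hij c)⁻¹) =
      ent i j x + c * ent j j x - c * ent i i x - c * c * ent j i x := by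
  set g := elt i j hij c with hg
  set y := g * x * g⁻¹ with hy
  have h : y * g = g * x := by rw [hy, inv_mul_cancel_right]
  have e1 : ent i j (y * g) = ent i j y + ent i i y * c := by
    rw [ent_mul, hg]
    simp [elt, transvection, Matrix.mul_add, mul_comm, ent]
  have e2 : ent i j (g * x) = ent i j x + c * ent j j x := by
    rw [ent_mul, hg]
    simp [elt, transvection, Matrix.add_mul, ent]
  have e3 : ent i i (y * g) = ent i i y := by
    rw [ent_mul, hg]
    simp [elt, transvection, Matrix.mul_add, hij, ent]
  have e4 : ent i i (g * x) = ent i i x + c * ent j i x := by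
    rw [ent_mul, hg]
    simp [elt, transvection, Matrix.add_mul, ent]
  have h3 : ent i j y + ent i i y * c = ent i j x + c * ent j j x := by
    rw [← e1, ← e2, h]
  have h4 : ent i i y = ent i i x + c * ent j i x := by
    rw [← e3, ← e4, h]
  rw [h4] at h3
  linear_combination h3

theorem mem_center_of_ent (x : SpecialLinearGroup n k) (hx : ∀ i j : n, i ≠ j → ent i j x = 0)
    (hx' : ∀ i j : n, ent i i x = ent j j x) : x ∈ Subgroup.center (SpecialLinearGroup n k) := by
  rw [Subgroup.mem_center_iff]
  intro g
  ext a b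
  have h1 : ((g : Matrix n n k) * (x : Matrix n n k)) a b = ent a b g * ent b b x := by
    rw [Matrix.mul_apply]
    exact Finset.sum_eq_single b (fun c _ hc => by
      have := hx c b hc
      simp only [ent] at this
      rw [this, mul_zero]) (by simp)
  have h2 : ((x : Matrix n n k) * (g : Matrix n n k)) a b = ent a a x * ent a b g := by
    rw [Matrix.mul_apply]
    exact Finset.sum_eq_single a (fun c _ hc => by
      have := hx a c hc.symm
      simp only [ent] at this
      rw [this, zero_mul]) (by simp)
  show ((g : Matrix n n k) * (x : Matrix n n k)) a b = ((x : Matrix n n k) * (g : Matrix n n k)) a b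
  rw [h1, h2, hx' b a, mul_comm]

theorem continuous_ent (i j : n) : Continuous (ent i j : SpecialLinearGroup n k → k) :=
  Continuous.matrix_elem continuous_subtype_val i j

variable [MeasurableSpace (SpecialLinearGroup n k)] [BorelSpace (SpecialLinearGroup n k)]

/-- A finite measure on `SL_n(k)` invariant under conjugation is carried by the centre. -/
theorem ae_mem_center (μ : Measure (SpecialLinearGroup n k)) [IsFiniteMeasure μ]
    (h : ∀ g : SpecialLinearGroup n k, μ.map (fun x => g * x * g⁻¹) = μ) :
    ∀ᵐ x ∂μ, x ∈ Subgroup.center (SpecialLinearGroup n k) := by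
  borelize k
  have hcont : ∀ g : SpecialLinearGroup n k, Continuous fun x => g * x * g⁻¹ := fun g => by fun_prop
  have hT : ∀ g : SpecialLinearGroup n k, MeasurePreserving (fun x => g * x * g⁻¹) μ μ := fun g =>
    ⟨(hcont g).measurable, h g⟩
  have hent : ∀ i j : n, Measurable (ent i j : SpecialLinearGroup n k → k) := fun i j =>
    (continuous_ent i j).measurable
  obtain ⟨t, ht⟩ := NormedField.exists_one_lt_norm k
  have ht0 : t ≠ 0 := by
    rintro rfl
    simp at ht
    linarith
  have hoff : ∀ i j : n, i ≠ j → ∀ᵐ x ∂μ, ent i j x = 0 := by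
    intro i j hij
    refine ae_eq_zero_of_scale μ _ (hent i j) _ (hT (tor i j hij t ht0)) (t * t) ?_
      (fun x => conj_tor i j hij t ht0 x)
    rw [norm_mul]
    nlinarith
  have hdiag : ∀ i j : n, i ≠ j → ∀ᵐ x ∂μ, ent i i x = ent j j x := by
    intro i j hij
    have h1 := (hT (elt i j hij 1)).quasiMeasurePreserving.ae (hoff i j hij)
    filter_upwards [h1, hoff i j hij, hoff j i hij.symm] with x hx hx1 hx2
    rw [conj_elt, hx1, hx2] at hx
    linear_combination -hx
  have hoff' : ∀ᵐ x ∂μ, ∀ i j : n, i ≠ j → ent i j x = 0 := by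
    rw [ae_all_iff]
    intro i
    rw [ae_all_iff]
    intro j
    by_cases hij : i = j
    · exact Filter.Eventually.of_forall fun x hx => absurd hij hx
    · filter_upwards [hoff i j hij] with x hx _ using hx
  have hdiag' : ∀ᵐ x ∂μ, ∀ i j : n, ent i i x = ent j j x := by
    rw [ae_all_iff]
    intro i
    rw [ae_all_iff]
    intro j
    by_cases hij : i = j
    · exact Filter.Eventually.of_forall fun x => by rw [hij]
    · exact hdiag i j hij
  filter_upwards [hoff', hdiag'] with x hx hx'
  exact mem_center_of_ent x hx hx'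

end sl

end Vale.Agent.P092.H325
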