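import Vale.Agent.P092.H325.XcI
import Vale.Agent.P092.SN.Defs
import Vale.Agent.P092.H35.Sig
import Vale.Agent.P092.H35.Spg
import Vale.Agent.P092.H715.DisjP
import Vale.Agent.P092.H715.Gen
import Vale.Agent.P092.H626.PGuni

/-!
P092, TEAM N, row [N-XC] (helper325): **two classical legs with target `PGL_(N+1)(k)` commute.**
Any local field, any `N`, any source group `E` with `ι : SL_(N+1)(k) →* E`.
-/

set_option linter.all false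

open scoped InnerProductSpace ENNReal ZeroAtInfty LinearAlgebra.Projectivization
open Filter Topology ContinuousLinearMap MeasureTheory Matrix

namespace Vale.Agent.P092.H325

open Vale.Agent.P092.RC (Cm TRN GG PG YY)
open Vale.Agent.P092.SN (CY PH UD nm)
open Vale.Agent.P092.H295
open Vale.Agent.P092.H715.Disj (Disj NN nn_comm nn_fix disj_nn sv sv_ne)
open Vale.Agent.P092.H35 (sp)
open Vale.Agent.P092.H35.Sig (sgm)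

section tgt

variable {k : Type} [NontriviallyNormedField k] {N : ℕ} {Γ : Type} [Group Γ]

/-- the homomorphism to `PGL` -/
noncomputable def qP (q : Γ → GG k N) (h : PH q) : Γ →* PG k (N + 1) :=
  MonoidHom.mk' (fun γ => sp k (N + 1) (q γ)) (by
    intro γ γ'
    obtain ⟨c, hc⟩ := h γ γ'
    rw [← map_mul]
    exact (H35.mkP_eq_iff (g := SpecialLinearGroup.toGL (q γ * q γ'))
      (h := SpecialLinearGroup.toGL (q (γ * γ'))).2 ⟨c, hc⟩).symm)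

theorem qP_apply (q : Γ → GG k N) (h : PH q) (γ : Γ) : qP q h γ = sp k (N + 1) (q γ) := rfl

/-- bounded overlap from uniform discreteness -/
theorem overlap_ud {q : Γ → GG k N} (hq : PH q) (hu : UD q Set.univ) {C : Set (PG k (N + 1))}
    (hC : IsCompact C) : ∃ M : ℕ, ∀ g : PG k (N + 1),
      ∑' γ, C.indicator (1 : PG k (N + 1) → ℝ≥0∞) (qP q hq γ * g) ≤ M := by
  classical
  have h1 : IsCompact ((fun p : PG k (N + 1) × PG k (N + 1) => p.1 * p.2⁻¹) '' (C ×ˢ C)) :=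
    (hC.prod hC).image (continuous_fst.mul continuous_snd.inv)
  obtain ⟨R, hR⟩ := (h1.image H35.np_cont).bddAbove
  obtain ⟨M, hM⟩ := hu (max 1 R)
  refine ⟨M, fun g => ?_⟩
  rw [ENNReal.tsum_eq_iSup_sum]
  refine iSup_le fun S => ?_
  have e : ∑ γ ∈ S, C.indicator (1 : PG k (N + 1) → ℝ≥0∞) (qP q hq γ * g) =
      ((S.filter fun γ => qP q hq γ * g ∈ C).card : ℝ≥0∞) := by
    rw [Finset.card_filter, Nat.cast_sum]
    refine Finset.sum_congr rfl fun γ _ => ?_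
    by_cases h : qP q hq γ * g ∈ C
    · simp [h]
    · simp [h]
  rw [e]
  have h2 : (S.filter fun γ => qP q hq γ * g ∈ C).card ≤ M := by
    refine hM _ (fun γ _ => Set.mem_univ γ) (fun γ hγ γ' hγ' => ?_)
    have a1 := (Finset.mem_filter.1 hγ).2
    have a2 := (Finset.mem_filter.1 hγ').2
    have a3 : sp k (N + 1) (q γ' * (q γ)⁻¹) = (qP q hq γ' * g) * (qP q hq γ * g)⁻¹ := by
      rw [map_mul, map_inv, qP_apply, qP_apply]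
      group
    have a4 : H35.np (sp k (N + 1) (q γ' * (q γ)⁻¹)) ≤ R := by
      refine hR ⟨_, ⟨(qP q hq γ' * g, qP q hq γ * g), ⟨a2, a1⟩, rfl⟩, ?_⟩
      rw [a3]
    exact H35.nmx_le_of_np (Nat.succ_ne_zero N) a4
  exact_mod_cast h2

/-- bounded overlap from discreteness -/
theorem overlap_disc {q : Γ → GG k N} (hq : PH q) (hd : ∀ C : ℝ, {γ : Γ | nm (q γ) ≤ C}.Finite)
    {C : Set (PG k (N + 1))} (hC : IsCompact C) : ∃ M : ℕ, ∀ g : PG k (N + 1),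
      ∑' γ, C.indicator (1 : PG k (N + 1) → ℝ≥0∞) (qP q hq γ * g) ≤ M := by
  refine H715.Xc6.overlap_tsum (qP q hq) (fun D hD => ?_) hC
  obtain ⟨R, hR⟩ := (hD.image H35.np_cont).bddAbove
  exact (hd (max 1 R)).subset fun γ hγ =>
    H35.nmx_le_of_np (Nat.succ_ne_zero N) (hR ⟨_, hγ, rfl⟩)

end tgt

section leg

variable {k : Type} [NontriviallyNormedField k] [ProperSpace k] {N : ℕ} {E₀ Γ K : Type} [Group E₀]
  [Group Γ] [NormedAddCommGroup K] [InnerProductSpace ℂ K] [CompleteSpace K]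

/-- [N-CLS] the calculus `Q` of the collineation, twisted by `σ`; symmetries of `SL_(N+1)(k)` only
(`SN.ClsN` gives it) -/
structure ClsI (ι : GG k N →* E₀) (π : E₀ →* (K →L[ℂ] K)) (lam : Γ →* (K →L[ℂ] K))
    (W : Set (K →L[ℂ] K)) (q : Γ → GG k N) (Ec : YY k N → (CY k N →⋆ₐ[ℂ] (K →L[ℂ] K)))
    (σ : k →+* k) (Q : C₀(PG k (N + 1), ℂ) →⋆ₙₐ[ℂ] (K →L[ℂ] K)) : Prop where
  nd : ∀ ξ, (∀ ψ, Q ψ ξ = 0) → ξ = 0
  cm : ∀ ψ, Cm W (Q ψ)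
  cov : ∀ γ (ψ ψ' : C₀(PG k (N + 1), ℂ)), (∀ x, ψ' x = ψ ((sp k (N + 1) (q γ))⁻¹ * x)) →
    lam γ * Q ψ * lam γ⁻¹ = Q ψ'
  pcov : ∀ (h : GG k N) (ψ ψ' : C₀(PG k (N + 1), ℂ)),
    (∀ x, ψ' x = ψ (x * sp k (N + 1) (SpecialLinearGroup.map σ h))) →
    π (ι h) * Q ψ * π (ι h)⁻¹ = Q ψ'
  mulE : ∀ y (f : CY k N) (ψ ψ' : C₀(PG k (N + 1), ℂ)),
    (∀ x, ψ' x = f (x • sgm σ (N + 1) y) * ψ x) → Ec y f * Q ψ = Q ψ'

variable {ι : GG k N →* E₀} {π : E₀ →* (K →L[ℂ] K)} {lam : Γ →* (K →L[ℂ] K)}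
  {W : Set (K →L[ℂ] K)} {q : Γ → GG k N} {Ec : YY k N → (CY k N →⋆ₐ[ℂ] (K →L[ℂ] K))}
  {σ : k →+* k} {Q : C₀(PG k (N + 1), ℂ) →⋆ₙₐ[ℂ] (K →L[ℂ] K)}

/-- the points of a classical leg in the letters of helper295 -/
theorem ClsI.pt (h : ClsI ι π lam W q Ec σ Q) (hq : PH q) (y : YY k N) :
    Pt (π.comp ι) lam W (qP q hq) ((sp k (N + 1)).comp (SpecialLinearGroup.map σ))
      (sgm σ (N + 1) y) (Ec y) Q where
  nd := h.nd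
  cm := h.cm
  cov γ ψ := h.cov γ ψ _ fun x => rfl
  pcov g ψ := by
    rw [MonoidHom.comp_apply, MonoidHom.comp_apply, map_inv]
    exact h.pcov g ψ _ fun x => rfl
  mulE f ψ := h.mulE y f ψ _ fun x => rfl

/-- the points generate -/
theorem ClsI.gen (h : ClsI ι π lam W q Ec σ Q) {T : K →L[ℂ] K} (hT : ∀ y f, Commute T (Ec y f))
    (ψ : C₀(PG k (N + 1), ℂ)) : Commute T (Q ψ) := by
  refine H715.Gen.comm_abs (H789.isOpenEmbedding_cmap (k := k) (m := N)) h.nd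
    (E := fun i => Ec (H789.src k N i)) (fun i f ψ ψ' hψ => ?_) (fun i f => hT _ f) ψ
  refine h.mulE (H789.src k N i) f ψ ψ' fun x => ?_
  rw [H35.Sig.sgm_src, hψ x]
  rfl

theorem sp_smul (h : GG k N) (x : YY k N) : sp k (N + 1) h • x = h • x := rfl

end leg

section xc

variable {k : Type} [NontriviallyNormedField k] [ProperSpace k] {N : ℕ} {E₀ Γ₁ Γ₂ K : Type}
  [Group E₀] [TopologicalSpace E₀] [Group Γ₁] [Group Γ₂] [NormedAddCommGroup K]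
  [InnerProductSpace ℂ K] [CompleteSpace K]
  {ι : GG k N →* E₀} {π : E₀ →* (K →L[ℂ] K)} {lam₁ : Γ₁ →* (K →L[ℂ] K)}
  {lam₂ : Γ₂ →* (K →L[ℂ] K)} {X : Set (K →L[ℂ] K)} {Ω : K} {q₁ : Γ₁ → GG k N}
  {E₁ : YY k N → (CY k N →⋆ₐ[ℂ] (K →L[ℂ] K))} {σ₁ : k →+* k}
  {Q₁ : C₀(PG k (N + 1), ℂ) →⋆ₙₐ[ℂ] (K →L[ℂ] K)}

/-- **[N-XC]**, the second leg with any target group -/
theorem nXc_gen [Countable Γ₁] {G₂ : Type} [Group G₂] [TopologicalSpace G₂]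
    [IsTopologicalGroup G₂] [T2Space G₂] [LocallyCompactSpace G₂] [SecondCountableTopology G₂]
    [MeasurableSpace G₂] [BorelSpace G₂] (μ₂ : Measure G₂) [μ₂.IsHaarMeasure]
    [μ₂.IsMulRightInvariant] {q₂ : Γ₂ →* G₂} {ι₂ : GG k N →* G₂}
    {Q₂ : C₀(G₂, ℂ) →⋆ₙₐ[ℂ] (K →L[ℂ] K)}
    (hPic : RC.Pic π lam₁ (X ∪ Set.range lam₂) Ω)
    (tv : ∀ Y, Cm (X ∪ Set.range lam₂) Y → (∀ γ, Y * lam₁ γ = lam₁ γ * Y) → ∀ h : GG k N,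
      ⟪π (ι h) Ω, Y (π (ι h) Ω)⟫_ℂ = ⟪Ω, Y Ω⟫_ℂ)
    (adj₂ : ∀ γ, adjoint (lam₂ γ) = lam₂ γ⁻¹) (ph₁ : PH q₁)
    (ov₁ : ∀ C : Set (PG k (N + 1)), IsCompact C → ∃ M : ℕ, ∀ g : PG k (N + 1),
      ∑' γ, C.indicator (1 : PG k (N + 1) → ℝ≥0∞) (qP q₁ ph₁ γ * g) ≤ M)
    (h₁ : ClsI ι π lam₁ (X ∪ Set.range lam₂) q₁ E₁ σ₁ Q₁)
    (nd₂ : ∀ ξ, (∀ ψ, Q₂ ψ ξ = 0) → ξ = 0) (cm₂ : ∀ ψ, Cm (X ∪ Set.range lam₁) (Q₂ ψ))
    (cov₂ : ∀ γ ψ, lam₂ γ * Q₂ ψ * lam₂ γ⁻¹ = Q₂ (ltr (q₂ γ) ψ))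
    (pcov₂ : ∀ (h : GG k N) ψ, π (ι h) * Q₂ ψ * π (ι h)⁻¹ = Q₂ (rtr (ι₂ h) ψ))
    (ψ : C₀(PG k (N + 1), ℂ)) (χ : C₀(G₂, ℂ)) : Commute (Q₁ ψ) (Q₂ χ) := by
  letI : MeasurableSpace (PG k (N + 1)) := borel _
  haveI : BorelSpace (PG k (N + 1)) := ⟨rfl⟩
  haveI : (Measure.haar : Measure (PG k (N + 1))).IsMulRightInvariant :=
    H626.rightInv_pg k (N + 1) _
  haveI : Infinite k := NontriviallyNormedField.infinite k
  refine (h₁.gen (T := Q₂ χ) (fun y f => Commute.symm ?_) ψ).symm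
  obtain ⟨⟨v, hv⟩, rfl⟩ := H820.pj_surj y
  have hpt := h₁.pt ph₁ (H820.pj k (Fin (N + 1)) ⟨v, hv⟩)
  have e : sgm σ₁ (N + 1) (H820.pj k (Fin (N + 1)) ⟨v, hv⟩) =
      H820.pj k (Fin (N + 1)) ⟨sv σ₁ v, sv_ne σ₁ hv⟩ := rfl
  rw [e] at hpt
  exact xc_pt (Measure.haar : Measure (PG k (N + 1))) μ₂ ι hPic tv
    ov₁ hpt adj₂ nd₂ cm₂ cov₂ pcov₂ (M := NN v)
    (fun u hu u' hu' => nn_comm v hu hu') (fun u hu => nn_fix σ₁ hv hu)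
    (disj_nn σ₁ (H35.Sig.unb σ₁) _ (fun h x => rfl) hv) f χ

/-- **[N-XC] two classical legs commute.** -/
theorem nXc [Countable Γ₁] {q₂ : Γ₂ → GG k N} {E₂ : YY k N → (CY k N →⋆ₐ[ℂ] (K →L[ℂ] K))}
    {σ₂ : k →+* k} {Q₂ : C₀(PG k (N + 1), ℂ) →⋆ₙₐ[ℂ] (K →L[ℂ] K)}
    (hPic : RC.Pic π lam₁ (X ∪ Set.range lam₂) Ω)
    (tv : ∀ Y, Cm (X ∪ Set.range lam₂) Y → (∀ γ, Y * lam₁ γ = lam₁ γ * Y) → ∀ h : GG k N,
      ⟪π (ι h) Ω, Y (π (ι h) Ω)⟫_ℂ = ⟪Ω, Y Ω⟫_ℂ)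
    (adj₂ : ∀ γ, adjoint (lam₂ γ) = lam₂ γ⁻¹) (ph₁ : PH q₁)
    (ov₁ : ∀ C : Set (PG k (N + 1)), IsCompact C → ∃ M : ℕ, ∀ g : PG k (N + 1),
      ∑' γ, C.indicator (1 : PG k (N + 1) → ℝ≥0∞) (qP q₁ ph₁ γ * g) ≤ M) (ph₂ : PH q₂)
    (h₁ : ClsI ι π lam₁ (X ∪ Set.range lam₂) q₁ E₁ σ₁ Q₁)
    (h₂ : ClsI ι π lam₂ (X ∪ Set.range lam₁) q₂ E₂ σ₂ Q₂) (ψ φ : C₀(PG k (N + 1), ℂ)) :
    Commute (Q₁ ψ) (Q₂ φ) := by
  letI : MeasurableSpace (PG k (N + 1)) := borel _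
  haveI : BorelSpace (PG k (N + 1)) := ⟨rfl⟩
  haveI : (Measure.haar : Measure (PG k (N + 1))).IsMulRightInvariant :=
    H626.rightInv_pg k (N + 1) _
  exact nXc_gen (Measure.haar : Measure (PG k (N + 1))) (q₂ := qP q₂ ph₂)
    (ι₂ := (sp k (N + 1)).comp (SpecialLinearGroup.map σ₂)) hPic tv adj₂ ph₁ ov₁ h₁
    h₂.nd h₂.cm (fun γ ψ => h₂.cov γ ψ _ fun x => rfl) (fun h ψ => h₂.pcov h ψ _ fun x => rfl) ψ φ

end xc

end Vale.Agent.P092.H325
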