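import Vale.Agent.P092.H325.DisjU
import Vale.Agent.P092.H325.CrossA
import Vale.Agent.P092.H325.NXs
import Vale.Agent.P092.H370.Sp4

/-!
P092 (helper325), TEAM P, row [P-XC]: **two classical legs commute when the source is a symplectic
group** (or any group `S` with a homomorphism `ρ : S →* SL_(N+1)(k)` whose range contains one).
-/

set_option linter.all false

open scoped InnerProductSpace ENNReal ZeroAtInfty LinearAlgebra.Projectivization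
open Filter Topology ContinuousLinearMap MeasureTheory Matrix

namespace Vale.Agent.P092.H325

open Vale.Agent.P092.RC (Cm TRN GG PG YY)
open Vale.Agent.P092.SN (CY PH UD nm ClsN TVE)
open Vale.Agent.P092.H295
open Vale.Agent.P092.H715.Disj (Disj sv sv_ne)
open Vale.Agent.P092.H35 (sp)
open Vale.Agent.P092.H35.Sig (sgm)
open Vale.Agent.P092.H714.Sp (SpG om)
open Vale.Agent.P092.H15 (Alt)

section symm

variable {k : Type} [NontriviallyNormedField k] {N : ℕ} {S : Type} [Group S]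

/-- enough symmetries: for every point `[v]` a group `H₀` of elements fixing `v`, with almost
invariant bumps, such that the part of `S` over `H₀` moves the other points apart -/
def Sym (ρ : S →* GG k N) : Prop :=
  ∀ (v : Fin (N + 1) → k) (hv : v ≠ 0), ∃ H₀ : Subgroup (GG k N),
    (∀ {G : Type} [Group G] [TopologicalSpace G] [IsTopologicalGroup G] [T2Space G]
      [LocallyCompactSpace G] [MeasurableSpace G] [BorelSpace G] (μ : Measure G)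
      [μ.IsMulLeftInvariant] [μ.IsMulRightInvariant] [IsFiniteMeasureOnCompacts μ]
      [μ.IsOpenPosMeasure] (f : GG k N →* G), AB μ ((H₀.map f : Subgroup G) : Set G)) ∧
    (∀ g ∈ H₀, g.1 *ᵥ v = v) ∧
    ∀ σ : k →+* k, Disj ((sp k (N + 1)).comp ((SpecialLinearGroup.map σ).comp ρ))
      {h | ρ h ∈ H₀} (H820.pj k (Fin (N + 1)) ⟨sv σ v, sv_ne σ hv⟩)

/-- **symplectic groups have enough symmetries** -/
theorem sym_sp [ProperSpace k] {A : Matrix (Fin (N + 1)) (Fin (N + 1)) k} (hA : Alt A) (ρ : S →* GG k N)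
    (hρ : ∀ g ∈ SpG A, ∃ h, ρ h = g) : Sym ρ := by
  intro v hv
  refine ⟨Heis v (v ᵥ* A), fun μ _ _ _ _ f => ab_heis μ f v (v ᵥ* A), fun g hg => hg.1,
    fun σ => ?_⟩
  exact disj_sp hA σ (H35.Sig.unb σ) ρ hρ _ (fun h x => rfl) hv

end symm

section leg

variable {k : Type} [NontriviallyNormedField k] [ProperSpace k] {N : ℕ} {S E₀ Γ K : Type} [Group S]
  [Group E₀] [Group Γ] [NormedAddCommGroup K] [InnerProductSpace ℂ K] [CompleteSpace K]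

/-- the calculus `Q` of the collineation, twisted by `σ`; symmetries of `S` only -/
structure ClsS (ρ : S →* GG k N) (ι : S →* E₀) (π : E₀ →* (K →L[ℂ] K))
    (lam : Γ →* (K →L[ℂ] K)) (W : Set (K →L[ℂ] K)) (q : Γ → GG k N)
    (Ec : YY k N → (CY k N →⋆ₐ[ℂ] (K →L[ℂ] K))) (σ : k →+* k)
    (Q : C₀(PG k (N + 1), ℂ) →⋆ₙₐ[ℂ] (K →L[ℂ] K)) : Prop where
  nd : ∀ ξ, (∀ ψ, Q ψ ξ = 0) → ξ = 0
  cm : ∀ ψ, Cm W (Q ψ)
  cov : ∀ γ (ψ ψ' : C₀(PG k (N + 1), ℂ)), (∀ x, ψ' x = ψ ((sp k (N + 1) (q γ))⁻¹ * x)) →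
    lam γ * Q ψ * lam γ⁻¹ = Q ψ'
  pcov : ∀ (h : S) (ψ ψ' : C₀(PG k (N + 1), ℂ)),
    (∀ x, ψ' x = ψ (x * sp k (N + 1) (SpecialLinearGroup.map σ (ρ h)))) →
    π (ι h) * Q ψ * π (ι h)⁻¹ = Q ψ'
  mulE : ∀ y (f : CY k N) (ψ ψ' : C₀(PG k (N + 1), ℂ)),
    (∀ x, ψ' x = f (x • sgm σ (N + 1) y) * ψ x) → Ec y f * Q ψ = Q ψ'

variable {ρ : S →* GG k N} {ι : S →* E₀} {π : E₀ →* (K →L[ℂ] K)} {lam : Γ →* (K →L[ℂ] K)}
  {W : Set (K →L[ℂ] K)} {q : Γ → GG k N} {Ec : YY k N → (CY k N →⋆ₐ[ℂ] (K →L[ℂ] K))}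
  {σ : k →+* k} {Q : C₀(PG k (N + 1), ℂ) →⋆ₙₐ[ℂ] (K →L[ℂ] K)}

/-- the points of a classical leg in the letters of helper295 -/
theorem ClsS.pt (h : ClsS ρ ι π lam W q Ec σ Q) (hq : PH q) (y : YY k N) :
    Pt (π.comp ι) lam W (qP q hq) ((sp k (N + 1)).comp ((SpecialLinearGroup.map σ).comp ρ))
      (sgm σ (N + 1) y) (Ec y) Q where
  nd := h.nd
  cm := h.cm
  cov γ ψ := h.cov γ ψ _ fun x => rfl
  pcov g ψ := by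
    rw [MonoidHom.comp_apply, MonoidHom.comp_apply, map_inv]
    exact h.pcov g ψ _ fun x => rfl
  mulE f ψ := h.mulE y f ψ _ fun x => rfl

/-- the points generate -/
theorem ClsS.gen (h : ClsS ρ ι π lam W q Ec σ Q) {T : K →L[ℂ] K}
    (hT : ∀ y f, Commute T (Ec y f)) (ψ : C₀(PG k (N + 1), ℂ)) : Commute T (Q ψ) := by
  refine H715.Gen.comm_abs (H789.isOpenEmbedding_cmap (k := k) (m := N)) h.nd
    (E := fun i => Ec (H789.src k N i)) (fun i f ψ ψ' hψ => ?_) (fun i f => hT _ f) ψ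
  refine h.mulE (H789.src k N i) f ψ ψ' fun x => ?_
  rw [H35.Sig.sgm_src, hψ x]
  rfl

/-- from the letters of `SN/Blocks2.lean` -/
theorem clsS_of {a : E₀ →* PG k (N + 1)} (ha : ∀ h (b : YY k N), a (ι h) • b = ρ h • b)
    (h : ClsN a π lam W q Ec σ Q) : ClsS ρ ι π lam W q Ec σ Q where
  nd := h.nd
  cm := h.cm
  cov := h.cov
  pcov g ψ ψ' hψ := by
    refine h.pcov (ι g) (sp k (N + 1) (SpecialLinearGroup.map σ (ρ g))) (fun b => ?_) ψ ψ' hψ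
    rw [ha]
    exact (H35.Sig.sgm_smul σ (ρ g) b).symm
  mulE := h.mulE

end leg

section xc

variable {k : Type} [NontriviallyNormedField k] [ProperSpace k] {N : ℕ} {S E₀ Γ₁ Γ₂ K : Type}
  [Group S] [Group E₀] [TopologicalSpace E₀] [Group Γ₁] [Group Γ₂] [NormedAddCommGroup K]
  [InnerProductSpace ℂ K] [CompleteSpace K]
  {ρ : S →* GG k N} {ι : S →* E₀} {π : E₀ →* (K →L[ℂ] K)} {lam₁ : Γ₁ →* (K →L[ℂ] K)}
  {lam₂ : Γ₂ →* (K →L[ℂ] K)} {X : Set (K →L[ℂ] K)} {Ω : K} {q₁ : Γ₁ → GG k N}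
  {E₁ : YY k N → (CY k N →⋆ₐ[ℂ] (K →L[ℂ] K))} {σ₁ : k →+* k}
  {Q₁ : C₀(PG k (N + 1), ℂ) →⋆ₙₐ[ℂ] (K →L[ℂ] K)}

/-- **[P-XC]**, the second leg with any target group -/
theorem sXc_gen [Countable Γ₁] {G₂ : Type} [Group G₂] [TopologicalSpace G₂]
    [IsTopologicalGroup G₂] [T2Space G₂] [LocallyCompactSpace G₂] [SecondCountableTopology G₂]
    [MeasurableSpace G₂] [BorelSpace G₂] (μ₂ : Measure G₂) [μ₂.IsHaarMeasure]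
    [μ₂.IsMulRightInvariant] {q₂ : Γ₂ →* G₂} {ι₂ : GG k N →* G₂}
    {Q₂ : C₀(G₂, ℂ) →⋆ₙₐ[ℂ] (K →L[ℂ] K)} (hS : Sym ρ)
    (hPic : RC.Pic π lam₁ (X ∪ Set.range lam₂) Ω)
    (tv : ∀ Y, Cm (X ∪ Set.range lam₂) Y → (∀ γ, Y * lam₁ γ = lam₁ γ * Y) → ∀ h : S,
      ⟪π (ι h) Ω, Y (π (ι h) Ω)⟫_ℂ = ⟪Ω, Y Ω⟫_ℂ)
    (adj₂ : ∀ γ, adjoint (lam₂ γ) = lam₂ γ⁻¹) (ph₁ : PH q₁)
    (ov₁ : ∀ C : Set (PG k (N + 1)), IsCompact C → ∃ M : ℕ, ∀ g : PG k (N + 1),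
      ∑' γ, C.indicator (1 : PG k (N + 1) → ℝ≥0∞) (qP q₁ ph₁ γ * g) ≤ M)
    (h₁ : ClsS ρ ι π lam₁ (X ∪ Set.range lam₂) q₁ E₁ σ₁ Q₁)
    (nd₂ : ∀ ξ, (∀ ψ, Q₂ ψ ξ = 0) → ξ = 0) (cm₂ : ∀ ψ, Cm (X ∪ Set.range lam₁) (Q₂ ψ))
    (cov₂ : ∀ γ ψ, lam₂ γ * Q₂ ψ * lam₂ γ⁻¹ = Q₂ (ltr (q₂ γ) ψ))
    (pcov₂ : ∀ (h : S) ψ, π (ι h) * Q₂ ψ * π (ι h)⁻¹ = Q₂ (rtr (ι₂ (ρ h)) ψ))
    (ψ : C₀(PG k (N + 1), ℂ)) (χ : C₀(G₂, ℂ)) : Commute (Q₁ ψ) (Q₂ χ) := by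
  letI : MeasurableSpace (PG k (N + 1)) := borel _
  haveI : BorelSpace (PG k (N + 1)) := ⟨rfl⟩
  haveI : (Measure.haar : Measure (PG k (N + 1))).IsMulRightInvariant :=
    H626.rightInv_pg k (N + 1) _
  haveI : Infinite k := NontriviallyNormedField.infinite k
  refine (h₁.gen (T := Q₂ χ) (fun y f => Commute.symm ?_) ψ).symm
  obtain ⟨⟨v, hv⟩, rfl⟩ := H820.pj_surj y
  obtain ⟨H₀, hAB, hfix, hD⟩ := hS v hv
  have hpt := h₁.pt ph₁ (H820.pj k (Fin (N + 1)) ⟨v, hv⟩)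
  have e : sgm σ₁ (N + 1) (H820.pj k (Fin (N + 1)) ⟨v, hv⟩) =
      H820.pj k (Fin (N + 1)) ⟨sv σ₁ v, sv_ne σ₁ hv⟩ := rfl
  refine xc_ptA (Measure.haar : Measure (PG k (N + 1))) μ₂ (ι₂ := ι₂.comp ρ) ι hPic tv
    ov₁ hpt adj₂ nd₂ cm₂ cov₂ pcov₂ (M := {h | ρ h ∈ H₀}) ?_ ?_ (fun u hu => ?_) ?_ f χ
  · refine (hAB (Measure.haar : Measure (PG k (N + 1)))
      ((sp k (N + 1)).comp (SpecialLinearGroup.map σ₁))).mono ?_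
    rintro _ ⟨h, hh, rfl⟩
    exact ⟨ρ h, hh, rfl⟩
  · refine (hAB μ₂ ι₂).mono ?_
    rintro _ ⟨h, hh, rfl⟩
    exact ⟨ρ h, hh, rfl⟩
  · have h1 : (ρ u).1 *ᵥ v = v := hfix _ hu
    have h2 : ρ u • H820.pj k (Fin (N + 1)) ⟨v, hv⟩ = H820.pj k (Fin (N + 1)) ⟨v, hv⟩ := by
      change H820.pj k (Fin (N + 1)) ⟨(ρ u).1 *ᵥ v, _⟩ = _
      congr 1
      exact Subtype.ext h1
    rw [MonoidHom.comp_apply, MonoidHom.comp_apply, sp_smul]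
    exact (H35.Sig.sgm_smul σ₁ (ρ u) _).symm.trans (by rw [h2])
  · exact hD σ₁

/-- **[P-XC] two classical legs commute** (any source with enough symmetries). -/
theorem sXc [Countable Γ₁] {q₂ : Γ₂ → GG k N} {E₂ : YY k N → (CY k N →⋆ₐ[ℂ] (K →L[ℂ] K))}
    {σ₂ : k →+* k} {Q₂ : C₀(PG k (N + 1), ℂ) →⋆ₙₐ[ℂ] (K →L[ℂ] K)} (hS : Sym ρ)
    (hPic : RC.Pic π lam₁ (X ∪ Set.range lam₂) Ω)
    (tv : ∀ Y, Cm (X ∪ Set.range lam₂) Y → (∀ γ, Y * lam₁ γ = lam₁ γ * Y) → ∀ h : S,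
      ⟪π (ι h) Ω, Y (π (ι h) Ω)⟫_ℂ = ⟪Ω, Y Ω⟫_ℂ)
    (adj₂ : ∀ γ, adjoint (lam₂ γ) = lam₂ γ⁻¹) (ph₁ : PH q₁)
    (ov₁ : ∀ C : Set (PG k (N + 1)), IsCompact C → ∃ M : ℕ, ∀ g : PG k (N + 1),
      ∑' γ, C.indicator (1 : PG k (N + 1) → ℝ≥0∞) (qP q₁ ph₁ γ * g) ≤ M) (ph₂ : PH q₂)
    (h₁ : ClsS ρ ι π lam₁ (X ∪ Set.range lam₂) q₁ E₁ σ₁ Q₁)
    (h₂ : ClsS ρ ι π lam₂ (X ∪ Set.range lam₁) q₂ E₂ σ₂ Q₂) (ψ φ : C₀(PG k (N + 1), ℂ)) :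
    Commute (Q₁ ψ) (Q₂ φ) := by
  letI : MeasurableSpace (PG k (N + 1)) := borel _
  haveI : BorelSpace (PG k (N + 1)) := ⟨rfl⟩
  haveI : (Measure.haar : Measure (PG k (N + 1))).IsMulRightInvariant :=
    H626.rightInv_pg k (N + 1) _
  exact sXc_gen (Measure.haar : Measure (PG k (N + 1))) (q₂ := qP q₂ ph₂)
    (ι₂ := (sp k (N + 1)).comp (SpecialLinearGroup.map σ₂)) hS hPic tv adj₂ ph₁ ov₁ h₁
    h₂.nd h₂.cm (fun γ ψ => h₂.cov γ ψ _ fun x => rfl) (fun h ψ => h₂.pcov h ψ _ fun x => rfl) ψ φ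

end xc

section s4

open Vale.Agent.P092.SP4 (J4 S4 J4_sq mem_S4')

variable {k : Type} [NontriviallyNormedField k]

theorem alt_J4 : Alt (J4 k) := by
  refine ⟨fun i => ?_, fun i j => ?_, ?_⟩
  · fin_cases i <;> simp [J4]
  · fin_cases i <;> fin_cases j <;> simp [J4]
  · intro h0
    have h1 := congrArg Matrix.det (J4_sq (k := k))
    rw [det_mul, h0, mul_zero, det_neg, det_one, Fintype.card_fin] at h1
    norm_num at h1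

variable [ProperSpace k]

theorem sym_s4 : Sym (N := 3) (S4 k).subtype :=
  sym_sp alt_J4 _ fun g hg => ⟨⟨g, mem_S4'.2 hg⟩, rfl⟩

/-- **[P-XC]** (helper805's letters #7367): two classical legs commute, source `Sp_4(k)`. -/
theorem xc_s4 {E Γ₁ Γ₂ K : Type} [Group E] [TopologicalSpace E] [Group Γ₁] [Group Γ₂]
    [Countable Γ₁] [NormedAddCommGroup K] [InnerProductSpace ℂ K] [CompleteSpace K]
    {ι : S4 k →* E} {a : E →* PG k 4} (ha : ∀ g (b : YY k 3), a (ι g) • b = g.1 • b)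
    {π : E →* (K →L[ℂ] K)} {lam₁ : Γ₁ →* (K →L[ℂ] K)} {lam₂ : Γ₂ →* (K →L[ℂ] K)}
    {X : Set (K →L[ℂ] K)} {Ω : K} {q₁ : Γ₁ → GG k 3} {q₂ : Γ₂ → GG k 3}
    {E₁ E₂ : YY k 3 → (CY k 3 →⋆ₐ[ℂ] (K →L[ℂ] K))} {σ₁ σ₂ : k →+* k}
    {Q₁ Q₂ : C₀(PG k 4, ℂ) →⋆ₙₐ[ℂ] (K →L[ℂ] K)}
    (hPic : RC.Pic π lam₁ (X ∪ Set.range lam₂) Ω) (tv : TVE π lam₁ (X ∪ Set.range lam₂) Ω)
    (adj₂ : ∀ γ, adjoint (lam₂ γ) = lam₂ γ⁻¹) (ph₁ : PH q₁) (ph₂ : PH q₂)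
    (d₁ : ∀ C : ℝ, {γ : Γ₁ | nm (q₁ γ) ≤ C}.Finite)
    (h₁ : ClsN (N := 3) a π lam₁ (X ∪ Set.range lam₂) q₁ E₁ σ₁ Q₁)
    (h₂ : ClsN (N := 3) a π lam₂ (X ∪ Set.range lam₁) q₂ E₂ σ₂ Q₂) (ψ φ : C₀(PG k 4, ℂ)) :
    Commute (Q₁ ψ) (Q₂ φ) :=
  sXc (N := 3) sym_s4 hPic (fun Y h1 h2 h => tv Y ⟨h1, h2⟩ (ι h)) adj₂ ph₁
    (fun C hC => overlap_disc ph₁ d₁ hC) ph₂ (clsS_of ha h₁) (clsS_of ha h₂) ψ φ

end s4

end Vale.Agent.P092.H325
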