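import Vale.Agent.P092.H325.NXs
import Vale.Agent.P092.SNP.Blocks

/-!
P092, TEAM N, products (helper325): **`xcpStmt : SNP.XCPStmt k N`** (two legs of a product commute).
-/

set_option linter.all false

namespace Vale.Agent.P092.H325

/-- **[P-XC] of `SNP/Blocks.lean`** -/
theorem xcpStmt {J : Type} [Fintype J] (k : J → Type) [∀ j, NontriviallyNormedField (k j)]
    [∀ j, ProperSpace (k j)] (N : J → ℕ) : SNP.XCPStmt k N := by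
  intro E Γ K _ _ _ _ _ _ _ ι a a' π lam₁ lam₂ X Ω q₁ q₂ E₁ E₂ σ₁ σ₂ Q₁ Q₂ hA hP t₁ t₂ p₁ p₂
    d₁ d₂ h₁ h₂ c₁ c₂ i j ψ φ
  exact pXcN hA.adm (fun j' j hj h b => hA.triv j' j hj h b) hP.leg₁ t₁ hP.leg₂.adjL p₁ p₂ d₁ h₁
    c₁ h₂ c₂ i j ψ φ

end Vale.Agent.P092.H325
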