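import Vale.Agent.P092.H325.PXcS
import Vale.Agent.P092.H34.X.NXc
import Vale.Agent.P092.H375.X2.Sig2

/-!
P092 (helper325), row [SX-XC]: the cross-leg step with **different fields**: source points over
`kS j`, targets over `l j` (two families of target fields, one for each leg), picture `RC.PicX`,
finite products, sources `S j` with enough symmetries (`SymT`: special linear and symplectic
groups).
-/

set_option linter.all false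

open scoped InnerProductSpace ENNReal ZeroAtInfty LinearAlgebra.Projectivization
open Filter Topology ContinuousLinearMap MeasureTheory Matrix

namespace Vale.Agent.P092.H325.SX

open Vale.Agent.P092.RC (Cm TRN GG PG YY)
open Vale.Agent.P092.SN (CY PH UD nm)
open Vale.Agent.P092.H295
open Vale.Agent.P092.H715.Disj (Disj sv sv_ne NN NG nn_comm nn_fix disj_nn nn_mulVec)
open Vale.Agent.P092.H35 (sp)
open Vale.Agent.P092.H375.X2 (sgm sgm_smul sgm_src)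
open Vale.Agent.P092.H714.Sp (SpG om)
open Vale.Agent.P092.H15 (Alt)

section pt

variable {G₁ G₂ : Type}
  [Group G₁] [TopologicalSpace G₁] [IsTopologicalGroup G₁] [T2Space G₁] [LocallyCompactSpace G₁]
  [SecondCountableTopology G₁] [MeasurableSpace G₁] [BorelSpace G₁]
  [Group G₂] [TopologicalSpace G₂] [IsTopologicalGroup G₂] [T2Space G₂] [LocallyCompactSpace G₂]
  [SecondCountableTopology G₂] [MeasurableSpace G₂] [BorelSpace G₂]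
variable {Γ₁ Γ₂ H E₀ : Type} [Group Γ₁] [Group Γ₂] [Group H] [Group E₀] [TopologicalSpace E₀]
variable {K : Type} [NormedAddCommGroup K] [InnerProductSpace ℂ K] [CompleteSpace K]
variable {P : Type} [TopologicalSpace P] [CompactSpace P] [T2Space P] [MulAction G₁ P]
  [ContinuousSMul G₁ P]
variable {π₀ : E₀ →* (K →L[ℂ] K)} {lam₁ : Γ₁ →* (K →L[ℂ] K)} {lam₂ : Γ₂ →* (K →L[ℂ] K)}
  {X : Set (K →L[ℂ] K)} {Ω : K} {q₁ : Γ₁ →* G₁} {q₂ : Γ₂ →* G₂} {ι₁ : H →* G₁} {ι₂ : H →* G₂}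
  {Q₁ : C₀(G₁, ℂ) →⋆ₙₐ[ℂ] (K →L[ℂ] K)} {Q₂ : C₀(G₂, ℂ) →⋆ₙₐ[ℂ] (K →L[ℂ] K)}

/-- `xc_ptA` in the picture `RC.PicX` -/
theorem xc_ptX [Countable Γ₁] (μ₁ : Measure G₁) [μ₁.IsHaarMeasure] [μ₁.IsMulRightInvariant]
    (μ₂ : Measure G₂) [μ₂.IsHaarMeasure] [μ₂.IsMulRightInvariant] (j : H →* E₀)
    (hPic : RC.PicX π₀ lam₁ (X ∪ Set.range lam₂) Ω)
    (tv : ∀ Y, Cm (X ∪ Set.range lam₂) Y → (∀ γ, Y * lam₁ γ = lam₁ γ * Y) → ∀ h : H,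
      ⟪π₀ (j h) Ω, Y (π₀ (j h) Ω)⟫_ℂ = ⟪Ω, Y Ω⟫_ℂ)
    (hN : ∀ C : Set G₁, IsCompact C → ∃ N : ℕ, ∀ g,
      ∑' γ, C.indicator (1 : G₁ → ℝ≥0∞) (q₁ γ * g) ≤ N)
    {y : P} {E : C(P, ℂ) →⋆ₐ[ℂ] (K →L[ℂ] K)}
    (hp : Pt (π₀.comp j) lam₁ (X ∪ Set.range lam₂) q₁ ι₁ y E Q₁)
    (adj₂ : ∀ γ, adjoint (lam₂ γ) = lam₂ γ⁻¹)
    (nd₂ : ∀ ξ, (∀ ψ, Q₂ ψ ξ = 0) → ξ = 0) (cm₂ : ∀ ψ, Cm (X ∪ Set.range lam₁) (Q₂ ψ))
    (cov₂ : ∀ γ ψ, lam₂ γ * Q₂ ψ * lam₂ γ⁻¹ = Q₂ (ltr (q₂ γ) ψ))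
    (pcov₂ : ∀ (h : H) ψ, π₀ (j h) * Q₂ ψ * π₀ (j h)⁻¹ = Q₂ (rtr (ι₂ h) ψ))
    {M : Set H} (hM₁ : AB μ₁ (ι₁ '' M)) (hM₂ : AB μ₂ (ι₂ '' M)) (fix : ∀ u ∈ M, ι₁ u • y = y)
    (hD : Disj ι₁ M y) (f : C(P, ℂ)) (χ : C₀(G₂, ℂ)) : Commute (E f) (Q₂ χ) := by
  have hL := H34.XN.lgI_of' μ₁ j hPic tv hp
  refine commute_of_uniqA (q₂ := q₂) (ι₂ := ι₂) (π := π₀.comp j) μ₂ hp nd₂ cm₂ cov₂ (fun h ψ => ?_)
    (fun g => ?_) hPic.adjL adj₂ M hM₂ fix (hL.uniqA hN hM₁ hD hp) f χ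
  · rw [MonoidHom.comp_apply, MonoidHom.comp_apply, map_inv]
    exact pcov₂ h ψ
  · rw [MonoidHom.comp_apply, MonoidHom.comp_apply, map_inv]
    exact hPic.adjP (j g)

end pt

section abs

variable {J : Type} [Fintype J] {G₁ H : J → Type} [∀ j, Group (G₁ j)]
  [∀ j, TopologicalSpace (G₁ j)] [∀ j, IsTopologicalGroup (G₁ j)] [∀ j, T2Space (G₁ j)]
  [∀ j, LocallyCompactSpace (G₁ j)] [∀ j, SecondCountableTopology (G₁ j)]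
  [∀ j, MeasurableSpace (G₁ j)] [∀ j, BorelSpace (G₁ j)] [∀ j, Group (H j)]
variable {G₂ : Type} [Group G₂] [TopologicalSpace G₂] [IsTopologicalGroup G₂] [T2Space G₂]
  [LocallyCompactSpace G₂] [SecondCountableTopology G₂] [MeasurableSpace G₂] [BorelSpace G₂]
variable {E₀ Γ₁ Γ₂ K : Type} [Group E₀] [TopologicalSpace E₀] [Group Γ₁] [Group Γ₂]
  [NormedAddCommGroup K] [InnerProductSpace ℂ K] [CompleteSpace K]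
variable {π₀ : E₀ →* (K →L[ℂ] K)} {lam₁ : Γ₁ →* (K →L[ℂ] K)} {lam₂ : Γ₂ →* (K →L[ℂ] K)}
  {X : Set (K →L[ℂ] K)} {Ω : K} {i : ∀ j, H j →* E₀} {q₁ : ∀ j, Γ₁ →* G₁ j}
  {ι₁ : ∀ j, H j →* G₁ j} {Q₁ : ∀ j, C₀(G₁ j, ℂ) →⋆ₙₐ[ℂ] (K →L[ℂ] K)}
  {QQ₁ : C₀(∀ j, G₁ j, ℂ) →⋆ₙₐ[ℂ] (K →L[ℂ] K)}
  {q₂ : Γ₂ →* G₂} {ι₂ : ∀ j, H j →* G₂} {QQ₂ : C₀(G₂, ℂ) →⋆ₙₐ[ℂ] (K →L[ℂ] K)}

/-- **a point of the factor `j` of the first leg commutes with the second leg** -/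
theorem xc_factorX [Countable Γ₁] (ν : ∀ j, Measure (G₁ j)) [∀ j, (ν j).IsHaarMeasure]
    [∀ j, (ν j).IsMulRightInvariant] (μ₂ : Measure G₂) [μ₂.IsHaarMeasure]
    [μ₂.IsMulRightInvariant] (hPic : RC.PicX π₀ lam₁ (X ∪ Set.range lam₂) Ω)
    (tv : ∀ Y, Cm (X ∪ Set.range lam₂) Y → (∀ γ, Y * lam₁ γ = lam₁ γ * Y) → ∀ e : E₀,
      ⟪π₀ e Ω, Y (π₀ e Ω)⟫_ℂ = ⟪Ω, Y Ω⟫_ℂ)
    (hJ : JL π₀ lam₁ (X ∪ Set.range lam₂) i q₁ ι₁ Q₁ QQ₁)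
    (nd₁ : ∀ j ξ, (∀ ψ, Q₁ j ψ ξ = 0) → ξ = 0)
    (disc : ∀ C : Set (∀ j, G₁ j), IsCompact C → {γ | Pi.monoidHom q₁ γ ∈ C}.Finite)
    (adj₂ : ∀ γ, adjoint (lam₂ γ) = lam₂ γ⁻¹)
    (nd₂ : ∀ ξ, (∀ ψ, QQ₂ ψ ξ = 0) → ξ = 0) (cm₂ : ∀ ψ, Cm (X ∪ Set.range lam₁) (QQ₂ ψ))
    (cov₂ : ∀ γ ψ, lam₂ γ * QQ₂ ψ * lam₂ γ⁻¹ = QQ₂ (ltr (q₂ γ) ψ))
    (pcov₂ : ∀ j (h : H j) ψ, π₀ (i j h) * QQ₂ ψ * π₀ (i j h)⁻¹ = QQ₂ (rtr (ι₂ j h) ψ))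
    (j : J) {P : Type} [TopologicalSpace P] [CompactSpace P] [T2Space P] [MulAction (G₁ j) P]
    [ContinuousSMul (G₁ j) P] {y : P} {E : C(P, ℂ) →⋆ₐ[ℂ] (K →L[ℂ] K)}
    (hE : ∀ f ψ, E f * Q₁ j ψ = Q₁ j (mf y f ψ)) {M : Set (H j)}
    (hM₁ : ∀ μ : Measure (∀ j, G₁ j), [μ.IsHaarMeasure] → [μ.IsMulRightInvariant] →
      AB μ (sg ι₁ j '' M)) (hM₂ : AB μ₂ (ι₂ j '' M)) (fix : ∀ u ∈ M, ι₁ j u • y = y)
    (hD : Disj (ι₁ j) M y) (f : C(P, ℂ)) (χ : C₀(G₂, ℂ)) : Commute (E f) (QQ₂ χ) := by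
  letI : MulAction (∀ j, G₁ j) P := MulAction.compHom P (Pi.evalMonoidHom G₁ j)
  have hs : ∀ (g : ∀ j, G₁ j) (x : P), g • x = g j • x := fun g x => rfl
  haveI : ContinuousSMul (∀ j, G₁ j) P := ⟨by
    have h1 : Continuous fun p : (∀ j, G₁ j) × P => p.1 j • p.2 :=
      ((continuous_apply j).comp continuous_fst).smul continuous_snd
    exact h1⟩
  have hpt : Pt (π₀.comp (i j)) lam₁ (X ∪ Set.range lam₂) (Pi.monoidHom q₁) (sg ι₁ j) y E QQ₁ := by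
    refine ⟨hJ.nd, hJ.cm, hJ.cov, fun h Ψ => ?_, fun f Ψ => ?_⟩
    · rw [MonoidHom.comp_apply, MonoidHom.comp_apply, map_inv]
      exact hJ.pcov j h Ψ
    · exact hJ.mulE (nd₁ j) hE f Ψ _ fun x => rfl
  refine xc_ptX (Measure.pi ν) μ₂ (i j) hPic (fun Y h1 h2 h => tv Y h1 h2 (i j h))
    (fun C hC => H715.Xc6.overlap_tsum (Pi.monoidHom q₁) disc hC) hpt adj₂ nd₂ cm₂ cov₂
    (fun h ψ => pcov₂ j h ψ) (hM₁ _) hM₂ (fun u hu => ?_) ?_ f χ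
  · rw [hs, sg_same]
    exact fix u hu
  · intro ξ hξ
    obtain ⟨V, hV, hm, h⟩ := hD ξ hξ
    refine ⟨V, hV, hm, fun m => ?_⟩
    obtain ⟨n, hn, hd⟩ := h m
    refine ⟨n, hn, fun a b hab x hx x' hx' => ?_⟩
    rw [hs, hs, sg_same, sg_same]
    exact hd a b hab x hx x' hx'

end abs

/-! ### enough symmetries -/

section symm

variable {kS : Type} [NontriviallyNormedField kS] {N : ℕ} {S : Type} [Group S]

/-- enough symmetries: for every point `[v]` a group `H₀` of elements fixing `v`, with almost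
invariant bumps, such that the part of `S` over `H₀` moves the other points apart, for every field
embedding -/
def SymT (ρ : S →* GG kS N) : Prop :=
  ∀ (v : Fin (N + 1) → kS) (hv : v ≠ 0), ∃ H₀ : Subgroup (GG kS N),
    (∀ {G : Type} [Group G] [TopologicalSpace G] [IsTopologicalGroup G] [T2Space G]
      [LocallyCompactSpace G] [MeasurableSpace G] [BorelSpace G] (μ : Measure G)
      [μ.IsMulLeftInvariant] [μ.IsMulRightInvariant] [IsFiniteMeasureOnCompacts μ]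
      [μ.IsOpenPosMeasure] (f : GG kS N →* G), AB μ ((H₀.map f : Subgroup G) : Set G)) ∧
    (∀ g ∈ H₀, g.1 *ᵥ v = v) ∧
    ∀ {k : Type} [NontriviallyNormedField k] [ProperSpace k] (σ : kS →+* k),
      Disj ((sp k (N + 1)).comp ((SpecialLinearGroup.map σ).comp ρ))
        {h | ρ h ∈ H₀} (H820.pj k (Fin (N + 1)) ⟨sv σ v, sv_ne σ hv⟩)

variable [ProperSpace kS]

/-- **symplectic groups have enough symmetries** -/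
theorem symT_sp {A : Matrix (Fin (N + 1)) (Fin (N + 1)) kS} (hA : Alt A) (ρ : S →* GG kS N)
    (hρ : ∀ g ∈ SpG A, ∃ h, ρ h = g) : SymT ρ := by
  intro v hv
  refine ⟨Heis v (v ᵥ* A), fun μ _ _ _ _ f => ab_heis μ f v (v ᵥ* A), fun g hg => hg.1,
    fun {k} _ _ σ => ?_⟩
  exact disj_sp hA σ (H35.Sig.unb σ) ρ hρ _ (fun h x => rfl) hv

/-- **special linear groups have enough symmetries** -/
theorem symT_sl (ρ : S →* GG kS N) (hρ : Function.Surjective ρ) : SymT ρ := by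
  intro v hv
  refine ⟨NG v, fun μ _ _ _ _ f => ab_of_commute μ ?_, ?_, fun {k} _ _ σ => ?_⟩
  · rintro _ ⟨g, hg, rfl⟩ _ ⟨h, hh, rfl⟩
    change f g * f h = f h * f g
    rw [← map_mul, ← map_mul, (nn_comm v hg hh).eq]
  · rintro g ⟨φ, h, rfl⟩
    rw [nn_mulVec, h, zero_smul, add_zero]
  · intro ξ hξ
    obtain ⟨V, hV, hm, h⟩ := disj_nn σ (H35.Sig.unb σ)
      ((sp k (N + 1)).comp (SpecialLinearGroup.map σ)) (fun h x => rfl) hv ξ hξ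
    refine ⟨V, hV, hm, fun M => ?_⟩
    obtain ⟨n, hn, hd⟩ := h M
    choose R hR using fun i => hρ (n i)
    refine ⟨R, fun i => ?_, fun i j hij x hx x' hx' he => ?_⟩
    · change ρ (R i) ∈ NG v
      rw [hR]
      exact hn i
    · refine hd i j hij x hx x' hx' ?_
      have e1 : ∀ i, ((sp k (N + 1)).comp ((SpecialLinearGroup.map σ).comp ρ)) (R i) =
          ((sp k (N + 1)).comp (SpecialLinearGroup.map σ)) (n i) := by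
        intro i
        rw [MonoidHom.comp_apply, MonoidHom.comp_apply, MonoidHom.comp_apply, hR]
      rw [e1, e1] at he
      exact he

theorem symT_id : SymT (MonoidHom.id (GG kS N)) := symT_sl _ Function.surjective_id

end symm

/-! ### one leg -/

section leg

variable {kS k : Type} [NontriviallyNormedField kS] [NontriviallyNormedField k] [ProperSpace k]
  {N : ℕ} {S E₀ Γ K : Type} [Group S]
  [Group E₀] [Group Γ] [NormedAddCommGroup K] [InnerProductSpace ℂ K] [CompleteSpace K]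

/-- the calculus `Q` of the collineation, twisted by `σ : kS → k`; symmetries of `S` only -/
structure ClsT (ρ : S →* GG kS N) (ι : S →* E₀) (π : E₀ →* (K →L[ℂ] K))
    (lam : Γ →* (K →L[ℂ] K)) (W : Set (K →L[ℂ] K)) (q : Γ → GG k N)
    (Ec : YY kS N → (CY k N →⋆ₐ[ℂ] (K →L[ℂ] K))) (σ : kS →+* k)
    (Q : C₀(PG k (N + 1), ℂ) →⋆ₙₐ[ℂ] (K →L[ℂ] K)) : Prop where
  nd : ∀ ξ, (∀ ψ, Q ψ ξ = 0) → ξ = 0
  cm : ∀ ψ, Cm W (Q ψ)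
  cov : ∀ γ (ψ ψ' : C₀(PG k (N + 1), ℂ)), (∀ x, ψ' x = ψ ((sp k (N + 1) (q γ))⁻¹ * x)) →
    lam γ * Q ψ * lam γ⁻¹ = Q ψ'
  pcov : ∀ (h : S) (ψ ψ' : C₀(PG k (N + 1), ℂ)),
    (∀ x, ψ' x = ψ (x * sp k (N + 1) (SpecialLinearGroup.map σ (ρ h)))) →
    π (ι h) * Q ψ * π (ι h)⁻¹ = Q ψ'
  mulE : ∀ y (f : CY k N) (ψ ψ' : C₀(PG k (N + 1), ℂ)),
    (∀ x, ψ' x = f (x • sgm σ (N + 1) y) * ψ x) → Ec y f * Q ψ = Q ψ'

variable {ρ : S →* GG kS N} {ι : S →* E₀} {π : E₀ →* (K →L[ℂ] K)} {lam : Γ →* (K →L[ℂ] K)}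
  {W : Set (K →L[ℂ] K)} {q : Γ → GG k N} {Ec : YY kS N → (CY k N →⋆ₐ[ℂ] (K →L[ℂ] K))}
  {σ : kS →+* k} {Q : C₀(PG k (N + 1), ℂ) →⋆ₙₐ[ℂ] (K →L[ℂ] K)}

/-- the points of a classical leg in the letters of helper295 -/
theorem ClsT.pt (h : ClsT ρ ι π lam W q Ec σ Q) (hq : PH q) (y : YY kS N) :
    Pt (π.comp ι) lam W (qP q hq) ((sp k (N + 1)).comp ((SpecialLinearGroup.map σ).comp ρ))
      (sgm σ (N + 1) y) (Ec y) Q where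
  nd := h.nd
  cm := h.cm
  cov γ ψ := h.cov γ ψ _ fun x => rfl
  pcov g ψ := by
    rw [MonoidHom.comp_apply, MonoidHom.comp_apply, map_inv]
    exact h.pcov g ψ _ fun x => rfl
  mulE f ψ := h.mulE y f ψ _ fun x => rfl

/-- the points generate -/
theorem ClsT.gen (h : ClsT ρ ι π lam W q Ec σ Q) {T : K →L[ℂ] K}
    (hT : ∀ y f, Commute T (Ec y f)) (ψ : C₀(PG k (N + 1), ℂ)) : Commute T (Q ψ) := by
  refine H715.Gen.comm_abs (H789.isOpenEmbedding_cmap (k := k) (m := N)) h.nd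
    (E := fun i => Ec (H789.src kS N i)) (fun i f ψ ψ' hψ => ?_) (fun i f => hT _ f) ψ
  refine h.mulE (H789.src kS N i) f ψ ψ' fun x => ?_
  rw [sgm_src, hψ x]
  rfl

/-- the source elements which fix `v` fix the point `[σ v]` -/
theorem fix_pt (σ : kS →+* k) (ρ : S →* GG kS N) {u : S} {v : Fin (N + 1) → kS} (hv : v ≠ 0)
    (h1 : (ρ u).1 *ᵥ v = v) :
    ((sp k (N + 1)).comp ((SpecialLinearGroup.map σ).comp ρ)) u •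
      H820.pj k (Fin (N + 1)) ⟨sv σ v, sv_ne σ hv⟩ =
      H820.pj k (Fin (N + 1)) ⟨sv σ v, sv_ne σ hv⟩ := by
  have h2 : ρ u • H820.pj kS (Fin (N + 1)) ⟨v, hv⟩ = H820.pj kS (Fin (N + 1)) ⟨v, hv⟩ := by
    change H820.pj kS (Fin (N + 1)) ⟨(ρ u).1 *ᵥ v, _⟩ = _
    congr 1
    exact Subtype.ext h1
  have e : sgm σ (N + 1) (H820.pj kS (Fin (N + 1)) ⟨v, hv⟩) =
      H820.pj k (Fin (N + 1)) ⟨sv σ v, sv_ne σ hv⟩ := rfl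
  rw [← e, MonoidHom.comp_apply, MonoidHom.comp_apply, sp_smul]
  exact (sgm_smul σ (ρ u) _).symm.trans (by rw [h2])

end leg

section pg

variable {J : Type} [Fintype J] {kS l₁ l₂ : J → Type} [∀ j, NontriviallyNormedField (kS j)]
  [∀ j, NontriviallyNormedField (l₁ j)] [∀ j, ProperSpace (l₁ j)]
  [∀ j, NontriviallyNormedField (l₂ j)] [∀ j, ProperSpace (l₂ j)] {N : J → ℕ} {S : J → Type}
  [∀ j, Group (S j)]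
variable {E₀ Γ₁ Γ₂ K : Type} [Group E₀] [TopologicalSpace E₀] [Group Γ₁] [Group Γ₂]
  [NormedAddCommGroup K] [InnerProductSpace ℂ K] [CompleteSpace K]
variable {ρ : ∀ j, S j →* GG (kS j) (N j)} {ι : ∀ j, S j →* E₀} {π : E₀ →* (K →L[ℂ] K)}
  {lam₁ : Γ₁ →* (K →L[ℂ] K)} {lam₂ : Γ₂ →* (K →L[ℂ] K)} {X : Set (K →L[ℂ] K)} {Ω : K}
  {q₁ : ∀ j, Γ₁ → GG (l₁ j) (N j)} {q₂ : ∀ j, Γ₂ → GG (l₂ j) (N j)}
  {E₁ : ∀ j, YY (kS j) (N j) → (CY (l₁ j) (N j) →⋆ₐ[ℂ] (K →L[ℂ] K))}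
  {E₂ : ∀ j, YY (kS j) (N j) → (CY (l₂ j) (N j) →⋆ₐ[ℂ] (K →L[ℂ] K))}
  {σ₁ : ∀ j, kS j →+* l₁ j} {σ₂ : ∀ j, kS j →+* l₂ j}
  {Q₁ : ∀ j, C₀(PG (l₁ j) (N j + 1), ℂ) →⋆ₙₐ[ℂ] (K →L[ℂ] K)}
  {Q₂ : ∀ j, C₀(PG (l₂ j) (N j + 1), ℂ) →⋆ₙₐ[ℂ] (K →L[ℂ] K)}

/-- the factors of one leg -/
theorem fl_ofT {Γ : Type} [Group Γ] {lam : Γ →* (K →L[ℂ] K)} {W : Set (K →L[ℂ] K)}
    {q : ∀ j, Γ → GG (l₁ j) (N j)}
    {Ec : ∀ j, YY (kS j) (N j) → (CY (l₁ j) (N j) →⋆ₐ[ℂ] (K →L[ℂ] K))}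
    {σ : ∀ j, kS j →+* l₁ j} {Q : ∀ j, C₀(PG (l₁ j) (N j + 1), ℂ) →⋆ₙₐ[ℂ] (K →L[ℂ] K)}
    (ph : ∀ j, PH (q j)) (h : ∀ j, ClsT (ρ j) (ι j) π lam W (q j) (Ec j) (σ j) (Q j))
    (pcm : ∀ j' j, j' ≠ j → ∀ (h : S j') ψ, Commute (π (ι j' h)) (Q j ψ))
    (com : ∀ j' j, j' ≠ j → ∀ ψ φ, Commute (Q j' ψ) (Q j φ)) :
    FL (G := fun j => PG (l₁ j) (N j + 1)) π lam W ι (fun j => qP (q j) (ph j))
      (fun j => (sp (l₁ j) (N j + 1)).comp ((SpecialLinearGroup.map (σ j)).comp (ρ j))) Q where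
  nd j := (h j).nd
  cm j := (h j).cm
  cov j γ ψ := (h j).cov γ ψ _ fun x => rfl
  pcov j g ψ := (h j).pcov g ψ _ fun x => rfl
  pcm := pcm
  com := com

/-- **[SX-XC] the cross-leg step for products, different fields** -/
theorem pXcT [Countable Γ₁] (hS : ∀ j, SymT (ρ j))
    (hPic : RC.PicX π lam₁ (X ∪ Set.range lam₂) Ω)
    (tv : ∀ Y, Cm (X ∪ Set.range lam₂) Y → (∀ γ, Y * lam₁ γ = lam₁ γ * Y) → ∀ e : E₀,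
      ⟪π e Ω, Y (π e Ω)⟫_ℂ = ⟪Ω, Y Ω⟫_ℂ)
    (adj₂ : ∀ γ, adjoint (lam₂ γ) = lam₂ γ⁻¹) (ph₁ : ∀ j, PH (q₁ j)) (ph₂ : ∀ j, PH (q₂ j))
    (disc₁ : ∀ C : ℝ, {γ : Γ₁ | ∀ j, nm (q₁ j γ) ≤ C}.Finite)
    (h₁ : ∀ j, ClsT (ρ j) (ι j) π lam₁ (X ∪ Set.range lam₂) (q₁ j) (E₁ j) (σ₁ j) (Q₁ j))
    (pcm₁ : ∀ j' j, j' ≠ j → ∀ (h : S j') ψ, Commute (π (ι j' h)) (Q₁ j ψ))
    (com₁ : ∀ j' j, j' ≠ j → ∀ ψ φ, Commute (Q₁ j' ψ) (Q₁ j φ))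
    (h₂ : ∀ j, ClsT (ρ j) (ι j) π lam₂ (X ∪ Set.range lam₁) (q₂ j) (E₂ j) (σ₂ j) (Q₂ j))
    (pcm₂ : ∀ j' j, j' ≠ j → ∀ (h : S j') ψ, Commute (π (ι j' h)) (Q₂ j ψ))
    (com₂ : ∀ j' j, j' ≠ j → ∀ ψ φ, Commute (Q₂ j' ψ) (Q₂ j φ))
    (j j' : J) (ψ : C₀(PG (l₁ j) (N j + 1), ℂ)) (φ : C₀(PG (l₂ j') (N j' + 1), ℂ)) :
    Commute (Q₁ j ψ) (Q₂ j' φ) := by
  letI : ∀ j, MeasurableSpace (PG (l₁ j) (N j + 1)) := fun j => borel _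
  haveI : ∀ j, BorelSpace (PG (l₁ j) (N j + 1)) := fun j => ⟨rfl⟩
  haveI : ∀ j, (Measure.haar : Measure (PG (l₁ j) (N j + 1))).IsMulRightInvariant := fun j =>
    H626.rightInv_pg (l₁ j) (N j + 1) _
  letI : ∀ j, MeasurableSpace (PG (l₂ j) (N j + 1)) := fun j => borel _
  haveI : ∀ j, BorelSpace (PG (l₂ j) (N j + 1)) := fun j => ⟨rfl⟩
  haveI : ∀ j, (Measure.haar : Measure (PG (l₂ j) (N j + 1))).IsMulRightInvariant := fun j =>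
    H626.rightInv_pg (l₂ j) (N j + 1) _
  have f₁ := fl_ofT ph₁ h₁ pcm₁ com₁
  have f₂ := fl_ofT ph₂ h₂ pcm₂ com₂
  obtain ⟨QQ₁, J₁⟩ := f₁.joint
  obtain ⟨QQ₂, J₂⟩ := f₂.joint
  have key : ∀ (y : YY (kS j) (N j)) f χ, Commute (E₁ j y f) (QQ₂ χ) := by
    intro y f χ
    haveI : Infinite (kS j) := NontriviallyNormedField.infinite (kS j)
    haveI : Infinite (l₁ j) := NontriviallyNormedField.infinite (l₁ j)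
    obtain ⟨⟨v, hv⟩, rfl⟩ := H820.pj_surj y
    obtain ⟨H₀, hAB, hfix, hD⟩ := hS j v hv
    refine xc_factorX (fun j => (Measure.haar : Measure (PG (l₁ j) (N j + 1))))
      (Measure.pi fun j => (Measure.haar : Measure (PG (l₂ j) (N j + 1)))) hPic tv J₁ f₁.nd
      (disc_pi ph₁ disc₁) adj₂ J₂.nd J₂.cm J₂.cov J₂.pcov j
      (y := H820.pj (l₁ j) (Fin (N j + 1)) ⟨sv (σ₁ j) v, sv_ne (σ₁ j) hv⟩)
      (fun f ψ => (h₁ j).mulE _ f ψ _ fun x => rfl) (M := {h | ρ j h ∈ H₀})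
      (fun μ _ _ => ?_) ?_ (fun u hu => fix_pt (σ₁ j) (ρ j) hv (hfix _ hu)) (hD (σ₁ j)) f χ
    · refine (hAB μ (sg (fun j => (sp (l₁ j) (N j + 1)).comp (SpecialLinearGroup.map (σ₁ j)))
        j)).mono ?_
      rintro _ ⟨h, hh, rfl⟩
      exact ⟨ρ j h, hh, rfl⟩
    · refine (hAB _ (sg (fun j => (sp (l₂ j) (N j + 1)).comp (SpecialLinearGroup.map (σ₂ j)))
        j)).mono ?_
      rintro _ ⟨h, hh, rfl⟩
      exact ⟨ρ j h, hh, rfl⟩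
  refine J₂.comm (fun χ => ?_) j' φ
  exact ((h₁ j).gen (T := QQ₂ χ) (fun y f => (key y f χ).symm) ψ).symm

end pg

/-! ### one factor -/

section one

variable {kS l₁ l₂ : Type} [NontriviallyNormedField kS] [NontriviallyNormedField l₁]
  [ProperSpace l₁] [NontriviallyNormedField l₂] [ProperSpace l₂] {N : ℕ}
  {S E₀ Γ₁ Γ₂ K : Type} [Group S] [Group E₀] [TopologicalSpace E₀] [Group Γ₁] [Group Γ₂]
  [NormedAddCommGroup K] [InnerProductSpace ℂ K] [CompleteSpace K]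
  {ρ : S →* GG kS N} {ι : S →* E₀} {π : E₀ →* (K →L[ℂ] K)} {lam₁ : Γ₁ →* (K →L[ℂ] K)}
  {lam₂ : Γ₂ →* (K →L[ℂ] K)} {X : Set (K →L[ℂ] K)} {Ω : K} {q₁ : Γ₁ → GG l₁ N}
  {q₂ : Γ₂ → GG l₂ N}
  {E₁ : YY kS N → (CY l₁ N →⋆ₐ[ℂ] (K →L[ℂ] K))} {E₂ : YY kS N → (CY l₂ N →⋆ₐ[ℂ] (K →L[ℂ] K))}
  {σ₁ : kS →+* l₁} {σ₂ : kS →+* l₂}
  {Q₁ : C₀(PG l₁ (N + 1), ℂ) →⋆ₙₐ[ℂ] (K →L[ℂ] K)} {Q₂ : C₀(PG l₂ (N + 1), ℂ) →⋆ₙₐ[ℂ] (K →L[ℂ] K)}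

/-- **[SX-XC], one factor, different fields** -/
theorem xcT [Countable Γ₁] (hS : SymT ρ) (hPic : RC.PicX π lam₁ (X ∪ Set.range lam₂) Ω)
    (tv : ∀ Y, Cm (X ∪ Set.range lam₂) Y → (∀ γ, Y * lam₁ γ = lam₁ γ * Y) → ∀ h : S,
      ⟪π (ι h) Ω, Y (π (ι h) Ω)⟫_ℂ = ⟪Ω, Y Ω⟫_ℂ)
    (adj₂ : ∀ γ, adjoint (lam₂ γ) = lam₂ γ⁻¹) (ph₁ : PH q₁) (ph₂ : PH q₂)
    (ov₁ : ∀ C : Set (PG l₁ (N + 1)), IsCompact C → ∃ M : ℕ, ∀ g : PG l₁ (N + 1),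
      ∑' γ, C.indicator (1 : PG l₁ (N + 1) → ℝ≥0∞) (qP q₁ ph₁ γ * g) ≤ M)
    (h₁ : ClsT ρ ι π lam₁ (X ∪ Set.range lam₂) q₁ E₁ σ₁ Q₁)
    (h₂ : ClsT ρ ι π lam₂ (X ∪ Set.range lam₁) q₂ E₂ σ₂ Q₂)
    (ψ : C₀(PG l₁ (N + 1), ℂ)) (φ : C₀(PG l₂ (N + 1), ℂ)) : Commute (Q₁ ψ) (Q₂ φ) := by
  letI : MeasurableSpace (PG l₁ (N + 1)) := borel _
  haveI : BorelSpace (PG l₁ (N + 1)) := ⟨rfl⟩
  haveI : (Measure.haar : Measure (PG l₁ (N + 1))).IsMulRightInvariant :=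
    H626.rightInv_pg l₁ (N + 1) _
  letI : MeasurableSpace (PG l₂ (N + 1)) := borel _
  haveI : BorelSpace (PG l₂ (N + 1)) := ⟨rfl⟩
  haveI : (Measure.haar : Measure (PG l₂ (N + 1))).IsMulRightInvariant :=
    H626.rightInv_pg l₂ (N + 1) _
  haveI : Infinite kS := NontriviallyNormedField.infinite kS
  haveI : Infinite l₁ := NontriviallyNormedField.infinite l₁
  refine (h₁.gen (T := Q₂ φ) (fun y f => Commute.symm ?_) ψ).symm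
  obtain ⟨⟨v, hv⟩, rfl⟩ := H820.pj_surj y
  obtain ⟨H₀, hAB, hfix, hD⟩ := hS v hv
  refine xc_ptX (Measure.haar : Measure (PG l₁ (N + 1)))
    (Measure.haar : Measure (PG l₂ (N + 1))) (q₂ := qP q₂ ph₂)
    (ι₂ := ((sp l₂ (N + 1)).comp (SpecialLinearGroup.map σ₂)).comp ρ) ι hPic tv ov₁
    (h₁.pt ph₁ (H820.pj kS (Fin (N + 1)) ⟨v, hv⟩)) adj₂ h₂.nd h₂.cm
    (fun γ ψ => h₂.cov γ ψ _ fun x => rfl) (fun h ψ => h₂.pcov h ψ _ fun x => rfl)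
    (M := {h | ρ h ∈ H₀}) ?_ ?_ (fun u hu => fix_pt σ₁ ρ hv (hfix _ hu)) (hD σ₁) f φ
  · refine (hAB (Measure.haar : Measure (PG l₁ (N + 1)))
      ((sp l₁ (N + 1)).comp (SpecialLinearGroup.map σ₁))).mono ?_
    rintro _ ⟨h, hh, rfl⟩
    exact ⟨ρ h, hh, rfl⟩
  · refine (hAB (Measure.haar : Measure (PG l₂ (N + 1)))
      ((sp l₂ (N + 1)).comp (SpecialLinearGroup.map σ₂))).mono ?_
    rintro _ ⟨h, hh, rfl⟩
    exact ⟨ρ h, hh, rfl⟩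

end one

end Vale.Agent.P092.H325.SX
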