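import Vale.Agent.P092.H325.SpXc
import Vale.Agent.P092.SP.Blocks2

/-!
P092, TEAM P, row [P-XC] (helper325): **`xcStmtP : SP.XCStmt k`**, every local field.
-/

set_option linter.all false

namespace Vale.Agent.P092.H325

/-- **[P-XC]** in the letters of `SP/Blocks2.lean` -/
theorem xcStmtP (k : Type) [NontriviallyNormedField k] [ProperSpace k] : SP.XCStmt k := by
  intro E Γ K _ _ _ _ _ _ _ ι a π lam₁ lam₂ X Ω q₁ q₂ E₁ E₂ σ₁ σ₂ Q₁ Q₂ hA hP t₁ t₂ p₁ p₂ d₁ d₂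
    h₁ h₂ ψ φ
  exact xc_s4 hA.comp hP.leg₁ t₁ hP.leg₂.adjL p₁ p₂ d₁ h₁ h₂ ψ φ

end Vale.Agent.P092.H325
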