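import Vale.Agent.P092.H325.SXc
import Vale.Agent.P092.H325.SpXc
import Vale.Agent.P092.SPT.X

/-!
P092, TEAM P, all amplifications (helper325): **`xcStmtPX : SP.X.XCStmt k`**, every local field.
-/

set_option linter.all false

open scoped InnerProductSpace ENNReal ZeroAtInfty LinearAlgebra.Projectivization
open Filter Topology ContinuousLinearMap MeasureTheory Matrix

namespace Vale.Agent.P092.H325

open Vale.Agent.P092.RC (Cm TRN GG PG YY)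
open Vale.Agent.P092.SN (CY ClsN)
open Vale.Agent.P092.SP4 (J4 S4 mem_S4')

section

variable {k : Type} [NontriviallyNormedField k] [ProperSpace k] {N : ℕ} {S E₀ Γ K : Type} [Group S]
  [Group E₀] [TopologicalSpace E₀] [Group Γ] [NormedAddCommGroup K] [InnerProductSpace ℂ K]
  [CompleteSpace K]
  {ρ : S →* GG k N} {ι : S →* E₀} {a : E₀ →* PG k (N + 1)} {π : E₀ →* (K →L[ℂ] K)}
  {lam : Γ →* (K →L[ℂ] K)} {W : Set (K →L[ℂ] K)} {q : Γ → GG k N}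
  {Ec : YY k N → (CY k N →⋆ₐ[ℂ] (K →L[ℂ] K))} {σ : k →+* k}
  {Q : C₀(PG k (N + 1), ℂ) →⋆ₙₐ[ℂ] (K →L[ℂ] K)}

/-- the one-field letters `SN.ClsN` give the two-field letters -/
theorem clsT_ofN (ha : ∀ h (b : YY k N), a (ι h) • b = ρ h • b)
    (h : ClsN a π lam W q Ec σ Q) : SX.ClsT ρ ι π lam W q Ec σ Q where
  nd := h.nd
  cm := h.cm
  cov := h.cov
  pcov g ψ ψ' hψ := by
    refine h.pcov (ι g) (H35.sp k (N + 1) (SpecialLinearGroup.map σ (ρ g))) (fun b => ?_) ψ ψ' hψ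
    rw [ha]
    exact (H35.Sig.sgm_smul σ (ρ g) b).symm
  mulE := h.mulE

end

/-- **[P-XC], all `t`** -/
theorem xcStmtPX (k : Type) [NontriviallyNormedField k] [ProperSpace k] : SP.X.XCStmt k := by
  intro E Γ K _ _ _ _ _ _ _ ι a π lam₁ lam₂ X Ω q₁ q₂ E₁ E₂ σ₁ σ₂ Q₁ Q₂ hA hP₁ hP₂ x₁ x₂ t₁ t₂
    p₁ p₂ d₁ d₂ h₁ h₂ ψ φ
  have hS : SX.SymT (N := 3) (S4 k).subtype :=
    SX.symT_sp alt_J4 _ fun g hg => ⟨⟨g, mem_S4'.2 hg⟩, rfl⟩
  exact SX.xcT (N := 3) (ι := ι) hS hP₁ (fun Y h1 h2 h => t₁ Y ⟨h1, h2⟩ (ι h)) hP₂.adjL p₁ p₂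
    (fun C hC => overlap_disc p₁ d₁ hC) (clsT_ofN hA.comp h₁) (clsT_ofN hA.comp h₂) ψ φ

end Vale.Agent.P092.H325
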