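import Mathlib

/-!
P092, Team D, cross-leg step, [XC-3R] (helper295 #5294): a positive normalised functional on
`C(P)` which is invariant under one map `u` all of whose orbits converge to `y` is the evaluation
at `y`.
-/

set_option linter.all false

open MeasureTheory Filter Topology
open scoped CompactlySupported

namespace Vale.Agent.P092.H325

/-- a continuous function on a compact space, as a compactly supported function -/
noncomputable def toCc {P : Type*} [TopologicalSpace P] [CompactSpace P] (k : C(P, ℝ)) :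
    C_c(P, ℝ) :=
  ⟨k, HasCompactSupport.of_compactSpace _⟩

theorem exists_measure {P : Type*} [TopologicalSpace P] [CompactSpace P] [T2Space P]
    [MeasurableSpace P] [BorelSpace P] (al : C(P, ℝ) →ₗ[ℝ] ℝ) (pos : ∀ k, 0 ≤ k → 0 ≤ al k) :
    ∃ ν : Measure P, IsFiniteMeasure ν ∧ ∀ k : C(P, ℝ), al k = ∫ x, k x ∂ν := by
  let L : C_c(P, ℝ) →ₚ[ℝ] ℝ :=
    { toFun := fun k => al k.toContinuousMap
      map_add' := fun a b => by
        rw [← map_add]
        rfl
      map_smul' := fun c a => by
        rw [RingHom.id_apply, ← map_smul]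
        rfl
      monotone' := by
        intro a b hab
        have h : 0 ≤ al (b.toContinuousMap - a.toContinuousMap) := by
          refine pos _ fun x => ?_
          have := hab x
          simp only [ContinuousMap.coe_zero, Pi.zero_apply, ContinuousMap.coe_sub, Pi.sub_apply]
          exact sub_nonneg.2 this
        rw [map_sub] at h
        exact sub_nonneg.1 h }
  refine ⟨RealRMK.rieszMeasure L, ?_, fun k => ?_⟩
  · haveI : IsFiniteMeasureOnCompacts (RealRMK.rieszMeasure L) := inferInstance
    exact ⟨isCompact_univ.measure_lt_top⟩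
  · exact (RealRMK.integral_rieszMeasure L (toCc k)).symm

theorem state_eq {P : Type*} [TopologicalSpace P] [CompactSpace P] [T2Space P]
    (al : C(P, ℝ) →ₗ[ℝ] ℝ) (pos : ∀ k, 0 ≤ k → 0 ≤ al k) (one : al 1 = 1) (u : C(P, P))
    (inv : ∀ k : C(P, ℝ), al (k.comp u) = al k) (y : P)
    (lim : ∀ ξ : P, Tendsto (fun j : ℕ => (u^[j]) ξ) atTop (𝓝 y)) (k : C(P, ℝ)) :
    al k = k y := by
  letI : MeasurableSpace P := borel P
  haveI : BorelSpace P := ⟨rfl⟩
  obtain ⟨ν, hν, hal⟩ := exists_measure al pos
  have huniv : ν.real Set.univ = 1 := by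
    have h := hal 1
    rw [one] at h
    simpa using h.symm
  have hit : ∀ j : ℕ, ∫ ξ, k ((u^[j]) ξ) ∂ν = al k := by
    intro j
    have key : ∀ (j : ℕ) (k : C(P, ℝ)),
        al (k.comp ⟨u^[j], u.continuous.iterate j⟩) = al k := by
      intro j
      induction j with
      | zero =>
        intro k
        congr 1
      | succ n ih =>
        intro k
        have : k.comp ⟨u^[n + 1], u.continuous.iterate (n + 1)⟩
            = (k.comp ⟨u^[n], u.continuous.iterate n⟩).comp u := by
          ext x
          simp [Function.iterate_succ_apply]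
        rw [this, inv, ih]
    rw [← key j k, hal]
    rfl
  have hlim : Tendsto (fun j : ℕ => ∫ ξ, k ((u^[j]) ξ) ∂ν) atTop (𝓝 (∫ ξ, k y ∂ν)) := by
    refine tendsto_integral_of_dominated_convergence (fun _ => ‖k‖) (fun j => ?_) ?_ ?_ ?_
    · exact (k.continuous.comp (u.continuous.iterate j)).aestronglyMeasurable
    · exact integrable_const _
    · exact fun j => ae_of_all _ fun ξ => k.norm_coe_le_norm _
    · exact ae_of_all _ fun ξ => (k.continuous.tendsto y).comp (lim ξ)
  simp only [hit, integral_const, huniv, one_smul] at hlim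
  exact tendsto_nhds_unique tendsto_const_nhds hlim

/-- the same for a group element -/
theorem state_eq_smul {P G : Type*} [TopologicalSpace P] [CompactSpace P] [T2Space P] [Monoid G]
    [MulAction G P] [ContinuousConstSMul G P] (al : C(P, ℝ) →ₗ[ℝ] ℝ)
    (pos : ∀ k, 0 ≤ k → 0 ≤ al k) (one : al 1 = 1) (u : G)
    (inv : ∀ k : C(P, ℝ), al (k.comp ⟨fun x => u • x, continuous_const_smul u⟩) = al k) (y : P)
    (lim : ∀ ξ : P, Tendsto (fun j : ℕ => u ^ j • ξ) atTop (𝓝 y)) (k : C(P, ℝ)) :
    al k = k y := by
  refine state_eq al pos one ⟨fun x => u • x, continuous_const_smul u⟩ inv y (fun ξ => ?_) k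
  have e : (fun j : ℕ => (((⟨fun x => u • x, continuous_const_smul u⟩ : C(P, P)) : P → P)^[j]) ξ)
      = fun j : ℕ => u ^ j • ξ := by
    funext j
    induction j with
    | zero => simp
    | succ n ih =>
      rw [Function.iterate_succ_apply', ih, pow_succ', mul_smul]
      rfl
  rw [e]
  exact lim ξ

/-- the same for functionals which are only additive and homogeneous on the real functions, with
values in the reals, given as a map on `C(P, ℝ)` -/
theorem state_eq_fun {P G : Type*} [TopologicalSpace P] [CompactSpace P] [T2Space P] [Monoid G]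
    [MulAction G P] [ContinuousConstSMul G P] (al : C(P, ℝ) → ℝ)
    (add : ∀ a b, al (a + b) = al a + al b) (smul : ∀ (c : ℝ) a, al (c • a) = c * al a)
    (pos : ∀ k, 0 ≤ k → 0 ≤ al k) (one : al 1 = 1) (u : G)
    (inv : ∀ k : C(P, ℝ), al (k.comp ⟨fun x => u • x, continuous_const_smul u⟩) = al k) (y : P)
    (lim : ∀ ξ : P, Tendsto (fun j : ℕ => u ^ j • ξ) atTop (𝓝 y)) (k : C(P, ℝ)) :
    al k = k y :=
  state_eq_smul ⟨⟨al, add⟩, smul⟩ pos one u inv y lim k

end Vale.Agent.P092.H325
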