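import Vale.Agent.P092.RC.Defs

/-!
P092, Team D, cross-leg step (helper295 #5095): the trace of a product of two positive operators
in the picture `RC.Pic` of one leg.

`TR2 lam Ω S T = TRN lam Ω (√T * √S) = Tr (S T)`, for positive `S`, `T` commuting with `W`.
-/

set_option linter.all false

open scoped InnerProductSpace ENNReal NNReal
open ContinuousLinearMap

namespace Vale.Agent.P092.H325

open Vale.Agent.P092.RC (Cm TRN Pic)

variable {G Γ K : Type} [Group G] [TopologicalSpace G] [Group Γ] [NormedAddCommGroup K]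
  [InnerProductSpace ℂ K] [CompleteSpace K]
  {π : G →* (K →L[ℂ] K)} {lam : Γ →* (K →L[ℂ] K)} {W : Set (K →L[ℂ] K)} {Ω : K}

/-! ### Commutants -/

theorem cm_one : Cm W (1 : K →L[ℂ] K) := fun w _ => by rw [one_mul, mul_one]

theorem cm_zero : Cm W (0 : K →L[ℂ] K) := fun w _ => by rw [zero_mul, mul_zero]

theorem cm_mul {S T : K →L[ℂ] K} (hS : Cm W S) (hT : Cm W T) : Cm W (S * T) := fun w hw => by
  rw [mul_assoc, hT w hw, ← mul_assoc, hS w hw, mul_assoc]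

theorem cm_add {S T : K →L[ℂ] K} (hS : Cm W S) (hT : Cm W T) : Cm W (S + T) := fun w hw => by
  rw [add_mul, mul_add, hS w hw, hT w hw]

theorem cm_sub {S T : K →L[ℂ] K} (hS : Cm W S) (hT : Cm W T) : Cm W (S - T) := fun w hw => by
  rw [sub_mul, mul_sub, hS w hw, hT w hw]

theorem cm_adj (hW : ∀ w ∈ W, adjoint w ∈ W) {T : K →L[ℂ] K} (hT : Cm W T) :
    Cm W (adjoint T) := fun w hw => by
  have h := congrArg star (hT _ (hW w hw))
  rw [star_mul, star_mul, star_eq_adjoint, star_eq_adjoint, adjoint_adjoint] at h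
  exact h.symm

/-- the commutant of `W` contains the square roots -/
theorem cm_sqrt {T : K →L[ℂ] K} (hT : Cm W T) : Cm W (CFC.sqrt T) := fun w hw => by
  have h : Commute T w := hT w hw
  exact (h.cfcₙ_nnreal NNReal.sqrt).eq

theorem pi_inv (g : G) : π g * π g⁻¹ = 1 := by rw [← map_mul, mul_inv_cancel, map_one]

theorem pi_inv' (g : G) : π g⁻¹ * π g = 1 := by rw [← map_mul, inv_mul_cancel, map_one]

theorem cm_pi (hP : Pic π lam W Ω) (g : G) {T : K →L[ℂ] K} (hT : Cm W T) :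
    Cm W (π g * T * π g⁻¹) := fun w hw => by
  have hw' := hP.WP w hw g⁻¹
  rw [inv_inv] at hw'
  have h := hT _ hw'
  calc π g * T * π g⁻¹ * w = π g * (T * (π g⁻¹ * w * π g)) * π g⁻¹ := by
        simp only [mul_assoc]; rw [pi_inv, mul_one]
    _ = π g * ((π g⁻¹ * w * π g) * T) * π g⁻¹ := by rw [h]
    _ = w * (π g * T * π g⁻¹) := by
        simp only [← mul_assoc]; rw [pi_inv, one_mul]

theorem cm_lam (hP : Pic π lam W Ω) (γ : Γ) {T : K →L[ℂ] K} (hT : Cm W T) :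
    Cm W (lam γ * T * lam γ⁻¹) := fun w hw => by
  calc lam γ * T * lam γ⁻¹ * w = lam γ * T * (w * lam γ⁻¹) := by
        rw [mul_assoc, hP.WL w hw]
    _ = lam γ * (w * T) * lam γ⁻¹ := by rw [← hT w hw]; simp only [mul_assoc]
    _ = w * (lam γ * T * lam γ⁻¹) := by
        simp only [← mul_assoc]; rw [hP.WL w hw]

/-! ### `TRN` and the quadratic form -/

theorem lam_norm (hP : Pic π lam W Ω) (γ : Γ) (ξ : K) : ‖lam γ ξ‖ = ‖ξ‖ := by
  have h : ‖lam γ ξ‖ ^ 2 = ‖ξ‖ ^ 2 := by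
    have h1 := apply_norm_sq_eq_inner_adjoint_left (lam γ) ξ
    rw [hP.adjL] at h1
    change _ = RCLike.re ⟪(lam γ⁻¹ * lam γ) ξ, ξ⟫_ℂ at h1
    rw [← map_mul, inv_mul_cancel, map_one] at h1
    change _ = RCLike.re ⟪ξ, ξ⟫_ℂ at h1
    rw [inner_self_eq_norm_sq] at h1
    exact h1
  exact (sq_eq_sq₀ (norm_nonneg _) (norm_nonneg _)).1 h

theorem enorm_sq_eq (ξ : K) : ‖ξ‖ₑ ^ 2 = ENNReal.ofReal (‖ξ‖ ^ 2) := by
  rw [ENNReal.ofReal_pow (norm_nonneg _), ofReal_norm_eq_enorm]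

/-- `TRN (B A)` in terms of `B* B` -/
theorem trn_eq_form {A B T : K →L[ℂ] K} (hB : adjoint B * B = T) :
    TRN lam Ω (B * A) =
      ∑' γ, ENNReal.ofReal (RCLike.re ⟪T (A (lam γ Ω)), A (lam γ Ω)⟫_ℂ) := by
  unfold TRN
  refine tsum_congr fun γ => ?_
  rw [enorm_sq_eq, mul_apply_eq_comp, apply_norm_sq_eq_inner_adjoint_left, ← hB]
  rfl

/-- `TRN` is invariant under `lam` -/
theorem trn_lam (hP : Pic π lam W Ω) (γ : Γ) (T : K →L[ℂ] K) :
    TRN lam Ω (lam γ * T * lam γ⁻¹) = TRN lam Ω T := by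
  unfold TRN
  rw [← (Equiv.mulLeft γ).tsum_eq]
  refine tsum_congr fun δ => ?_
  have h : (lam γ * T * lam γ⁻¹) (lam (γ * δ) Ω) = lam γ (T (lam δ Ω)) := by
    change lam γ (T (lam γ⁻¹ (lam (γ * δ) Ω))) = _
    have : lam γ⁻¹ (lam (γ * δ) Ω) = lam δ Ω := by
      change (lam γ⁻¹ * lam (γ * δ)) Ω = _
      rw [← map_mul, inv_mul_cancel_left]
    rw [this]
  simp only [Equiv.coe_mulLeft]
  rw [h, enorm_sq_eq, enorm_sq_eq, lam_norm hP]

/-! ### The bilinear trace -/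

/-- `Tr (S T)` for positive `S`, `T` -/
noncomputable def TR2 (lam : Γ →* (K →L[ℂ] K)) (Ω : K) (S T : K →L[ℂ] K) : ℝ≥0∞ :=
  TRN lam Ω (CFC.sqrt T * CFC.sqrt S)

theorem sqrt_adj (S : K →L[ℂ] K) : adjoint (CFC.sqrt S) = CFC.sqrt S := by
  rw [← star_eq_adjoint]
  exact (IsSelfAdjoint.of_nonneg (CFC.sqrt_nonneg S)).star_eq

theorem sqrt_adj_mul {S : K →L[ℂ] K} (hS : 0 ≤ S) : adjoint (CFC.sqrt S) * CFC.sqrt S = S := by
  rw [sqrt_adj, CFC.sqrt_mul_sqrt_self S hS]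

/-- `TR2` by any factorisations `S = A A*`, `T = B* B` -/
theorem tr2_eq (hP : Pic π lam W Ω) {S T A B : K →L[ℂ] K} (hS : 0 ≤ S) (hT : 0 ≤ T)
    (cA : Cm W A) (cB : Cm W B) (cS : Cm W S) (cT : Cm W T)
    (hA : A * adjoint A = S) (hB : adjoint B * B = T) :
    TR2 lam Ω S T = TRN lam Ω (B * A) := by
  have e1 : TRN lam Ω (CFC.sqrt T * CFC.sqrt S) = TRN lam Ω (B * CFC.sqrt S) := by
    rw [trn_eq_form (sqrt_adj_mul hT), trn_eq_form hB]
  have e2 : TRN lam Ω (B * CFC.sqrt S) = TRN lam Ω (CFC.sqrt S * adjoint B) := by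
    rw [← hP.tr_adj _ (cm_mul cB (cm_sqrt cS))]
    congr 1
    rw [← star_eq_adjoint, star_mul, star_eq_adjoint, star_eq_adjoint, sqrt_adj]
  have e3 : TRN lam Ω (CFC.sqrt S * adjoint B) = TRN lam Ω (adjoint A * adjoint B) := by
    rw [trn_eq_form (sqrt_adj_mul hS), trn_eq_form (B := adjoint A) (T := S)]
    rw [adjoint_adjoint, hA]
  have e4 : TRN lam Ω (adjoint A * adjoint B) = TRN lam Ω (B * A) := by
    rw [← hP.tr_adj _ (cm_mul cB cA)]
    congr 1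
    rw [← star_eq_adjoint, ← star_eq_adjoint, ← star_eq_adjoint, star_mul]
  rw [TR2, e1, e2, e3, e4]

theorem tr2_comm (hP : Pic π lam W Ω) {S T : K →L[ℂ] K} (cS : Cm W S) (cT : Cm W T) :
    TR2 lam Ω S T = TR2 lam Ω T S := by
  unfold TR2
  rw [← hP.tr_adj _ (cm_mul (cm_sqrt cT) (cm_sqrt cS))]
  congr 1
  rw [← star_eq_adjoint, star_mul, star_eq_adjoint, star_eq_adjoint, sqrt_adj, sqrt_adj]

theorem tr2_form {S T : K →L[ℂ] K} (hT : 0 ≤ T) :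
    TR2 lam Ω S T = ∑' γ, ENNReal.ofReal
      (RCLike.re ⟪T (CFC.sqrt S (lam γ Ω)), CFC.sqrt S (lam γ Ω)⟫_ℂ) :=
  trn_eq_form (sqrt_adj_mul hT)

theorem re_nonneg {T : K →L[ℂ] K} (hT : 0 ≤ T) (ξ : K) : 0 ≤ RCLike.re ⟪T ξ, ξ⟫_ℂ := by
  have h := (nonneg_iff_isPositive T).1 hT
  exact h.re_inner_nonneg_left ξ

theorem tr2_add_right {S T T' : K →L[ℂ] K} (hT : 0 ≤ T) (hT' : 0 ≤ T') :
    TR2 lam Ω S (T + T') = TR2 lam Ω S T + TR2 lam Ω S T' := by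
  rw [tr2_form (add_nonneg hT hT'), tr2_form hT, tr2_form hT', ← ENNReal.tsum_add]
  refine tsum_congr fun γ => ?_
  rw [add_apply, inner_add_left, map_add,
    ENNReal.ofReal_add (re_nonneg hT _) (re_nonneg hT' _)]

theorem tr2_add_left (hP : Pic π lam W Ω) {S S' T : K →L[ℂ] K} (hS : 0 ≤ S) (hS' : 0 ≤ S')
    (cS : Cm W S) (cS' : Cm W S') (cT : Cm W T) :
    TR2 lam Ω (S + S') T = TR2 lam Ω S T + TR2 lam Ω S' T := by
  rw [tr2_comm hP (cm_add cS cS') cT, tr2_add_right hS hS', tr2_comm hP cT cS,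
    tr2_comm hP cT cS']

theorem tr2_mono_right {S T T' : K →L[ℂ] K} (hT : 0 ≤ T) (h : T ≤ T') :
    TR2 lam Ω S T ≤ TR2 lam Ω S T' := by
  have : T' = T + (T' - T) := by abel
  rw [this, tr2_add_right hT (sub_nonneg.2 h)]
  exact le_self_add

theorem tr2_mono_left (hP : Pic π lam W Ω) {S S' T : K →L[ℂ] K} (hS : 0 ≤ S) (h : S ≤ S')
    (cS : Cm W S) (cS' : Cm W S') (cT : Cm W T) :
    TR2 lam Ω S T ≤ TR2 lam Ω S' T := by
  rw [tr2_comm hP cS cT, tr2_comm hP cS' cT]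
  exact tr2_mono_right hS h

theorem tr2_one_right (S : K →L[ℂ] K) : TR2 lam Ω S 1 = TRN lam Ω (CFC.sqrt S) := by
  unfold TR2
  rw [CFC.sqrt_one, one_mul]

theorem tr2_zero_right (S : K →L[ℂ] K) : TR2 lam Ω S 0 = 0 := by
  unfold TR2 TRN
  rw [CFC.sqrt_zero, zero_mul]
  simp

theorem tr2_zero_left (T : K →L[ℂ] K) : TR2 lam Ω 0 T = 0 := by
  unfold TR2 TRN
  rw [CFC.sqrt_zero, mul_zero]
  simp

theorem trn_mul_le (A B : K →L[ℂ] K) : TRN lam Ω (A * B) ≤ ‖A‖ₑ ^ 2 * TRN lam Ω B := by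
  unfold TRN
  rw [← ENNReal.tsum_mul_left]
  refine ENNReal.tsum_le_tsum fun γ => ?_
  rw [← mul_pow]
  gcongr
  rw [mul_apply_eq_comp]
  exact A.le_opENorm _

theorem tr2_le (S T : K →L[ℂ] K) :
    TR2 lam Ω S T ≤ ‖CFC.sqrt T‖ₑ ^ 2 * TRN lam Ω (CFC.sqrt S) := trn_mul_le _ _

theorem tr2_lt {S : K →L[ℂ] K} (h : TRN lam Ω (CFC.sqrt S) < ∞) (T : K →L[ℂ] K) :
    TR2 lam Ω S T < ∞ :=
  (tr2_le S T).trans_lt (ENNReal.mul_lt_top (by finiteness) h)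

theorem tr2_smul_right {S T : K →L[ℂ] K} (hT : 0 ≤ T) (c : ℝ≥0) :
    TR2 lam Ω S (c • T) = c * TR2 lam Ω S T := by
  have hc : 0 ≤ c • T := smul_nonneg (by positivity) hT
  rw [tr2_form hc, tr2_form hT, ← ENNReal.tsum_mul_left]
  refine tsum_congr fun γ => ?_
  have e : (c • T) (CFC.sqrt S (lam γ Ω)) = ((c : ℝ) : ℂ) • T (CFC.sqrt S (lam γ Ω)) := by
    rw [smul_apply, NNReal.smul_def, RCLike.real_smul_eq_coe_smul (K := ℂ)]
    rfl
  rw [e, inner_smul_left]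
  have : RCLike.re ((starRingEnd ℂ) ((c : ℝ) : ℂ) *
      ⟪T (CFC.sqrt S (lam γ Ω)), CFC.sqrt S (lam γ Ω)⟫_ℂ) =
      (c : ℝ) * RCLike.re ⟪T (CFC.sqrt S (lam γ Ω)), CFC.sqrt S (lam γ Ω)⟫_ℂ := by
    rw [Complex.conj_ofReal]
    exact RCLike.re_ofReal_mul _ _
  rw [this, ENNReal.ofReal_mul (NNReal.coe_nonneg c), ENNReal.ofReal_coe_nnreal]

theorem tr2_smul_left (hP : Pic π lam W Ω) {S T : K →L[ℂ] K} (hS : 0 ≤ S) (cS : Cm W S)
    (cT : Cm W T) (c : ℝ≥0) : TR2 lam Ω (c • S) T = c * TR2 lam Ω S T := by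
  have cc : Cm W (c • S) := fun w hw => by
    rw [smul_mul_assoc, mul_smul_comm, cS w hw]
  rw [tr2_comm hP cc cT, tr2_smul_right hS, tr2_comm hP cT cS]

/-! ### Invariance -/

theorem conj_nonneg (hP : Pic π lam W Ω) (g : G) {T : K →L[ℂ] K} (hT : 0 ≤ T) :
    0 ≤ π g * T * π g⁻¹ := by
  have h : π g⁻¹ = star (π g) := by rw [star_eq_adjoint, hP.adjP]
  rw [h]
  exact star_right_conjugate_nonneg hT (π g)

theorem conj_lam_nonneg (hP : Pic π lam W Ω) (γ : Γ) {T : K →L[ℂ] K} (hT : 0 ≤ T) :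
    0 ≤ lam γ * T * lam γ⁻¹ := by
  have h : lam γ⁻¹ = star (lam γ) := by rw [star_eq_adjoint, hP.adjL]
  rw [h]
  exact star_right_conjugate_nonneg hT (lam γ)

theorem conj_mul_adj (hP : Pic π lam W Ω) (g : G) {A S : K →L[ℂ] K} (h : A * adjoint A = S) :
    (π g * A * π g⁻¹) * adjoint (π g * A * π g⁻¹) = π g * S * π g⁻¹ := by
  have e : adjoint (π g * A * π g⁻¹) = π g * adjoint A * π g⁻¹ := by
    rw [← star_eq_adjoint, star_mul, star_mul, star_eq_adjoint, star_eq_adjoint,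
      star_eq_adjoint, hP.adjP, hP.adjP, inv_inv, mul_assoc]
  rw [e]
  calc π g * A * π g⁻¹ * (π g * adjoint A * π g⁻¹)
      = π g * A * (π g⁻¹ * π g) * adjoint A * π g⁻¹ := by simp only [mul_assoc]
    _ = π g * S * π g⁻¹ := by rw [pi_inv', mul_one, mul_assoc (π g), h]

theorem conj_adj_mul (hP : Pic π lam W Ω) (g : G) {A S : K →L[ℂ] K} (h : adjoint A * A = S) :
    adjoint (π g * A * π g⁻¹) * (π g * A * π g⁻¹) = π g * S * π g⁻¹ := by
  have h' : adjoint A * adjoint (adjoint A) = S := by rw [adjoint_adjoint, h]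
  have := conj_mul_adj hP g h'
  have e : adjoint (π g * A * π g⁻¹) = π g * adjoint A * π g⁻¹ := by
    rw [← star_eq_adjoint, star_mul, star_mul, star_eq_adjoint, star_eq_adjoint,
      star_eq_adjoint, hP.adjP, hP.adjP, inv_inv, mul_assoc]
  rw [e, ← this]
  congr 1
  rw [← star_eq_adjoint, star_mul, star_mul, star_eq_adjoint, star_eq_adjoint,
    star_eq_adjoint, hP.adjP, hP.adjP, inv_inv, adjoint_adjoint, mul_assoc]

theorem tr2_pi (hP : Pic π lam W Ω) (g : G) {S T : K →L[ℂ] K} (hS : 0 ≤ S) (hT : 0 ≤ T)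
    (cS : Cm W S) (cT : Cm W T) :
    TR2 lam Ω (π g * S * π g⁻¹) (π g * T * π g⁻¹) = TR2 lam Ω S T := by
  have hA : CFC.sqrt S * adjoint (CFC.sqrt S) = S := by
    rw [sqrt_adj, CFC.sqrt_mul_sqrt_self S hS]
  rw [tr2_eq hP (conj_nonneg hP g hS) (conj_nonneg hP g hT)
    (cm_pi hP g (cm_sqrt cS)) (cm_pi hP g (cm_sqrt cT)) (cm_pi hP g cS) (cm_pi hP g cT)
    (conj_mul_adj hP g hA) (conj_adj_mul hP g (sqrt_adj_mul hT))]
  have : π g * CFC.sqrt T * π g⁻¹ * (π g * CFC.sqrt S * π g⁻¹)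
      = π g * (CFC.sqrt T * CFC.sqrt S) * π g⁻¹ := by
    calc π g * CFC.sqrt T * π g⁻¹ * (π g * CFC.sqrt S * π g⁻¹)
        = π g * CFC.sqrt T * (π g⁻¹ * π g) * CFC.sqrt S * π g⁻¹ := by simp only [mul_assoc]
      _ = _ := by rw [pi_inv', mul_one]; simp only [mul_assoc]
  rw [this, hP.tr_conj _ (cm_mul (cm_sqrt cT) (cm_sqrt cS))]
  rfl

/-- the group acts on the first variable if the second is invariant -/
theorem tr2_pi_left (hP : Pic π lam W Ω) (g : G) {S T : K →L[ℂ] K} (hS : 0 ≤ S) (hT : 0 ≤ T)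
    (cS : Cm W S) (cT : Cm W T) (hg : π g * T = T * π g) :
    TR2 lam Ω (π g * S * π g⁻¹) T = TR2 lam Ω S T := by
  have e : π g * T * π g⁻¹ = T := by rw [hg, mul_assoc, pi_inv, mul_one]
  have := tr2_pi hP g hS hT cS cT
  rwa [e] at this

theorem lam_mul_inv (γ : Γ) : lam γ⁻¹ * lam γ = 1 := by
  rw [← map_mul, inv_mul_cancel, map_one]

theorem conjl_mul_adj (hP : Pic π lam W Ω) (g : Γ) {A S : K →L[ℂ] K} (h : A * adjoint A = S) :
    (lam g * A * lam g⁻¹) * adjoint (lam g * A * lam g⁻¹) = lam g * S * lam g⁻¹ := by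
  have e : adjoint (lam g * A * lam g⁻¹) = lam g * adjoint A * lam g⁻¹ := by
    rw [← star_eq_adjoint, star_mul, star_mul, star_eq_adjoint, star_eq_adjoint,
      star_eq_adjoint, hP.adjL, hP.adjL, inv_inv, mul_assoc]
  rw [e]
  calc lam g * A * lam g⁻¹ * (lam g * adjoint A * lam g⁻¹)
      = lam g * A * (lam g⁻¹ * lam g) * adjoint A * lam g⁻¹ := by simp only [mul_assoc]
    _ = lam g * S * lam g⁻¹ := by rw [lam_mul_inv, mul_one, mul_assoc (lam g), h]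

theorem conjl_adj_mul (hP : Pic π lam W Ω) (g : Γ) {A S : K →L[ℂ] K} (h : adjoint A * A = S) :
    adjoint (lam g * A * lam g⁻¹) * (lam g * A * lam g⁻¹) = lam g * S * lam g⁻¹ := by
  have e : adjoint (lam g * A * lam g⁻¹) = lam g * adjoint A * lam g⁻¹ := by
    rw [← star_eq_adjoint, star_mul, star_mul, star_eq_adjoint, star_eq_adjoint,
      star_eq_adjoint, hP.adjL, hP.adjL, inv_inv, mul_assoc]
  rw [e]
  calc lam g * adjoint A * lam g⁻¹ * (lam g * A * lam g⁻¹)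
      = lam g * adjoint A * (lam g⁻¹ * lam g) * A * lam g⁻¹ := by simp only [mul_assoc]
    _ = lam g * S * lam g⁻¹ := by rw [lam_mul_inv, mul_one, mul_assoc (lam g), h]

theorem tr2_lam (hP : Pic π lam W Ω) (g : Γ) {S T : K →L[ℂ] K} (hS : 0 ≤ S) (hT : 0 ≤ T)
    (cS : Cm W S) (cT : Cm W T) :
    TR2 lam Ω (lam g * S * lam g⁻¹) (lam g * T * lam g⁻¹) = TR2 lam Ω S T := by
  have hA : CFC.sqrt S * adjoint (CFC.sqrt S) = S := by
    rw [sqrt_adj, CFC.sqrt_mul_sqrt_self S hS]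
  rw [tr2_eq hP (conj_lam_nonneg hP g hS) (conj_lam_nonneg hP g hT)
    (cm_lam hP g (cm_sqrt cS)) (cm_lam hP g (cm_sqrt cT)) (cm_lam hP g cS) (cm_lam hP g cT)
    (conjl_mul_adj hP g hA) (conjl_adj_mul hP g (sqrt_adj_mul hT))]
  have : lam g * CFC.sqrt T * lam g⁻¹ * (lam g * CFC.sqrt S * lam g⁻¹)
      = lam g * (CFC.sqrt T * CFC.sqrt S) * lam g⁻¹ := by
    calc lam g * CFC.sqrt T * lam g⁻¹ * (lam g * CFC.sqrt S * lam g⁻¹)
        = lam g * CFC.sqrt T * (lam g⁻¹ * lam g) * CFC.sqrt S * lam g⁻¹ := by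
          simp only [mul_assoc]
      _ = _ := by rw [lam_mul_inv, mul_one]; simp only [mul_assoc]
  rw [this, trn_lam hP]
  rfl

/-! ### Vanishing -/

theorem tr2_eq_zero (hP : Pic π lam W Ω) {S T : K →L[ℂ] K} (hS : 0 ≤ S) (hT : 0 ≤ T)
    (cS : Cm W S) (cT : Cm W T) (h : TR2 lam Ω S T = 0) : T * S = 0 ∧ S * T = 0 := by
  have h0 := hP.tr_zero _ (cm_mul (cm_sqrt cT) (cm_sqrt cS)) h
  have h1 : T * S = 0 := by
    calc T * S = (CFC.sqrt T * CFC.sqrt T) * (CFC.sqrt S * CFC.sqrt S) := by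
          rw [CFC.sqrt_mul_sqrt_self T hT, CFC.sqrt_mul_sqrt_self S hS]
      _ = CFC.sqrt T * (CFC.sqrt T * CFC.sqrt S) * CFC.sqrt S := by simp only [mul_assoc]
      _ = 0 := by rw [h0, mul_zero, zero_mul]
  refine ⟨h1, ?_⟩
  have h2 := congrArg star h1
  rw [star_mul, star_zero, (IsSelfAdjoint.of_nonneg hS).star_eq,
    (IsSelfAdjoint.of_nonneg hT).star_eq] at h2
  exact h2

end Vale.Agent.P092.H325
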