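import Vale.Agent.P092.H325.UltraP

/-!
P092, Team D, cross-leg step: passage to the limit in the weak operator topology.
-/

set_option linter.all false

open Filter Topology ContinuousLinearMap
open scoped InnerProductSpace

namespace Vale.Agent.P092.H325

variable {K : Type*} [NormedAddCommGroup K] [InnerProductSpace ℂ K] [CompleteSpace K]
  {I : Type*} {l : Filter I} {T T' : I → (K →L[ℂ] K)} {S S' : K →L[ℂ] K}

/-- convergence in the weak operator topology -/
def WLim (l : Filter I) (T : I → (K →L[ℂ] K)) (S : K →L[ℂ] K) : Prop :=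
  ∀ x z, Tendsto (fun i => ⟪x, T i z⟫_ℂ) l (𝓝 ⟪x, S z⟫_ℂ)

namespace WLim

theorem const (S : K →L[ℂ] K) : WLim l (fun _ => S) S := fun _ _ => tendsto_const_nhds

theorem unique [l.NeBot] (h : WLim l T S) (h' : WLim l T S') : S = S' :=
  ContinuousLinearMap.ext fun z => ext_inner_left ℂ fun x => tendsto_nhds_unique (h x z) (h' x z)

theorem congr (h : WLim l T S) (e : ∀ᶠ i in l, T i = T' i) : WLim l T' S := fun x z =>
  (h x z).congr' (e.mono fun i hi => by rw [hi])

theorem mul_left (h : WLim l T S) (A : K →L[ℂ] K) : WLim l (fun i => A * T i) (A * S) :=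
  fun x z => by
    have := h (adjoint A x) z
    simp only [adjoint_inner_left] at this
    exact this

theorem mul_right (h : WLim l T S) (A : K →L[ℂ] K) : WLim l (fun i => T i * A) (S * A) :=
  fun x z => h x (A z)

theorem add (h : WLim l T S) (h' : WLim l T' S') : WLim l (fun i => T i + T' i) (S + S') :=
  fun x z => by
    have := (h x z).add (h' x z)
    simp only [← inner_add_right] at this
    exact this

theorem sub (h : WLim l T S) (h' : WLim l T' S') : WLim l (fun i => T i - T' i) (S - S') :=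
  fun x z => by
    have := (h x z).sub (h' x z)
    simp only [← inner_sub_right] at this
    exact this

theorem smul (h : WLim l T S) (c : ℂ) : WLim l (fun i => c • T i) (c • S) :=
  fun x z => by
    have h1 := (h x z).const_mul c
    refine (h1.congr fun i => ?_).trans_eq ?_
    · change c * ⟪x, T i z⟫_ℂ = ⟪x, c • T i z⟫_ℂ
      rw [inner_smul_right]
    · change 𝓝 (c * ⟪x, S z⟫_ℂ) = 𝓝 ⟪x, c • S z⟫_ℂ
      rw [inner_smul_right]

theorem adj (h : WLim l T S) : WLim l (fun i => adjoint (T i)) (adjoint S) := fun x z => by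
  have h1 := (RCLike.continuous_conj.tendsto _).comp (h z x)
  refine (h1.congr fun i => ?_).trans_eq ?_
  · change (starRingEnd ℂ) ⟪z, T i x⟫_ℂ = ⟪x, adjoint (T i) z⟫_ℂ
    rw [inner_conj_symm, adjoint_inner_right]
  · change 𝓝 ((starRingEnd ℂ) ⟪z, S x⟫_ℂ) = 𝓝 ⟪x, adjoint S z⟫_ℂ
    rw [inner_conj_symm, adjoint_inner_right]

/-- a norm-small perturbation does not change the limit -/
theorem of_norm (h : WLim l T S) (e : Tendsto (fun i => ‖T' i - T i‖) l (𝓝 0)) :
    WLim l T' S := fun x z => by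
  have h0 : Tendsto (fun i => ⟪x, (T' i - T i) z⟫_ℂ) l (𝓝 0) := by
    rw [tendsto_zero_iff_norm_tendsto_zero]
    have h1 : Tendsto (fun i => ‖x‖ * (‖T' i - T i‖ * ‖z‖)) l (𝓝 0) := by
      have := (e.mul_const ‖z‖).const_mul ‖x‖
      simpa using this
    refine squeeze_zero (fun i => norm_nonneg _) (fun i => ?_) h1
    exact (norm_inner_le_norm _ _).trans (by gcongr; exact (T' i - T i).le_opNorm z)
  have h2 := (h x z).add h0
  refine (h2.congr fun i => ?_).trans_eq (by rw [add_zero])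
  rw [← inner_add_right]
  congr 1
  rw [sub_apply]
  abel

/-- weak limits of small operators vanish -/
theorem eq_zero_of_norm [l.NeBot] (h : WLim l T S) (e : Tendsto (fun i => ‖T i‖) l (𝓝 0)) :
    S = 0 := by
  have h1 : WLim l T (0 : K →L[ℂ] K) :=
    (const (l := l) (0 : K →L[ℂ] K)).of_norm (by simpa using e)
  exact h.unique h1

/-- commutation passes to the limit -/
theorem commute [l.NeBot] (h : WLim l T S) {B : K →L[ℂ] K} (hB : ∀ i, T i * B = B * T i) :
    S * B = B * S := by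
  have h1 := h.mul_right B
  have h2 := h.mul_left B
  exact h1.unique (h2.congr (Eventually.of_forall fun i => (hB i).symm))

/-- asymptotic commutation gives commutation in the limit -/
theorem commute_of_norm [l.NeBot] (h : WLim l T S) {B : K →L[ℂ] K}
    (hB : Tendsto (fun i => ‖T i * B - B * T i‖) l (𝓝 0)) : S * B = B * S := by
  have h1 := (h.mul_right B).sub (h.mul_left B)
  exact sub_eq_zero.1 (h1.eq_zero_of_norm hB)

/-- conjugations pass to the limit -/
theorem conj_eq [l.NeBot] (h : WLim l T S) (h' : WLim l T' S') {U V : K →L[ℂ] K}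
    (e : ∀ i, U * T i * V = T' i) : U * S * V = S' :=
  ((h.mul_left U).mul_right V).unique (h'.congr (Eventually.of_forall fun i => (e i).symm))

/-- asymptotic conjugation -/
theorem conj_eq_of_norm [l.NeBot] (h : WLim l T S) (h' : WLim l T' S') {U V : K →L[ℂ] K}
    (e : Tendsto (fun i => ‖U * T i * V - T' i‖) l (𝓝 0)) : U * S * V = S' :=
  sub_eq_zero.1 ((((h.mul_left U).mul_right V).sub h').eq_zero_of_norm e)

theorem nonneg [l.NeBot] (h : WLim l T S) (hT : ∀ i, 0 ≤ T i) : 0 ≤ S := by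
  rw [nonneg_iff_isPositive]
  have hsa : IsSelfAdjoint S := by
    rw [isSelfAdjoint_iff']
    refine h.adj.unique (h.congr (Eventually.of_forall fun i => ?_))
    exact (isSelfAdjoint_iff'.1 (IsSelfAdjoint.of_nonneg (hT i))).symm
  rw [isPositive_iff_complex]
  intro x
  have h1 : ∀ i, 0 ≤ RCLike.re ⟪x, T i x⟫_ℂ := fun i =>
    ((nonneg_iff_isPositive (T i)).1 (hT i)).re_inner_nonneg_right x
  have h2 : 0 ≤ RCLike.re ⟪x, S x⟫_ℂ :=
    ge_of_tendsto' ((RCLike.continuous_re.tendsto _).comp (h x x)) h1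
  have h3 : ⟪S x, x⟫_ℂ = ⟪x, S x⟫_ℂ := by
    conv_lhs => rw [← adjoint_inner_right, isSelfAdjoint_iff'.1 hsa]
  have h4 : (starRingEnd ℂ) ⟪S x, x⟫_ℂ = ⟪S x, x⟫_ℂ := by
    rw [inner_conj_symm, h3]
  refine ⟨?_, ?_⟩
  · exact (RCLike.conj_eq_iff_re.1 h4)
  · rw [h3]
    exact h2

theorem norm_le [l.NeBot] (h : WLim l T S) {C : ℝ} (hC : 0 ≤ C) (hT : ∀ i, ‖T i‖ ≤ C) :
    ‖S‖ ≤ C := by
  refine ContinuousLinearMap.opNorm_le_bound _ hC fun z => ?_
  have h1 : ‖⟪S z, S z⟫_ℂ‖ ≤ ‖S z‖ * (C * ‖z‖) := by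
    refine le_of_tendsto' (h (S z) z).norm fun i => ?_
    exact (norm_inner_le_norm _ _).trans (by gcongr; exact (T i).le_of_opNorm_le (hT i) z)
  have h2 : ‖⟪S z, S z⟫_ℂ‖ = ‖S z‖ * ‖S z‖ := by
    rw [inner_self_eq_norm_sq_to_K]
    simp [sq]
  rw [h2] at h1
  rcases eq_or_lt_of_le (norm_nonneg (S z)) with h0 | h0
  · rw [← h0]
    positivity
  · exact le_of_mul_le_mul_left h1 h0

end WLim

end Vale.Agent.P092.H325
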