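import Vale.Agent.P092.H862.Uq3

/-!
P092 (helper325), row [N-XC]: uniqueness of the boundary map, with a source group `H` which acts on
the target group through `ι : H →* G`, and a set `M ⊆ H` of symmetries. Port of helper862's
`Uq`, `Uq2`, `Uq3`.
-/

set_option linter.all false

open scoped InnerProductSpace ENNReal ZeroAtInfty
open Filter Topology ContinuousLinearMap MeasureTheory

namespace Vale.Agent.P092.H325

open Vale.Agent.P092.RC (Cm TRN)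
open Vale.Agent.P092.H295
open Vale.Agent.P092.H862

variable {G Γ : Type} [Group G] [TopologicalSpace G] [IsTopologicalGroup G]
  [SecondCountableTopology G] [MeasurableSpace G] [BorelSpace G] [Group Γ]
variable {K : Type} [NormedAddCommGroup K] [InnerProductSpace ℂ K] [CompleteSpace K]
variable {H : Type} [Group H]

/-- a classical leg, with the trace properties; the symmetries `π` act through `ι` -/
structure LgI (μ : Measure G) (ι : H →* G) (π : H →* (K →L[ℂ] K)) (lam : Γ →* (K →L[ℂ] K))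
    (W : Set (K →L[ℂ] K)) (Ω : K) (q : Γ →* G) (Φ : C₀(G, ℂ) →⋆ₙₐ[ℂ] (K →L[ℂ] K)) : Prop where
  adjP : ∀ g, adjoint (π g) = π g⁻¹
  adjL : ∀ γ, adjoint (lam γ) = lam γ⁻¹
  Wadj : ∀ w ∈ W, adjoint w ∈ W
  nΩ : ‖Ω‖ = 1
  tr_adj : ∀ T, Cm W T → TRN lam Ω (adjoint T) = TRN lam Ω T
  tr_zero : ∀ T, Cm W T → TRN lam Ω T = 0 → T = 0
  tv : ∀ Y, Cm W Y → (∀ γ, Y * lam γ = lam γ * Y) → ∀ h, ⟪π h Ω, Y (π h Ω)⟫_ℂ = ⟪Ω, Y Ω⟫_ℂ
  cm : ∀ c, Cm W (Φ c)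
  cov : ∀ γ c, lam γ * Φ c * lam γ⁻¹ = Φ (ltr (q γ) c)
  pcov : ∀ h c, π h * Φ c * π h⁻¹ = Φ (rtr (ι h) c)
  sq : ∀ c : C₀(G, ℂ), HasCompactSupport c → ∀ ξ,
    ∫⁻ g, ‖Φ (ltr g c) ξ‖ₑ ^ 2 ∂μ = (∫⁻ g, ‖c g‖ₑ ^ 2 ∂μ) * ‖ξ‖ₑ ^ 2

variable {P : Type} [TopologicalSpace P] [CompactSpace P] [MulAction G P] [ContinuousSMul G P]

/-- the candidate boundary map -/
structure MpI (π : H →* (K →L[ℂ] K)) (lam : Γ →* (K →L[ℂ] K)) (W : Set (K →L[ℂ] K)) (q : Γ →* G)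
    (M : Set H) (E : C(P, ℂ) →ₗ[ℂ] (K →L[ℂ] K)) : Prop where
  up : UP E
  cm : ∀ f, Cm W (E f)
  com : ∀ u ∈ M, ∀ f, π u * E f = E f * π u
  cov : ∀ γ f, lam γ * E f * lam γ⁻¹ = E (tp (q γ) f)

variable {μ : Measure G} {ι : H →* G} {π : H →* (K →L[ℂ] K)} {lam : Γ →* (K →L[ℂ] K)}
  {W : Set (K →L[ℂ] K)} {Ω : K} {q : Γ →* G} {Φ : C₀(G, ℂ) →⋆ₙₐ[ℂ] (K →L[ℂ] K)}
  {M : Set H} {E : C(P, ℂ) →ₗ[ℂ] (K →L[ℂ] K)}

namespace LgI

variable (h : LgI μ ι π lam W Ω q Φ)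
include h

theorem trn_right_le {X Y : K →L[ℂ] K} (hX : Cm W X) (hY : Cm W Y) :
    TRN lam Ω (X * Y) ≤ ‖Y‖ₑ ^ 2 * TRN lam Ω X := by
  rw [← h.tr_adj _ (cm_mul hX hY), adj_mul, ← h.tr_adj _ hX]
  refine (trn_mul_le _ _).trans (le_of_eq ?_)
  have : ‖adjoint Y‖ₑ = ‖Y‖ₑ := by
    rw [← ofReal_norm_eq_enorm, ← ofReal_norm_eq_enorm, LinearIsometryEquiv.norm_map]
  rw [this]

theorem cont_sl (c : C₀(G, ℂ)) (ξ : K) : Continuous fun g => Φ (ltr g c) ξ :=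
  ((continuous_map Φ).comp (continuous_ltr c)).clm_apply continuous_const

theorem adj_s {c : C₀(G, ℂ)} (hr : star c = c) (g : G) : adjoint (Φ (ltr g c)) = Φ (ltr g c) := by
  rw [adj_map, ← ltr_star, hr]

/-- the trace norm is an average over the pinched operators -/
theorem trn_int [Countable Γ] {c : C₀(G, ℂ)} (hc : HasCompactSupport c) (hr : star c = c)
    (h1 : ∫⁻ g, ‖c g‖ₑ ^ 2 ∂μ = 1) {T : K →L[ℂ] K} (hT : Cm W T) :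
    TRN lam Ω T = ∫⁻ g, TRN lam Ω (T * Φ (ltr g c)) ∂μ := by
  have e1 : ∀ g, TRN lam Ω (T * Φ (ltr g c)) =
      ∑' γ, ‖Φ (ltr g c) (adjoint T (lam γ Ω))‖ₑ ^ 2 := by
    intro g
    rw [← h.tr_adj _ (cm_mul hT (h.cm _)), adj_mul, h.adj_s hr]
    rfl
  simp_rw [e1]
  rw [lintegral_tsum]
  · simp_rw [h.sq c hc, h1, one_mul]
    exact (h.tr_adj T hT).symm
  · intro γ
    exact ((h.cont_sl c _).enorm.measurable.pow_const 2).aemeasurable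

end LgI

namespace LgI

variable (h : LgI μ ι π lam W Ω q Φ)
include h

theorem s_lam (γ : Γ) (g : G) (c : C₀(G, ℂ)) (v : K) :
    Φ (ltr g c) (lam γ v) = lam γ (Φ (ltr ((q γ)⁻¹ * g) c) v) := by
  have h1 := h.cov γ (ltr ((q γ)⁻¹ * g) c)
  rw [← ltr_mul, mul_inv_cancel_left] at h1
  rw [← h1]
  change lam γ (Φ _ (lam γ⁻¹ (lam γ v))) = _
  rw [lam_inv]

theorem e_lam (hE : MpI π lam W q M E) (γ : Γ) (g : G) (f : C(P, ℂ)) (v : K) :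
    E (tp g f) (lam γ v) = lam γ (E (tp ((q γ)⁻¹ * g) f) v) := by
  have h1 := hE.cov γ (tp ((q γ)⁻¹ * g) f)
  rw [tp_tp, mul_inv_cancel_left] at h1
  rw [← h1]
  change lam γ (E _ (lam γ⁻¹ (lam γ v))) = _
  rw [lam_inv]

theorem dn_lam (hE : MpI π lam W q M E) (γ : Γ) (g : G) (c : C₀(G, ℂ)) (k : C(P, ℝ)) :
    (⟪Φ (ltr g c) (lam γ Ω), E (tp g (cx k)) (Φ (ltr g c) (lam γ Ω))⟫_ℂ).re =
      dn Φ Ω E c k ((q γ)⁻¹ * g) := by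
  rw [h.s_lam, h.e_lam hE, inner_lam h.adjL]
  rfl

theorem nrm_lam (γ : Γ) (g : G) (c : C₀(G, ℂ)) :
    ‖Φ (ltr g c) (lam γ Ω)‖ = ‖Φ (ltr ((q γ)⁻¹ * g) c) Ω‖ := by
  rw [h.s_lam, norm_lam h.adjL]


end LgI

namespace LgI

variable (h : LgI μ ι π lam W Ω q Φ)
include h

/-- near the diagonal -/
theorem trn_near (hE : MpI π lam W q M E) {c : C₀(G, ℂ)} {f : C(P, ℂ)} {k : C(P, ℝ)} {g : G} {z : ℂ}
    (hk : ∀ η, ‖f (g • η) - z‖ ^ 2 ≤ k η) :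
    TRN lam Ω ((E f - z • 1) * Φ (ltr g c)) ≤
      ∑' γ, ENNReal.ofReal (dn Φ Ω E c k ((q γ)⁻¹ * g)) := by
  unfold TRN
  refine ENNReal.tsum_le_tsum fun γ => ?_
  rw [← h.dn_lam hE]
  set v := Φ (ltr g c) (lam γ Ω) with hv
  have e1 : E f - z • (1 : K →L[ℂ] K) = E (f - z • 1) := by
    rw [map_sub, map_smul, hE.up.one]
  have h1 := hE.up.ks (f - z • 1) v
  rw [star_mul_nsq] at h1
  have h2 := hE.up.mono (k := nsq (f - z • 1)) (k' := tpr g k) (fun x => by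
    have h3 := hk (g⁻¹ • x)
    rw [smul_inv_smul] at h3
    simpa using h3) v
  have h3 : ‖(E f - z • (1 : K →L[ℂ] K)) v‖ ^ 2 ≤ (⟪v, E (cx (tpr g k)) v⟫_ℂ).re := by
    rw [e1]
    exact h1.trans h2
  change ‖(E f - z • (1 : K →L[ℂ] K)) v‖ₑ ^ 2 ≤ _
  rw [← ofReal_norm_eq_enorm, ← ENNReal.ofReal_pow (norm_nonneg _)]
  exact ENNReal.ofReal_le_ofReal h3

theorem trn_s (g : G) (c : C₀(G, ℂ)) :
    TRN lam Ω (Φ (ltr g c)) = ∑' γ, ‖Φ (ltr ((q γ)⁻¹ * g) c) Ω‖ₑ ^ 2 := by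
  unfold TRN
  refine tsum_congr fun γ => ?_
  rw [← ofReal_norm_eq_enorm, h.nrm_lam, ofReal_norm_eq_enorm]

/-- pointwise estimate -/
theorem trn_pt (hE : MpI π lam W q M E) {c b b' : C₀(G, ℂ)} {f : C(P, ℂ)} {k : C(P, ℝ)} {g : G}
    {z : ℂ} {ω : ℝ} (hω : 0 ≤ ω) (hk : ∀ η, ‖f (g • η) - z‖ ^ 2 ≤ k η)
    (hb : ∀ x, c (g⁻¹ * x) ≠ 0 → ‖z * b x - b' x‖ ≤ ω) :
    TRN lam Ω ((E f * Φ b - Φ b') * Φ (ltr g c)) ≤
      2 * (‖Φ b‖ₑ ^ 2 * ∑' γ, ENNReal.ofReal (dn Φ Ω E c k ((q γ)⁻¹ * g))) +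
      2 * (ENNReal.ofReal ω ^ 2 * ∑' γ, ‖Φ (ltr ((q γ)⁻¹ * g) c) Ω‖ₑ ^ 2) := by
  set S := Φ (ltr g c) with hS
  have e1 : (E f * Φ b - Φ b') * S = ((E f - z • 1) * S) * Φ b + Φ (z • b - b') * S := by
    have e2 : S * Φ b = Φ b * S := by
      rw [hS, ← map_mul, ← map_mul, mul_comm]
    rw [mul_assoc, e2, map_sub, map_smul]
    simp only [sub_mul, smul_mul_assoc, one_mul, mul_assoc]
    abel
  rw [e1]
  refine (trn_add_le _ _).trans ?_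
  gcongr
  · have hcm : Cm W ((E f - z • 1) * S) := cm_mul (cm_sub (hE.cm f) (cm_scal z)) (h.cm _)
    refine (h.trn_right_le hcm (h.cm b)).trans ?_
    gcongr
    exact h.trn_near hE hk
  · rw [← h.trn_s]
    unfold TRN
    rw [← ENNReal.tsum_mul_left]
    refine ENNReal.tsum_le_tsum fun γ => ?_
    rw [← mul_pow]
    gcongr
    have e3 : (Φ (z • b - b') * S) (lam γ Ω) = Φ ((z • b - b') * ltr g c) (lam γ Ω) := by
      rw [map_mul]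
    rw [e3]
    have h4 := H295.norm_map_le Φ (a := (z • b - b') * ltr g c) (b := ltr g c) hω (fun x => by
      rw [ZeroAtInftyContinuousMap.mul_apply, norm_mul]
      by_cases h0 : c (g⁻¹ * x) = 0
      · rw [ltr_apply, h0, norm_zero, mul_zero, mul_zero]
      · gcongr
        exact hb x h0) (lam γ Ω)
    rw [← ofReal_norm_eq_enorm, ← ofReal_norm_eq_enorm, ← ENNReal.ofReal_mul hω]
    exact ENNReal.ofReal_le_ofReal h4

/-- **the main estimate** -/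
theorem trn_le [Countable Γ] [μ.IsMulLeftInvariant] (hE : MpI π lam W q M E) {c b b' : C₀(G, ℂ)}
    {f : C(P, ℂ)} {k : C(P, ℝ)} {y : P} {ω : ℝ} {C : Set G} {N : ℝ≥0∞}
    (hc : HasCompactSupport c) (hr : star c = c) (h1 : ∫⁻ g, ‖c g‖ₑ ^ 2 ∂μ = 1)
    (hC : MeasurableSet C) (hN : ∀ g, ∑' γ, C.indicator (1 : G → ℝ≥0∞) (q γ * g) ≤ N)
    (hω : 0 ≤ ω) (hk : ∀ g ∈ C, ∀ η, ‖f (g • η) - f (g • y)‖ ^ 2 ≤ k η)
    (hb : ∀ g ∈ C, ∀ x, c (g⁻¹ * x) ≠ 0 → ‖f (g • y) * b x - b' x‖ ≤ ω)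
    (hs : ∀ g, g ∉ C → ∀ x, c (g⁻¹ * x) ≠ 0 → b x = 0 ∧ b' x = 0) :
    TRN lam Ω (E f * Φ b - Φ b') ≤
      2 * (‖Φ b‖ₑ ^ 2 * (N * ∫⁻ g, ENNReal.ofReal (dn Φ Ω E c k g) ∂μ)) +
      2 * (ENNReal.ofReal ω ^ 2 * N) := by
  have hD : Cm W (E f * Φ b - Φ b') := cm_sub (cm_mul (hE.cm f) (h.cm b)) (h.cm b')
  rw [h.trn_int hc hr h1 hD]
  have e0 : ∀ g, g ∉ C → TRN lam Ω ((E f * Φ b - Φ b') * Φ (ltr g c)) = 0 := by
    intro g hg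
    have e1 : b * ltr g c = 0 := by
      ext x
      by_cases h0 : c (g⁻¹ * x) = 0
      · simp [h0]
      · simp [(hs g hg x h0).1]
    have e2 : b' * ltr g c = 0 := by
      ext x
      by_cases h0 : c (g⁻¹ * x) = 0
      · simp [h0]
      · simp [(hs g hg x h0).2]
    have e3 : (E f * Φ b - Φ b') * Φ (ltr g c) = 0 := by
      rw [sub_mul, mul_assoc, ← map_mul, ← map_mul, e1, e2, map_zero, mul_zero, sub_zero]
    rw [e3]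
    unfold TRN
    simp
  have e1 : ∫⁻ g, TRN lam Ω ((E f * Φ b - Φ b') * Φ (ltr g c)) ∂μ =
      ∫⁻ g in C, TRN lam Ω ((E f * Φ b - Φ b') * Φ (ltr g c)) ∂μ := by
    rw [← lintegral_indicator hC]
    refine lintegral_congr fun g => ?_
    by_cases hg : g ∈ C
    · rw [Set.indicator_of_mem hg]
    · rw [Set.indicator_of_notMem hg, e0 g hg]
  rw [e1]
  have m1 : Measurable fun g => ENNReal.ofReal (dn Φ Ω E c k g) :=
    (dn_cont hE.up c k).measurable.ennreal_ofReal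
  have m2 : Measurable fun g => ‖Φ (ltr g c) Ω‖ₑ ^ 2 :=
    (h.cont_sl c Ω).enorm.measurable.pow_const 2
  have m3 : Measurable fun g => ∑' γ, ENNReal.ofReal (dn Φ Ω E c k ((q γ)⁻¹ * g)) :=
    Measurable.tsum fun γ => m1.comp (measurable_const_mul _)
  have m4 : Measurable fun g => ∑' γ, ‖Φ (ltr ((q γ)⁻¹ * g) c) Ω‖ₑ ^ 2 :=
    Measurable.tsum fun γ => m2.comp (measurable_const_mul _)
  calc ∫⁻ g in C, TRN lam Ω ((E f * Φ b - Φ b') * Φ (ltr g c)) ∂μ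
      ≤ ∫⁻ g in C, (2 * (‖Φ b‖ₑ ^ 2 * ∑' γ, ENNReal.ofReal (dn Φ Ω E c k ((q γ)⁻¹ * g))) +
          2 * (ENNReal.ofReal ω ^ 2 * ∑' γ, ‖Φ (ltr ((q γ)⁻¹ * g) c) Ω‖ₑ ^ 2)) ∂μ :=
        setLIntegral_mono' hC fun g hg => h.trn_pt hE hω (hk g hg) (hb g hg)
    _ = 2 * (‖Φ b‖ₑ ^ 2 * ∫⁻ g in C, ∑' γ, ENNReal.ofReal (dn Φ Ω E c k ((q γ)⁻¹ * g)) ∂μ) +
          2 * (ENNReal.ofReal ω ^ 2 * ∫⁻ g in C, ∑' γ, ‖Φ (ltr ((q γ)⁻¹ * g) c) Ω‖ₑ ^ 2 ∂μ) := by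
        rw [lintegral_add_left ((m3.const_mul _).const_mul _), lintegral_const_mul _ (m3.const_mul _),
          lintegral_const_mul _ m3, lintegral_const_mul _ (m4.const_mul _),
          lintegral_const_mul _ m4]
    _ ≤ _ := by
        gcongr
        · exact H862.Lg.unfold hC hN m1
        · refine (H862.Lg.unfold hC hN m2).trans (le_of_eq ?_)
          rw [h.sq c hc, h1, one_mul, ← ofReal_norm_eq_enorm, h.nΩ]
          simp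

end LgI

end Vale.Agent.P092.H325
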