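import Vale.Agent.P092.H325.UqI
import Vale.Agent.P092.H862.Uq6
import Vale.Agent.P092.H715.Disj

/-!
P092 (helper325), row [N-XC]: uniqueness of the boundary map through `ι : H →* G` and a set `M` of
symmetries. Port of helper862's `Uq4`, `Uq5`, `Uq6`: the state and its invariance.
-/

set_option linter.all false

open scoped InnerProductSpace ENNReal ZeroAtInfty
open Filter Topology ContinuousLinearMap MeasureTheory

namespace Vale.Agent.P092.H325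

open Vale.Agent.P092.RC (Cm TRN)
open Vale.Agent.P092.H295
open Vale.Agent.P092.H862

variable {G Γ : Type} [Group G] [TopologicalSpace G] [IsTopologicalGroup G]
  [SecondCountableTopology G] [MeasurableSpace G] [BorelSpace G] [Group Γ]
variable {K : Type} [NormedAddCommGroup K] [InnerProductSpace ℂ K] [CompleteSpace K]
variable {P : Type} [TopologicalSpace P] [CompactSpace P] [MulAction G P] [ContinuousSMul G P]
variable {H : Type} [Group H]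
variable {μ : Measure G} {ι : H →* G} {π : H →* (K →L[ℂ] K)} {lam : Γ →* (K →L[ℂ] K)}
  {W : Set (K →L[ℂ] K)} {Ω : K} {q : Γ →* G} {Φ : C₀(G, ℂ) →⋆ₙₐ[ℂ] (K →L[ℂ] K)}
  {M : Set H} {E : C(P, ℂ) →ₗ[ℂ] (K →L[ℂ] K)}

theorem pinv_vec (π : H →* (K →L[ℂ] K)) (g : H) (v : K) : π g⁻¹ (π g v) = v := by
  have h := congrArg (fun T : K →L[ℂ] K => T v) (map_mul π g⁻¹ g)
  simp only [inv_mul_cancel, map_one] at h
  exact h.symm

theorem inner_pvec {π : H →* (K →L[ℂ] K)} (hP : ∀ g, adjoint (π g) = π g⁻¹) (g : H) (v w : K) :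
    ⟪π g v, π g w⟫_ℂ = ⟪v, w⟫_ℂ := by
  rw [← adjoint_inner_right, hP, pinv_vec]

namespace LgI

variable (h : LgI μ ι π lam W Ω q Φ)
include h

/-- normalised bumps -/
theorem sqF {c : C₀(G, ℂ)} (hc : HasCompactSupport c) {t : ℝ} (ht : 0 ≤ t)
    (h1 : ∫⁻ g, ‖c g‖ₑ ^ 2 ∂μ ≤ ENNReal.ofReal (t ^ 2)) :
    SqF μ (fun g => Φ (ltr g c)) t where
  meas ξ := (h.cont_sl c ξ).aestronglyMeasurable
  nn := ht
  le ξ := by
    rw [h.sq c hc, ENNReal.ofReal_mul (by positivity), ← ofReal_norm_eq_enorm,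
      ← ENNReal.ofReal_pow (norm_nonneg _)]
    gcongr

theorem sqFE (hE : UP E) {c : C₀(G, ℂ)} (hc : HasCompactSupport c) {t : ℝ} (ht : 0 ≤ t)
    (h1 : ∫⁻ g, ‖c g‖ₑ ^ 2 ∂μ ≤ ENNReal.ofReal (t ^ 2)) (k : C(P, ℝ)) :
    SqF μ (fun g => E (tp g (cx k)) * Φ (ltr g c)) (‖k‖ * t) where
  meas ξ := by
    have h2 : Continuous fun g : G => E (tp g (cx k)) := hE.continuous.comp (continuous_tp _)
    exact (h2.clm_apply (h.cont_sl c ξ)).aestronglyMeasurable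
  nn := by positivity
  le ξ := by
    have h3 : ∀ g, ‖(E (tp g (cx k)) * Φ (ltr g c)) ξ‖ₑ ^ 2 ≤
        ENNReal.ofReal (‖k‖ ^ 2) * ‖Φ (ltr g c) ξ‖ₑ ^ 2 := by
      intro g
      rw [ENNReal.ofReal_pow (norm_nonneg _), ← mul_pow]
      gcongr
      change ‖E (tp g (cx k)) (Φ (ltr g c) ξ)‖ₑ ≤ _
      rw [← ofReal_norm_eq_enorm, ← ofReal_norm_eq_enorm, ← ENNReal.ofReal_mul (norm_nonneg _)]
      refine ENNReal.ofReal_le_ofReal ((hE.norm_le _ _).trans ?_)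
      gcongr
      exact (norm_tp_le _ _).trans (norm_cx k)
    refine (lintegral_mono h3).trans ?_
    rw [lintegral_const_mul' _ _ ENNReal.ofReal_ne_top, mul_pow, mul_assoc,
      ENNReal.ofReal_mul (p := ‖k‖ ^ 2) (by positivity)]
    gcongr
    exact (h.sqF hc ht h1).le ξ

theorem int_dn (hE : UP E) {c : C₀(G, ℂ)} (hc : HasCompactSupport c) {t : ℝ} (ht : 0 ≤ t)
    (h1 : ∫⁻ g, ‖c g‖ₑ ^ 2 ∂μ ≤ ENNReal.ofReal (t ^ 2)) (k : C(P, ℝ)) :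
    Integrable (dn Φ Ω E c k) μ :=
  (int_mix (h.sqF hc ht h1) (h.sqFE hE hc ht h1 k) Ω Ω).re

theorem al_eq (hE : UP E) {c : C₀(G, ℂ)} (hc : HasCompactSupport c) {t : ℝ} (ht : 0 ≤ t)
    (h1 : ∫⁻ g, ‖c g‖ₑ ^ 2 ∂μ ≤ ENNReal.ofReal (t ^ 2)) (k : C(P, ℝ)) :
    al μ Φ Ω E c k =
      (⟪Ω, (adjoint (h.sqF hc ht h1).col ∘L (h.sqFE hE hc ht h1 k).col) Ω⟫_ℂ).re := by
  rw [inner_mix]
  exact integral_re (int_mix (h.sqF hc ht h1) (h.sqFE hE hc ht h1 k) Ω Ω)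

theorem s_lam' (γ : Γ) (g : G) (c : C₀(G, ℂ)) (v : K) :
    lam γ (Φ (ltr g c) v) = Φ (ltr (q γ * g) c) (lam γ v) := by
  rw [h.s_lam, inv_mul_cancel_left]

theorem e_lam' (hE : MpI π lam W q M E) (γ : Γ) (g : G) (f : C(P, ℂ)) (v : K) :
    lam γ (E (tp g f) v) = E (tp (q γ * g) f) (lam γ v) := by
  rw [h.e_lam hE, inv_mul_cancel_left]

/-- **the operator `Ξ` is in the fixed algebra** -/
theorem xi_cm (hE : MpI π lam W q M E) {c : C₀(G, ℂ)} (hc : HasCompactSupport c) {t : ℝ}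
    (ht : 0 ≤ t) (h1 : ∫⁻ g, ‖c g‖ₑ ^ 2 ∂μ ≤ ENNReal.ofReal (t ^ 2)) (k : C(P, ℝ)) :
    Cm W (adjoint (h.sqF hc ht h1).col ∘L (h.sqFE hE.up hc ht h1 k).col) := by
  intro w hw
  refine ext_inner' fun x z => ?_
  have e1 : ⟪x, (w * (adjoint (h.sqF hc ht h1).col ∘L (h.sqFE hE.up hc ht h1 k).col)) z⟫_ℂ =
      ⟪adjoint w x, (adjoint (h.sqF hc ht h1).col ∘L (h.sqFE hE.up hc ht h1 k).col) z⟫_ℂ := by
    rw [adjoint_inner_left]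
    rfl
  have e2 : ⟪x, ((adjoint (h.sqF hc ht h1).col ∘L (h.sqFE hE.up hc ht h1 k).col) * w) z⟫_ℂ =
      ⟪x, (adjoint (h.sqF hc ht h1).col ∘L (h.sqFE hE.up hc ht h1 k).col) (w z)⟫_ℂ := rfl
  rw [e1, e2, inner_mix, inner_mix]
  refine integral_congr_ae (Eventually.of_forall fun g => ?_)
  change ⟪Φ (ltr g c) x, (E (tp g (cx k)) * Φ (ltr g c)) (w z)⟫_ℂ =
    ⟪Φ (ltr g c) (adjoint w x), (E (tp g (cx k)) * Φ (ltr g c)) z⟫_ℂ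
  have e3 : (E (tp g (cx k)) * Φ (ltr g c)) (w z) = w ((E (tp g (cx k)) * Φ (ltr g c)) z) :=
    congrArg (fun T : K →L[ℂ] K => T z) (cm_mul (hE.cm _) (h.cm _) w hw)
  have e4 : Φ (ltr g c) (adjoint w x) = adjoint w (Φ (ltr g c) x) :=
    congrArg (fun T : K →L[ℂ] K => T x) (h.cm _ _ (h.Wadj w hw))
  rw [e3, e4, adjoint_inner_left]

theorem xi_lam [μ.IsMulLeftInvariant] (hE : MpI π lam W q M E) {c : C₀(G, ℂ)}
    (hc : HasCompactSupport c) {t : ℝ} (ht : 0 ≤ t)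
    (h1 : ∫⁻ g, ‖c g‖ₑ ^ 2 ∂μ ≤ ENNReal.ofReal (t ^ 2)) (k : C(P, ℝ)) (γ : Γ) :
    (adjoint (h.sqF hc ht h1).col ∘L (h.sqFE hE.up hc ht h1 k).col) * lam γ =
      lam γ * (adjoint (h.sqF hc ht h1).col ∘L (h.sqFE hE.up hc ht h1 k).col) := by
  refine ext_inner' fun x z => ?_
  have e1 : ⟪x, (lam γ * (adjoint (h.sqF hc ht h1).col ∘L (h.sqFE hE.up hc ht h1 k).col)) z⟫_ℂ =
      ⟪lam γ⁻¹ x, (adjoint (h.sqF hc ht h1).col ∘L (h.sqFE hE.up hc ht h1 k).col) z⟫_ℂ := by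
    rw [← h.adjL, adjoint_inner_left]
    rfl
  have e2 : ⟪x, ((adjoint (h.sqF hc ht h1).col ∘L (h.sqFE hE.up hc ht h1 k).col) * lam γ) z⟫_ℂ =
      ⟪x, (adjoint (h.sqF hc ht h1).col ∘L (h.sqFE hE.up hc ht h1 k).col) (lam γ z)⟫_ℂ := rfl
  rw [e1, e2, inner_mix, inner_mix, ← integral_mul_left_eq_self
    (fun g => ⟪Φ (ltr g c) x, (E (tp g (cx k)) * Φ (ltr g c)) (lam γ z)⟫_ℂ) (q γ)]
  refine integral_congr_ae (Eventually.of_forall fun g => ?_)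
  change ⟪Φ (ltr (q γ * g) c) x, E (tp (q γ * g) (cx k)) (Φ (ltr (q γ * g) c) (lam γ z))⟫_ℂ =
    ⟪Φ (ltr g c) (lam γ⁻¹ x), E (tp g (cx k)) (Φ (ltr g c) z)⟫_ℂ
  rw [← h.s_lam', ← h.e_lam' hE, ← adjoint_inner_left, h.adjL]
  congr 1
  have := h.s_lam' γ⁻¹ (q γ * g) c x
  rw [this, map_inv, inv_mul_cancel_left]

end LgI

namespace LgI

variable (h : LgI μ ι π lam W Ω q Φ)
include h

theorem s_pi (u : H) (g : G) (c : C₀(G, ℂ)) (v : K) :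
    Φ (ltr g c) (π u⁻¹ v) = π u⁻¹ (Φ (ltr (g * (ι u)⁻¹) (cj (ι u) c)) v) := by
  have h1 := h.pcov u (ltr g c)
  rw [rtr_ltr] at h1
  rw [← h1]
  change _ = π u⁻¹ (π u (Φ (ltr g c) (π u⁻¹ v)))
  rw [pinv_vec]

omit h in
theorem e_pi (hE : MpI π lam W q M E) {u : H} (hu : u ∈ M) (f : C(P, ℂ)) (v : K) :
    E f (π u⁻¹ v) = π u⁻¹ (E f v) := by
  have h1 := congrArg (fun T : K →L[ℂ] K => T (π u⁻¹ v)) (hE.com u hu f)
  change π u (E f (π u⁻¹ v)) = E f (π u (π u⁻¹ v)) at h1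
  have h2 : π u (π u⁻¹ v) = v := by
    have := pinv_vec π u⁻¹ v
    rwa [inv_inv] at this
  rw [h2] at h1
  rw [← h1, pinv_vec]

/-- **(TV) gives the invariance of the state** -/
theorem al_cj [μ.IsMulLeftInvariant] [μ.IsMulRightInvariant] (hE : MpI π lam W q M E) {u : H}
    (hu : u ∈ M) {c : C₀(G, ℂ)} (hc : HasCompactSupport c) {t : ℝ} (ht : 0 ≤ t)
    (h1 : ∫⁻ g, ‖c g‖ₑ ^ 2 ∂μ ≤ ENNReal.ofReal (t ^ 2)) (k : C(P, ℝ)) :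
    al μ Φ Ω E (cj (ι u) c) (tpr (ι u) k) = al μ Φ Ω E c k := by
  rw [h.al_eq hE.up hc ht h1, ← h.tv _ (h.xi_cm hE hc ht h1 k) (h.xi_lam hE hc ht h1 k) u⁻¹,
    inner_mix]
  have e0 := integral_re (int_mix (h.sqF hc ht h1) (h.sqFE hE.up hc ht h1 k) (π u⁻¹ Ω) (π u⁻¹ Ω))
  refine Eq.trans ?_ e0
  unfold al
  rw [← integral_mul_right_eq_self (dn Φ Ω E (cj (ι u) c) (tpr (ι u) k)) (ι u)⁻¹]
  refine integral_congr_ae (Eventually.of_forall fun g => ?_)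
  change dn Φ Ω E (cj (ι u) c) (tpr (ι u) k) (g * (ι u)⁻¹) =
    (⟪Φ (ltr g c) (π u⁻¹ Ω), E (tp g (cx k)) (Φ (ltr g c) (π u⁻¹ Ω))⟫_ℂ).re
  rw [h.s_pi u, e_pi hE hu, inner_pvec h.adjP]
  unfold dn
  rw [← tp_cx, tp_tp, inv_mul_cancel_right]

end LgI

namespace LgI

variable (h : LgI μ ι π lam W Ω q Φ)
include h

theorem int_sq {c : C₀(G, ℂ)} (hc : HasCompactSupport c) {t : ℝ} (ht : 0 ≤ t)
    (h1 : ∫⁻ g, ‖c g‖ₑ ^ 2 ∂μ ≤ ENNReal.ofReal (t ^ 2)) :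
    Integrable (fun g => ‖Φ (ltr g c) Ω‖ ^ 2) μ ∧ ∫ g, ‖Φ (ltr g c) Ω‖ ^ 2 ∂μ ≤ t ^ 2 := by
  have hm : MemLp (fun g => Φ (ltr g c) Ω) 2 μ := (h.sqF hc ht h1).memLp Ω
  have hi : Integrable (fun g => ‖Φ (ltr g c) Ω‖ ^ 2) μ := hm.integrable_norm_pow two_ne_zero
  refine ⟨hi, ?_⟩
  have h2 : ENNReal.ofReal (∫ g, ‖Φ (ltr g c) Ω‖ ^ 2 ∂μ) ≤ ENNReal.ofReal (t ^ 2) := by
    rw [ofReal_integral_eq_lintegral_ofReal hi (Eventually.of_forall fun g => by positivity)]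
    have h3 := (h.sqF hc ht h1).le Ω
    rw [h.nΩ, one_pow, mul_one] at h3
    refine le_trans (le_of_eq ?_) h3
    refine lintegral_congr fun g => ?_
    rw [← ofReal_norm_eq_enorm, ← ENNReal.ofReal_pow (norm_nonneg _)]
  exact (ENNReal.ofReal_le_ofReal_iff (by positivity)).1 h2

/-- **the state depends continuously on the bump** -/
theorem al_close (hE : UP E) {c d : C₀(G, ℂ)} (hc : HasCompactSupport c)
    (hd : HasCompactSupport d) (hcd : HasCompactSupport (d - c)) {s : ℝ} (hs : 0 ≤ s)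
    (h1 : ∫⁻ g, ‖c g‖ₑ ^ 2 ∂μ ≤ ENNReal.ofReal (1 ^ 2))
    (h2 : ∫⁻ g, ‖d g‖ₑ ^ 2 ∂μ ≤ ENNReal.ofReal (1 ^ 2))
    (h3 : ∫⁻ g, ‖(d - c) g‖ₑ ^ 2 ∂μ ≤ ENNReal.ofReal (s ^ 2)) (k : C(P, ℝ)) {δ : ℝ} (hδ : 0 < δ) :
    |al μ Φ Ω E d k - al μ Φ Ω E c k| ≤ ‖k‖ * (δ⁻¹ * s ^ 2 + δ * 2) := by
  obtain ⟨i1, j1⟩ := h.int_sq hc zero_le_one h1
  obtain ⟨i2, j2⟩ := h.int_sq hd zero_le_one h2
  obtain ⟨i3, j3⟩ := h.int_sq hcd hs h3
  unfold al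
  rw [← integral_sub (h.int_dn hE hd zero_le_one h2 k) (h.int_dn hE hc zero_le_one h1 k)]
  have h4 : ∀ g, ‖dn Φ Ω E d k g - dn Φ Ω E c k g‖ ≤
      ‖k‖ * (δ⁻¹ * ‖Φ (ltr g (d - c)) Ω‖ ^ 2 + δ * (‖Φ (ltr g d) Ω‖ ^ 2 + ‖Φ (ltr g c) Ω‖ ^ 2)) := by
    intro g
    have h5 := form_close (E (tp g (cx k))) (M := ‖k‖)
      ((hE.norm_le' _).trans ((norm_tp_le _ _).trans (norm_cx k))) (Φ (ltr g d) Ω)
      (Φ (ltr g c) Ω) hδ
    rw [Real.norm_eq_abs]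
    refine h5.trans (le_of_eq ?_)
    rw [ltr_sub, map_sub, ContinuousLinearMap.sub_apply]
  have i21 : Integrable (fun g => ‖Φ (ltr g d) Ω‖ ^ 2 + ‖Φ (ltr g c) Ω‖ ^ 2) μ := i2.add i1
  have k1 : Integrable (fun g => δ⁻¹ * ‖Φ (ltr g (d - c)) Ω‖ ^ 2) μ := i3.const_mul δ⁻¹
  have k2 : Integrable (fun g => δ * (‖Φ (ltr g d) Ω‖ ^ 2 + ‖Φ (ltr g c) Ω‖ ^ 2)) μ :=
    i21.const_mul δ
  have k3 : Integrable (fun g => ‖k‖ * (δ⁻¹ * ‖Φ (ltr g (d - c)) Ω‖ ^ 2 +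
      δ * (‖Φ (ltr g d) Ω‖ ^ 2 + ‖Φ (ltr g c) Ω‖ ^ 2))) μ := (k1.add k2).const_mul ‖k‖
  have h6 := norm_integral_le_of_norm_le k3 (Eventually.of_forall h4)
  rw [← Real.norm_eq_abs]
  refine h6.trans ?_
  rw [integral_const_mul, integral_add k1 k2, integral_const_mul, integral_const_mul,
    integral_add i2 i1]
  gcongr
  linarith

end LgI

namespace LgI

variable (h : LgI μ ι π lam W Ω q Φ)
include h

theorem al_bd (hE : UP E) {c : C₀(G, ℂ)} (hc : HasCompactSupport c)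
    (h1 : ∫⁻ g, ‖c g‖ₑ ^ 2 ∂μ ≤ ENNReal.ofReal (1 ^ 2)) (k : C(P, ℝ)) :
    |al μ Φ Ω E c k| ≤ ‖k‖ := by
  obtain ⟨i1, j1⟩ := h.int_sq hc zero_le_one h1
  have h2 := norm_integral_le_of_norm_le (i1.const_mul ‖k‖)
    (Eventually.of_forall fun g => dn_le (Φ := Φ) (Ω := Ω) hE c k g)
  rw [integral_const_mul] at h2
  unfold al
  rw [← Real.norm_eq_abs]
  refine h2.trans ?_
  have : ‖k‖ * ∫ g, ‖Φ (ltr g c) Ω‖ ^ 2 ∂μ ≤ ‖k‖ * 1 := by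
    gcongr
    linarith
  linarith

theorem al_add (hE : UP E) {c : C₀(G, ℂ)} (hc : HasCompactSupport c)
    (h1 : ∫⁻ g, ‖c g‖ₑ ^ 2 ∂μ ≤ ENNReal.ofReal (1 ^ 2)) (k k' : C(P, ℝ)) :
    al μ Φ Ω E c (k + k') = al μ Φ Ω E c k + al μ Φ Ω E c k' := by
  unfold al
  rw [← integral_add (h.int_dn hE hc zero_le_one h1 k) (h.int_dn hE hc zero_le_one h1 k')]
  exact integral_congr_ae (Eventually.of_forall fun g => dn_add c k k' g)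

omit h in
theorem al_smul (c : C₀(G, ℂ)) (t : ℝ) (k : C(P, ℝ)) :
    al μ Φ Ω E c (t • k) = t * al μ Φ Ω E c k := by
  unfold al
  rw [← integral_const_mul]
  exact integral_congr_ae (Eventually.of_forall fun g => dn_smul c t k g)

theorem al_one (hE : UP E) {c : C₀(G, ℂ)} (hc : HasCompactSupport c)
    (h1 : ∫⁻ g, ‖c g‖ₑ ^ 2 ∂μ = 1) : al μ Φ Ω E c (1 : C(P, ℝ)) = 1 := by
  have h1' : ∫⁻ g, ‖c g‖ₑ ^ 2 ∂μ ≤ ENNReal.ofReal (1 ^ 2) := by rw [h1]; simp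
  obtain ⟨i1, -⟩ := h.int_sq hc zero_le_one h1'
  unfold al
  simp_rw [dn_one hE]
  have h2 : ENNReal.ofReal (∫ g, ‖Φ (ltr g c) Ω‖ ^ 2 ∂μ) = 1 := by
    rw [ofReal_integral_eq_lintegral_ofReal i1 (Eventually.of_forall fun g => by positivity)]
    have h3 := h.sq c hc Ω
    rw [h1, one_mul, ← ofReal_norm_eq_enorm, h.nΩ, ENNReal.ofReal_one, one_pow] at h3
    rw [← h3]
    refine lintegral_congr fun g => ?_
    rw [← ofReal_norm_eq_enorm, ← ENNReal.ofReal_pow (norm_nonneg _)]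
  rw [← ENNReal.ofReal_one] at h2
  exact (ENNReal.ofReal_eq_ofReal_iff (integral_nonneg fun g => by positivity) zero_le_one).1 h2

omit h in
theorem al_nonneg (hE : UP E) (c : C₀(G, ℂ)) {k : C(P, ℝ)} (hk : ∀ x, 0 ≤ k x) :
    0 ≤ al μ Φ Ω E c k := integral_nonneg fun g => dn_nonneg hE c hk g

end LgI

end Vale.Agent.P092.H325
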