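import Vale.Agent.P092.H325.UqJ
import Vale.Agent.P092.H295.Dv

/-!
P092 (helper325), row [N-XC]: **uniqueness of the boundary map**, source group `H`, `ι : H →* G`,
a set `M ⊆ H` of commuting symmetries with the disjointness property of helper715.
-/

set_option linter.all false

open scoped InnerProductSpace ENNReal ZeroAtInfty Pointwise
open Filter Topology ContinuousLinearMap MeasureTheory

namespace Vale.Agent.P092.H325

open Vale.Agent.P092.RC (Cm TRN)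
open Vale.Agent.P092.H295
open Vale.Agent.P092.H862 (UP cx nsq tp tpr dn al dn_nonneg dn_cont norm_cx)
open Vale.Agent.P092.H715.Disj (Disj trc fs_of_disj)

variable {G Γ : Type} [Group G] [TopologicalSpace G] [IsTopologicalGroup G] [T2Space G]
  [LocallyCompactSpace G] [SecondCountableTopology G] [MeasurableSpace G] [BorelSpace G] [Group Γ]
variable {K : Type} [NormedAddCommGroup K] [InnerProductSpace ℂ K] [CompleteSpace K]
variable {P : Type} [TopologicalSpace P] [CompactSpace P] [T2Space P] [MulAction G P]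
  [ContinuousSMul G P]
variable {H : Type} [Group H]
variable {μ : Measure G} {ι : H →* G} {π : H →* (K →L[ℂ] K)} {lam : Γ →* (K →L[ℂ] K)}
  {W : Set (K →L[ℂ] K)} {Ω : K} {q : Γ →* G} {Φ : C₀(G, ℂ) →⋆ₙₐ[ℂ] (K →L[ℂ] K)}
  {M : Set H} {E : C(P, ℂ) →ₗ[ℂ] (K →L[ℂ] K)}

/-- one good bump for finitely many symmetries -/
theorem exists_bump1 (μ : Measure G) [μ.IsHaarMeasure] [μ.IsMulRightInvariant] (us : List G)
    (hc : us.Pairwise Commute) {O : Set G} (hO : O ∈ 𝓝 (1 : G)) {ε : ℝ} (hε : 0 < ε) :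
    ∃ c : C₀(G, ℂ), HasCompactSupport c ∧ star c = c ∧ ∫⁻ g, ‖c g‖ₑ ^ 2 ∂μ = 1 ∧
      (∀ x, c x ≠ 0 → x ∈ O) ∧
      ∀ u ∈ us, ∫⁻ g, ‖(cj u c - c) g‖ₑ ^ 2 ∂μ ≤ ENNReal.ofReal (ε ^ 2) := by
  obtain ⟨c, h1, h2, h3, h4, h5, h6⟩ :=
    H626.Bump.bump_list μ us hc hO (ε := ε ^ 2) (by positivity)
  refine ⟨H626.Bump.up c h1 h2, ?_, ?_, ?_, ?_, ?_⟩
  · exact h2.comp_left (g := fun t : ℝ => (t : ℂ)) Complex.ofReal_zero
  · ext x
    exact Complex.conj_ofReal _
  · have := H862.lint_sq (μ := μ) h1 h2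
    rw [h5, ENNReal.ofReal_one] at this
    exact this
  · intro x hx
    refine h4 (subset_tsupport _ ?_)
    intro h0
    apply hx
    rw [H626.Bump.up_apply, h0, Complex.ofReal_zero]
  · intro u hu
    have hc' : Continuous fun x => c (u⁻¹ * x * u) - c x := (h1.comp (by fun_prop)).sub h1
    have hs' : HasCompactSupport fun x => c (u⁻¹ * x * u) - c x := by
      have e : (fun x => c (u⁻¹ * x * u)) = c ∘
          ((Homeomorph.mulLeft u⁻¹).trans (Homeomorph.mulRight u)) := by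
        funext x; rfl
      have h7 : HasCompactSupport (fun x => c (u⁻¹ * x * u)) := by
        rw [e]
        exact h2.comp_homeomorph _
      exact h7.sub h2
    refine le_trans (le_of_eq ?_) (ENNReal.ofReal_le_ofReal (h6 u hu))
    rw [← H862.lint_sq hc' hs']
    refine lintegral_congr fun g => ?_
    rw [ZeroAtInftyContinuousMap.sub_apply, cj_apply, H626.Bump.up_apply, H626.Bump.up_apply,
      Complex.ofReal_sub, mul_assoc]

theorem lint_cj [μ.IsMulLeftInvariant] [μ.IsMulRightInvariant] (u : G) (c : C₀(G, ℂ)) :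
    ∫⁻ g, ‖cj u c g‖ₑ ^ 2 ∂μ = ∫⁻ g, ‖c g‖ₑ ^ 2 ∂μ := by
  have e3 := lintegral_mul_left_eq_self (μ := μ) (fun g => ‖c (g * u)‖ₑ ^ 2) u⁻¹
  have e4 := lintegral_mul_right_eq_self (μ := μ) (fun g => ‖c g‖ₑ ^ 2) u
  rw [← e4, ← e3]
  refine lintegral_congr fun g => ?_
  rw [cj_apply, mul_assoc]

/-- the state of a bump, as a linear map -/
noncomputable def LgI.alL (h : LgI μ ι π lam W Ω q Φ) (hE : UP E) {c : C₀(G, ℂ)}
    (hc : HasCompactSupport c) (h1 : ∫⁻ g, ‖c g‖ₑ ^ 2 ∂μ ≤ ENNReal.ofReal (1 ^ 2)) :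
    C(P, ℝ) →ₗ[ℝ] ℝ where
  toFun k := al μ Φ Ω E c k
  map_add' a b := h.al_add hE hc h1 a b
  map_smul' t a := LgI.al_smul c t a

/-- the state of a good bump is almost invariant -/
theorem LgI.al_inv [μ.IsHaarMeasure] [μ.IsMulRightInvariant] (h : LgI μ ι π lam W Ω q Φ)
    (hE : MpI π lam W q M E) {u : H} (hu : u ∈ M) {c : C₀(G, ℂ)} (hc : HasCompactSupport c)
    (h1 : ∫⁻ g, ‖c g‖ₑ ^ 2 ∂μ ≤ ENNReal.ofReal (1 ^ 2)) {δ : ℝ} (hδ : 0 < δ)
    (h2 : ∫⁻ g, ‖(cj (ι u) c - c) g‖ₑ ^ 2 ∂μ ≤ ENNReal.ofReal ((δ / 4) ^ 2)) (k : C(P, ℝ)) :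
    |al μ Φ Ω E c (trc (ι u) k) - al μ Φ Ω E c k| ≤ δ * ‖k‖ := by
  have e : tpr (ι u) (trc (ι u) k) = k := by
    ext x
    change k (ι u • (ι u)⁻¹ • x) = k x
    rw [smul_inv_smul]
  have e1 : al μ Φ Ω E (cj (ι u) c) k = al μ Φ Ω E c (trc (ι u) k) := by
    rw [← h.al_cj hE hu hc zero_le_one h1 (trc (ι u) k), e]
  have hcj : HasCompactSupport (cj (ι u) c) := H295.hcs_cj hc (ι u)
  have hcd : HasCompactSupport (cj (ι u) c - c) := by
    have := hcj.sub hc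
    exact this
  have b2 : ∫⁻ g, ‖cj (ι u) c g‖ₑ ^ 2 ∂μ ≤ ENNReal.ofReal (1 ^ 2) := by
    rw [lint_cj]
    exact h1
  have h4 := h.al_close hE.up hc hcj hcd (s := δ / 4) (by positivity) h1 b2 h2 k
    (δ := δ / 4) (by positivity)
  rw [e1] at h4
  refine h4.trans ?_
  have h5 : (δ / 4)⁻¹ * (δ / 4) ^ 2 + δ / 4 * 2 = 3 / 4 * δ := by
    field_simp
    ring
  rw [h5, mul_comm]
  have := norm_nonneg k
  nlinarith

/-- **uniqueness of the boundary map**, on vectors of compact support -/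
theorem LgI.uq₀ [Countable Γ] [μ.IsHaarMeasure] [μ.IsMulRightInvariant]
    (h : LgI μ ι π lam W Ω q Φ)
    (hN : ∀ C : Set G, IsCompact C → ∃ N : ℕ, ∀ g, ∑' γ, C.indicator (1 : G → ℝ≥0∞) (q γ * g) ≤ N)
    {y : P} (hM : ∀ u ∈ M, ∀ v ∈ M, Commute u v) (hy : Disj ι M y)
    (hE : MpI π lam W q M E) (f : C(P, ℂ)) (b b' : C₀(G, ℂ)) (hb : HasCompactSupport b)
    (hbb : ∀ x, b' x = f (x • y) * b x) : E f * Φ b = Φ b' := by
  obtain ⟨V, hV1, hV2⟩ := exists_compact_mem_nhds (1 : G)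
  set C : Set G := tsupport b * V⁻¹ with hC
  have hCc : IsCompact C := hb.isCompact.mul hV1.inv
  have hCm : MeasurableSet C := hCc.measurableSet
  obtain ⟨N, hN⟩ := hN C hCc
  obtain ⟨k, hk0, hky, hk1, -⟩ := H715.Xc6.exists_osc hCc f y
  have hD : Cm W (E f * Φ b - Φ b') :=
    H862.cm_sub (H862.cm_mul (hE.cm f) (h.cm b)) (h.cm b')
  have key : ∀ ω : ℝ, 0 < ω → TRN lam Ω (E f * Φ b - Φ b') ≤
      ENNReal.ofReal (2 * (‖Φ b‖ ^ 2 * (N * ω)) + 2 * (ω ^ 2 * N)) := by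
    intro ω hω
    obtain ⟨F, hF, δ, hδ, hst⟩ := fs_of_disj hy k hk0 hky hω
    have hO : ∀ᶠ s in 𝓝 (1 : G), ∀ g ∈ C, ‖f (g • y) * b (g * s) - b' (g * s)‖ < ω := by
      refine hCc.eventually_forall_of_forall_eventually fun g _ => ?_
      have hcont : Continuous fun p : G × G =>
          ‖f (p.2 • y) * b (p.2 * p.1) - b' (p.2 * p.1)‖ := by fun_prop
      have h0 : ‖f (g • y) * b (g * 1) - b' (g * 1)‖ = 0 := by
        rw [mul_one, hbb, sub_self, norm_zero]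
      have := hcont.tendsto ((1 : G), g)
      simp only at this
      rw [h0] at this
      exact this.eventually (gt_mem_nhds hω)
    have hP : (F.toList.map ι).Pairwise Commute := by
      rw [List.pairwise_map]
      have h0 : F.toList.Pairwise fun _ _ => True := List.pairwise_of_forall fun _ _ => trivial
      refine h0.imp_of_mem fun {a a'} ha ha' _ => ?_
      exact (hM a (hF a (Finset.mem_toList.1 ha)) a' (hF a' (Finset.mem_toList.1 ha'))).map ι
    obtain ⟨c, c1, c2, c3, c4, c5⟩ := exists_bump1 μ (F.toList.map ι) hP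
      (Filter.inter_mem hO hV2) (ε := δ / 4) (by positivity)
    have b1 : ∫⁻ g, ‖c g‖ₑ ^ 2 ∂μ ≤ ENNReal.ofReal (1 ^ 2) := by rw [c3]; simp
    have h3 := h.trn_le hE (c := c) (b := b) (b' := b') (f := f) (k := k) (y := y) (ω := ω)
      (C := C) (N := N) c1 c2 c3 hCm hN hω.le hk1
      (fun g hg x hx => by
        have h4 := (c4 (g⁻¹ * x) hx).1 g hg
        rw [mul_inv_cancel_left] at h4
        exact h4.le)
      (fun g hg x hx => by
        have h5 : b x = 0 := by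
          by_contra h0
          apply hg
          refine ⟨x, subset_tsupport _ h0, (g⁻¹ * x)⁻¹, Set.inv_mem_inv.2 (c4 _ hx).2, ?_⟩
          simp
        exact ⟨h5, by rw [hbb, h5, mul_zero]⟩)
    have h4 : ∫⁻ g, ENNReal.ofReal (dn Φ Ω E c k g) ∂μ = ENNReal.ofReal (al μ Φ Ω E c k) := by
      unfold al
      rw [ofReal_integral_eq_lintegral_ofReal (h.int_dn hE.up c1 zero_le_one b1 k)
        (Eventually.of_forall fun g => dn_nonneg hE.up c hk0 g)]
    have h5 : 0 ≤ al μ Φ Ω E c k := LgI.al_nonneg hE.up c hk0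
    have h6 : al μ Φ Ω E c k ≤ ω := by
      refine hst (h.alL hE.up c1 b1) (fun a ha => LgI.al_nonneg hE.up c ha)
        (h.al_one hE.up c1 c3).le (fun u hu a => ?_)
      exact h.al_inv hE (hF u hu) c1 b1 hδ
        (c5 (ι u) (List.mem_map.2 ⟨u, Finset.mem_toList.2 hu, rfl⟩)) a
    rw [h4] at h3
    refine h3.trans ?_
    have h7 : 2 * (‖Φ b‖ₑ ^ 2 * (N * ENNReal.ofReal (al μ Φ Ω E c k))) +
        2 * (ENNReal.ofReal ω ^ 2 * N) =
        ENNReal.ofReal (2 * (‖Φ b‖ ^ 2 * (N * al μ Φ Ω E c k)) + 2 * (ω ^ 2 * N)) := by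
      rw [ENNReal.ofReal_add (by positivity) (by positivity), ENNReal.ofReal_mul zero_le_two,
        ENNReal.ofReal_mul zero_le_two, ENNReal.ofReal_mul (by positivity),
        ENNReal.ofReal_mul (by positivity), ENNReal.ofReal_mul (by positivity),
        ENNReal.ofReal_pow (norm_nonneg _), ofReal_norm_eq_enorm, ENNReal.ofReal_pow hω.le,
        ENNReal.ofReal_natCast, ENNReal.ofReal_ofNat]
    rw [h7]
    refine ENNReal.ofReal_le_ofReal ?_
    gcongr
  have hz : TRN lam Ω (E f * Φ b - Φ b') = 0 := by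
    have h6 : Tendsto (fun n : ℕ => 1 / ((n : ℝ) + 1)) atTop (𝓝 0) :=
      tendsto_one_div_add_atTop_nhds_zero_nat
    have h7 : Tendsto (fun n : ℕ => ENNReal.ofReal (2 * (‖Φ b‖ ^ 2 * (N * (1 / ((n : ℝ) + 1)))) +
        2 * ((1 / ((n : ℝ) + 1)) ^ 2 * N))) atTop
        (𝓝 (ENNReal.ofReal (2 * (‖Φ b‖ ^ 2 * (N * 0)) + 2 * ((0 : ℝ) ^ 2 * N)))) :=
      (ENNReal.continuous_ofReal.tendsto _).comp
        ((((h6.const_mul _).const_mul _).const_mul _).add (((h6.pow 2).mul_const _).const_mul _))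
    have h8 := ge_of_tendsto h7 (Eventually.of_forall fun n => key (1 / ((n : ℝ) + 1)) (by positivity))
    simpa using h8
  exact sub_eq_zero.1 (h.tr_zero _ hD hz)

/-- **uniqueness of the boundary map** -/
theorem LgI.uq [Countable Γ] [μ.IsHaarMeasure] [μ.IsMulRightInvariant]
    (h : LgI μ ι π lam W Ω q Φ) (hnd : ∀ ξ, (∀ c, Φ c ξ = 0) → ξ = 0)
    (hN : ∀ C : Set G, IsCompact C → ∃ N : ℕ, ∀ g, ∑' γ, C.indicator (1 : G → ℝ≥0∞) (q γ * g) ≤ N)
    {y : P} (hM : ∀ u ∈ M, ∀ v ∈ M, Commute u v) (hy : Disj ι M y)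
    (hE : MpI π lam W q M E) (F : C(P, ℂ) → (K →L[ℂ] K))
    (hF : ∀ f (b b' : C₀(G, ℂ)), (∀ x, b' x = f (x • y) * b x) → F f * Φ b = Φ b') :
    ∀ f, E f = F f := by
  intro f
  have hd : Dense (H295.cs Φ : Set K) := H295.dense_cs hnd
  refine ContinuousLinearMap.ext fun ξ => ?_
  refine congrFun (Continuous.ext_on hd (E f).continuous (F f).continuous ?_) ξ
  rintro v ⟨b, hb, hv⟩
  have h1 := h.uq₀ hN hM hy hE f b (mf y f b) hb (fun x => rfl)
  have h2 := hF f b (mf y f b) (fun x => rfl)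
  have h3 := congrArg (fun T : K →L[ℂ] K => T v) (h1.trans h2.symm)
  change E f (Φ b v) = F f (Φ b v) at h3
  rwa [hv] at h3

/-- **the uniqueness in the letters of helper295** (`Uniq`), for a point of a classical leg -/
theorem LgI.uniq [Countable Γ] [μ.IsHaarMeasure] [μ.IsMulRightInvariant]
    (h : LgI μ ι π lam W Ω q Φ)
    (hN : ∀ C : Set G, IsCompact C → ∃ N : ℕ, ∀ g, ∑' γ, C.indicator (1 : G → ℝ≥0∞) (q γ * g) ≤ N)
    {y : P} (hM : ∀ u ∈ M, ∀ v ∈ M, Commute u v) (hy : Disj ι M y)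
    {E : C(P, ℂ) →⋆ₐ[ℂ] (K →L[ℂ] K)} (hp : Pt π lam W q ι y E Φ) : Uniq π lam W q M E := by
  intro E' h1 h2 h3 h4 h5 h6 f
  refine h.uq hp.nd hN hM hy (E := E') ⟨⟨h1, h2⟩, h4, fun u hu f => ?_, h5⟩ (fun f => E f)
    (fun f b b' hb => ?_) f
  · have h7 := h6 u hu f
    calc π u * E' f = π u * E' f * π u⁻¹ * π u := by
          rw [mul_assoc (π u * E' f), inv_mul_map, mul_one]
      _ = E' f * π u := by rw [h7]
  · have e : b' = mf y f b := by
      ext x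
      exact hb x
    rw [e]
    exact hp.mulE f b

/-- the structure `LgI` from the picture (`RC.Pic`), `(TV)` and a point of a classical leg -/
theorem lgI_of [TopologicalSpace H] [μ.IsHaarMeasure] [μ.IsMulRightInvariant]
    (hPic : RC.Pic π lam W Ω)
    (tv : ∀ Y, Cm W Y → (∀ γ, Y * lam γ = lam γ * Y) → ∀ h : H,
      ⟪π h Ω, Y (π h Ω)⟫_ℂ = ⟪Ω, Y Ω⟫_ℂ)
    {y : P} {E : C(P, ℂ) →⋆ₐ[ℂ] (K →L[ℂ] K)} (hp : Pt π lam W q ι y E Φ) :
    LgI μ ι π lam W Ω q Φ where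
  adjP := hPic.adjP
  adjL := hPic.adjL
  Wadj := hPic.Wadj
  nΩ := hPic.nΩ
  tr_adj := hPic.tr_adj
  tr_zero := hPic.tr_zero
  tv := tv
  cm := hp.cm
  cov := hp.cov
  pcov := hp.pcov
  sq c hc ξ := by
    have h1 := H295.sq_int μ hp.nd c hc ξ
    have h2 := H295.integrable_sq μ hp.nd c hc ξ
    have h3 : ∫⁻ g, ‖Φ (ltr g c) ξ‖ₑ ^ 2 ∂μ = ENNReal.ofReal (∫ g, ‖Φ (ltr g c) ξ‖ ^ 2 ∂μ) := by
      rw [ofReal_integral_eq_lintegral_ofReal h2 (Eventually.of_forall fun g => by positivity)]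
      refine lintegral_congr fun g => ?_
      rw [← ofReal_norm_eq_enorm, ← ENNReal.ofReal_pow (norm_nonneg _)]
    have h4 : Continuous fun g => ‖c g‖ ^ 2 := (map_continuous c).norm.pow 2
    have h5 : HasCompactSupport fun g => ‖c g‖ ^ 2 :=
      hc.comp_left (g := fun z : ℂ => ‖z‖ ^ 2) (by simp)
    have h6 : Integrable (fun g => ‖c g‖ ^ 2) μ := h4.integrable_of_hasCompactSupport h5
    have h7 : ∫⁻ g, ‖c g‖ₑ ^ 2 ∂μ = ENNReal.ofReal (H295.sq μ c) := by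
      unfold H295.sq
      rw [ofReal_integral_eq_lintegral_ofReal h6 (Eventually.of_forall fun g => by positivity)]
      refine lintegral_congr fun g => ?_
      rw [← ofReal_norm_eq_enorm, ← ENNReal.ofReal_pow (norm_nonneg _)]
    rw [h3, h1, h7, ENNReal.ofReal_mul (H295.sq_nonneg' μ c),
      ENNReal.ofReal_pow (norm_nonneg _), ofReal_norm_eq_enorm]

end Vale.Agent.P092.H325
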